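import Vale.Agent.P283R.Sg.St

/-!
# P283R, block SG: the ring of the sections
-/

open Set

noncomputable section

namespace Vale.Agent.P283R.Sg

open Vale.Agent.P287D Vale.Agent.P283R.Sl

namespace G27

variable {K : Type} [Field K] [Algebra ℂ K] {k : ℕ}

/-- the sections as a subspace -/
def secS (T : Set (Pl K)) (D : Pl K → Fin k → ℤ) (m : Fin k → ℤ) : Submodule ℂ K :=
  ⨅ P ∈ T, P.sub ((m ⬝ᵥ D P : ℤ) : ℝ)

variable {T : Set (Pl K)} {D : Pl K → Fin k → ℤ} {m m' : Fin k → ℤ} {φ ψ : K}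

theorem mem_secS : φ ∈ secS T D m ↔ φ ∈ Sec T D m := by
  simp only [secS, Submodule.mem_iInf, Pl.mem_sub]
  exact ⟨fun h n P hP => by exact_mod_cast (h P hP).resolve_left n,
    fun h P hP => or_iff_not_imp_left.2 fun n => by exact_mod_cast h n P hP⟩

theorem sec_mul (h : φ ∈ Sec T D m) (h' : ψ ∈ Sec T D m') : φ * ψ ∈ Sec T D (m + m') :=
  fun n P hP => by
    have a := h (left_ne_zero_of_mul n) P hP
    have b := h' (right_ne_zero_of_mul n) P hP
    rw [P297Z.Pl.ord_mul _ (left_ne_zero_of_mul n) (right_ne_zero_of_mul n), add_dotProduct]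
    omega

theorem sg_iff : (∀ n, (sg m φ).coeff n ∈ Sec T D n) ↔ φ ∈ Sec T D m := by
  refine ⟨fun h => by simpa using h m, fun h n => ?_⟩
  by_cases e : m = n
  · subst e
    simpa using h
  · exact fun z => (z (by simp [e])).elim

/-- the ring of the sections -/
def ring (T : Set (Pl K)) (D : Pl K → Fin k → ℤ) : Subalgebra ℂ (Laurent K k) where
  carrier := {F | ∀ m, F.coeff m ∈ Sec T D m}
  add_mem' {F G} hF hG m :=
    mem_secS.1 (by simpa using add_mem (mem_secS.2 (hF m)) (mem_secS.2 (hG m)))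
  mul_mem' {F G} hF hG m := by
    rw [AddMonoidAlgebra.coeff_mul_apply_left]
    refine mem_secS.1 (Submodule.sum_mem _ fun n _ => mem_secS.2 ?_)
    simpa using sec_mul (hF n) (hG (-n + m))
  algebraMap_mem' c := sg_iff.2 (show algebraMap ℂ K c ∈ Sec T D 0 from fun _ P _ => by
    simp [P.ord_const])

end G27

open G27 in
theorem gg27 : GG := fun K _ _ k T D => by
  refine ⟨ring T D, fun _ => Iff.rfl, fun _ _ => sg_iff, fun N ⟨s, a, π, h1, h2⟩ => ⟨s, a, ?_⟩,
    fun ι _ s a h => ?_⟩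
  · rw [Algebra.adjoin_range_eq_range_aeval, show MvPolynomial.aeval (fun j => sg (a j) (s j)) = π
      from MvPolynomial.algHom_ext fun j => by simp [h1]]
    exact Subalgebra.ext h2
  · let e := (Fintype.equivFin ι).symm
    refine ⟨s ∘ e, a ∘ e, MvPolynomial.aeval fun j => sg (a (e j)) (s (e j)), fun j => by simp,
      fun F => ?_⟩
    change F ∈ (MvPolynomial.aeval fun j => sg (a (e j)) (s (e j))).range ↔ F ∈ ring T D
    rw [← Algebra.adjoin_range_eq_range_aeval, ← h,
      ← e.surjective.range_comp fun j => sg (a j) (s j)]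
    rfl

end Vale.Agent.P283R.Sg
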