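import Vale.Agent.P283R.Sg.St
import Vale.Agent.P283R.To.GlMse
import Vale.Agent.P283R.Cx.Sch
import Vale.Agent.P283R.Br.Glue

/-!
# P283R, block SG: from the tier to the schemes
-/

open Set CategoryTheory AlgebraicGeometry

noncomputable section

namespace Vale.Agent.P283R.Sg

namespace T20

open Vale.Agent.P287D Vale.Agent.P283M.Stm Vale.Agent.P283M.Stm.Var Vale.Agent.P297Z
open Vale.Agent.P283M Vale.Agent.P283M.Br Vale.Agent.P283R.Gl Vale.Agent.P283R.Sch

variable {X : Var} {k n : ℕ} {W : X.X.Opens}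

theorem pq_inj : Function.Injective (pq (X := X)) := fun E E' e =>
  Cox.is_uniq (pq_is E).dom (e ▸ (pq_is E').dom)

/-- the places of the prime divisors in `W` -/
def pls (W : X.X.Opens) : Set (Pl X.K) := pq '' {E : X.PrimeDiv | E.1 ∈ W}

/-- the divisors at the places -/
def dvs (D : Fin k → X.PrimeDiv →₀ ℤ) (P : Pl X.K) (i : Fin k) : ℤ := Cox.up (D i) P

theorem dot (D : Fin k → X.PrimeDiv →₀ ℤ) (m : Fin k → ℤ) (E : X.PrimeDiv) :
    m ⬝ᵥ dvs D (pq E) = ∑ i, m i * D i E :=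
  Finset.sum_congr rfl fun _ _ => congrArg _ (Cox.up_eq _ (pq_is E).dom)

theorem sec (D : Fin k → X.PrimeDiv →₀ ℤ) (m : Fin k → ℤ) (φ : X.K) :
    φ ∈ Sec (pls W) (dvs D) m ↔
      φ ≠ 0 → ∀ E : X.PrimeDiv, E.1 ∈ W → 0 ≤ ord φ E + ∑ i, m i * D i E :=
  imp_congr_right fun _ => forall_mem_image.trans (forall_congr' fun E => by
    rw [dot, pq_ord]; rfl)

theorem fn {p : Pl X.K → Prop} {S : Set X.PrimeDiv} (f : S.Finite) (h : ∀ E, p (pq E) → E ∈ S) :
    {P | P ∈ pls W ∧ p P}.Finite :=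
  (f.image pq).subset (by rintro _ ⟨⟨E, -, rfl⟩, a⟩; exact ⟨E, h E a, rfl⟩)

theorem fac (hK : FF X.K (n + 1)) {ω : P289.DForm ℂ X.K (n + 1)} {j : X.K} (fr : Frm ω j)
    {D : Fin k → X.PrimeDiv →₀ ℤ} {e : X.PrimeDiv → Fin k → ℤ} {x : X.PrimeDiv → X.K}
    (x0 : ∀ E, x E ≠ 0) (h : ∀ E E' : X.PrimeDiv, E'.1 ∈ W →
      Finsupp.single E (1 : ℚ) E' = (ord (x E) E' + ∑ i, e E i * D i E' : ℤ)) :
    Fac (n + 1) (pls W) (dvs D) (Function.extend pq x 1) (Function.extend pq e 0) := by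
  refine ⟨n.succ_pos, hK, fun φ m => fn ((fin X φ).union
    (finite_iUnion fun i => (D i).support.finite_toSet)) fun E a => by_contra fun b => a ?_,
    fun y hy => ?_, ?_, ?_, ?_⟩
  · rw [mem_union, not_or, mem_iUnion, not_exists] at b
    rw [dot, ← pq_ord, not_not.1 b.1, zero_add]
    exact Finset.sum_eq_zero fun i _ => by rw [Finsupp.notMem_support_iff.1 (b.2 i), mul_zero]
  · obtain ⟨f, -, ef⟩ := Cb.kap_cn hK hy
    refine fn (((P283R.Br.form_fin hK fr).union (fin X j)).union (fin X f)) fun E a =>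
      by_contra fun b => a ?_
    rw [mem_union, mem_union, not_or, not_or] at b
    have c := fr _ _ E _ (pq_is E) (pq_ord E)
    rw [not_not.1 b.1.1, ← pq_ord, not_not.1 b.1.2, Int.cast_zero, add_zero] at c
    rw [ef, Pi.add_apply, dv_apply, ← c, ← pq_ord, not_not.1 b.2, Int.cast_zero, add_zero]
  · rintro _ ⟨E, -, rfl⟩
    rw [pq_inj.extend_apply]
    exact x0 E
  · rintro _ ⟨E, a, rfl⟩
    have := h E E a
    rw [Finsupp.single_eq_same] at this
    rw [pq_inj.extend_apply, pq_inj.extend_apply, dot, ← pq_ord]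
    exact_mod_cast this.symm
  · rintro _ ⟨E, -, rfl⟩ _ ⟨E', a, rfl⟩ c
    have := h E E' a
    rw [Finsupp.single_eq_of_ne fun z => c (congrArg _ z)] at this
    rw [pq_inj.extend_apply, pq_inj.extend_apply, dot, ← pq_ord]
    exact_mod_cast this.symm

theorem span (fct : FCT) {D : Fin k → X.PrimeDiv →₀ ℤ} {x : Pl X.K → X.K}
    {e : Pl X.K → Fin k → ℤ} (h : Fac n (pls W) (dvs D) x e) (G : X.PrimeDiv → ℤ)
    (f : {E | G E ≠ 0}.Finite) : ∃ (m : Fin k → ℤ) (φ : X.K), φ ≠ 0 ∧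
      ∀ E : X.PrimeDiv, E.1 ∈ W → G E = ord φ E + ∑ i, m i * D i E := by
  obtain ⟨m, φ, φ0, a⟩ := (fct _ _ _ _ _ _ _ h).2 (Function.extend pq G 0)
    (fn f fun E b => by rwa [pq_inj.extend_apply] at b)
  refine ⟨m, φ, φ0, fun E b => ?_⟩
  have := a _ ⟨E, b, rfl⟩
  rw [pq_inj.extend_apply, dot, ← pq_ord] at this
  exact this.symm

end T20

open Sl Sl.Var T20 in
/-- **TOP** -/
theorem top : TOP := by
  intro fct tier d X Z f ω B z hd a b ⟨k, N, V, D, L, _, _, s, bo, ρ, hV, zV, h1, h2, h3⟩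
  obtain ⟨n, rfl⟩ : ∃ n, d = n + 1 := ⟨d - 1, by omega⟩
  have hK := P283M.Br.ffd X.o _ a
  obtain ⟨j, -, fr⟩ := P283M.Br.frm X.o _ hK ω b
  have f0 := P283R.Br.form_fin hK fr
  choose e x x0 hx using h1
  have fc := fac (X := X.o) (W := pre f V) hK fr x0 hx
  have es : (fun m => sections (pre f V) (comb D m)) =
      Sec (pls (X := X.o) (pre f V)) (dvs (X := X.o) D) :=
    funext fun m => Set.ext fun φ => (sec (X := X.o) D m φ).symm
  obtain ⟨N', hN, g⟩ := tier _ L _ _ _ _ _ _ s bo ρ fc (es ▸ h3) N (es ▸ h2)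
  have sp : ∀ (B : X.QDiv) (q : ℕ), (∀ E, ∃ m : ℤ, q * B.coeff E = m) →
      InSpan (pre f V) D fun E => q * logCan ω B E := fun B q hq => by
    choose c hc using hq
    obtain ⟨m, φ, φ0, e⟩ := span fct fc
      (fun E => q * formOrd ω (RingEquiv.refl X.K) E + c E)
      ((f0.union B.support.finite_toSet).subset fun E e => by
        by_contra w
        have w1 : formOrd ω (RingEquiv.refl X.K) E = 0 := not_not.1 fun a => w (.inl a)
        have w2 := hc E
        rw [show B.coeff E = 0 from Finsupp.notMem_support_iff.1 fun a => w (.inr a),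
          mul_zero] at w2
        exact e (by simp only [w1, mul_zero, zero_add]; exact_mod_cast w2.symm))
    refine ⟨m, φ, φ0, fun E w => ?_⟩
    simp only [logCan, mul_add, hc]
    exact_mod_cast e E w
  refine ⟨k, N', V, D, hN, hV, zV, es ▸ g, sp B, .inr ?_⟩
  simpa using sp 0 1 fun E => ⟨0, by simp [QDiv.coeff]⟩

end Vale.Agent.P283R.Sg
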