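import Mathlib

/-!
# P283R, block SG: eigenvectors of derivations with independent weights
-/

open Set

namespace Vale.Agent.P283R.Sg.C35

/-- common eigenvectors with distinct weights are linearly independent -/
theorem li {k V B J : Type*} [Field k] [AddCommGroup V] [Module k V] (T : B → V →ₗ[k] V)
    (v : J → V) (v0 : ∀ j, v j ≠ 0) (w : B → J → k) (e : ∀ b j, T b (v j) = w b j • v j)
    (inj : ∀ j j', (∀ b, w b j = w b j') → j = j') : LinearIndependent k v := by
  classical
  refine linearIndependent_iff'.2 fun s => ?_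
  induction s using Finset.induction_on with
  | empty => simp
  | insert a s ha ih =>
    intro g hg
    rw [Finset.sum_insert ha] at hg
    have z : ∀ j ∈ s, g j = 0 := fun j hj => by
      obtain ⟨b, hb⟩ := not_forall.1 fun h => ha (inj j a h ▸ hj)
      have u := congrArg (T b) hg
      rw [map_add, map_zero, map_smul, e, map_sum, smul_comm, eq_neg_of_add_eq_zero_left hg,
        smul_neg, Finset.smul_sum, neg_add_eq_sub, ← Finset.sum_sub_distrib] at u
      have := ih (fun i => g i * (w b i - w b a)) (by
        rw [← u]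
        exact Finset.sum_congr rfl fun i _ => by rw [map_smul, e]; module) j hj
      exact (mul_eq_zero.1 this).resolve_right (sub_ne_zero.2 hb)
    rw [Finset.sum_eq_zero fun j hj => by rw [z j hj, zero_smul], add_zero] at hg
    exact Finset.forall_mem_insert _ _ _ |>.2 ⟨(smul_eq_zero.1 hg).resolve_right (v0 a), z⟩

variable {k F B ι : Type*} [Field k] [Field F] [Algebra k F]

theorem eig_mul (δ : Derivation k F F) {a b : F} {c e : k} (h : δ a = c • a) (h' : δ b = e • b) :
    δ (a * b) = (c + e) • (a * b) := by
  rw [Derivation.leibniz, h, h']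
  simp only [Algebra.smul_def, map_add, Algebra.algebraMap_self, RingHom.id_apply]
  ring

theorem eig_zpow (δ : Derivation k F F) {a : F} {c : k} (a0 : a ≠ 0) (h : δ a = c • a) (m : ℤ) :
    δ (a ^ m) = (m * c) • a ^ m := by
  rw [Derivation.leibniz_zpow, h, zpow_sub_one₀ a0]
  simp only [Algebra.smul_def, map_mul, Algebra.algebraMap_self, RingHom.id_apply,
    eq_intCast, map_intCast]
  field_simp

theorem eig_prod (δ : Derivation k F F) {x : ι → F} {c : ι → k} (x0 : ∀ i, x i ≠ 0)
    (h : ∀ i, δ (x i) = c i • x i) (n : ι → ℤ) (s : Finset ι) :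
    δ (∏ i ∈ s, x i ^ n i) = (∑ i ∈ s, n i * c i) • ∏ i ∈ s, x i ^ n i := by
  classical
  induction s using Finset.induction_on with
  | empty => simp
  | insert a s ha ih =>
    rw [Finset.prod_insert ha, Finset.sum_insert ha, eig_mul δ (eig_zpow δ (x0 a) (h a) _) ih]

/-- **CNT**: eigenvectors are algebraically independent if no monomial is a constant -/
theorem ai (δ : B → Derivation k F F) (x : ι → F) (x0 : ∀ i, x i ≠ 0)
    (eig : ∀ b i, ∃ c : k, δ b (x i) = c • x i)
    (ind : ∀ n : ι →₀ ℤ, (∀ b, δ b (n.prod fun i m => x i ^ m) = 0) → n = 0) :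
    AlgebraicIndependent k x := by
  classical
  choose c hc using eig
  have l := li (fun b => (δ b : F →ₗ[k] F)) (fun m : ι →₀ ℕ => ∏ i ∈ m.support, x i ^ m i)
    (fun m => Finset.prod_ne_zero_iff.2 fun i _ => pow_ne_zero _ (x0 i))
    (fun b m => ∑ i ∈ m.support, (m i : k) * c b i)
    (fun b m => by simpa using eig_prod (δ b) x0 (hc b) (fun i => m i) m.support)
    fun m m' e => by
      have := ind (m.mapRange Nat.cast Nat.cast_zero - m'.mapRange Nat.cast Nat.cast_zero)
        fun b => by
          have t : ∀ u : ι →₀ ℕ, ((u.mapRange Nat.cast Nat.cast_zero : ι →₀ ℤ).sum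
              fun i a => (a : k) * c b i) = ∑ i ∈ u.support, (u i : k) * c b i := fun u => by
            rw [Finsupp.sum_mapRange_index (by simp)]
            simp [Finsupp.sum]
          rw [Finsupp.prod, eig_prod (δ b) x0 (hc b)]
          refine smul_eq_zero_of_left ?_ _
          have := Finsupp.sum_sub_index (f := (m.mapRange Nat.cast Nat.cast_zero : ι →₀ ℤ))
            (g := m'.mapRange Nat.cast Nat.cast_zero) (h := fun i a => (a : k) * c b i)
            fun i a a' => by push_cast; ring
          rw [t, t, e b, sub_self] at this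
          exact this
      ext i
      simpa [sub_eq_zero] using DFunLike.congr_fun this i
  refine algebraicIndependent_iff.2 fun p hp => ?_
  rw [MvPolynomial.aeval_def, MvPolynomial.eval₂_eq] at hp
  ext m
  by_contra z
  exact z (linearIndependent_iff'.1 l p.support (fun m => p.coeff m)
    (by simpa only [Algebra.smul_def] using hp) m (MvPolynomial.mem_support_iff.2 z))

/-- the count -/
theorem card_le {k F ι : Type} [Field k] [Field F] [Algebra k F] {x : ι → F} {N : ℕ}
    (h : AlgebraicIndependent k x) (hN : Algebra.trdeg k F ≤ N) : Finite ι ∧ Nat.card ι ≤ N := by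
  have a := h.cardinalMk_le_trdeg.trans hN
  exact ⟨Cardinal.lt_aleph0_iff_finite.1 (a.trans_lt Cardinal.natCast_lt_aleph0),
    Cardinal.toNat_le_iff_of_lt_aleph0 _ (a.trans_lt Cardinal.natCast_lt_aleph0) |>.2 a⟩

end Vale.Agent.P283R.Sg.C35
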