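import Vale.Agent.P283R.Sg.St
import Vale.Agent.P283R.Sg.Cnt35

/-!
# P283R, block SG: the number of the eigenvectors (row CNTR)
-/

open Set

noncomputable section

namespace Vale.Agent.P283R.Sg

open Vale.Agent.P287D Vale.Agent.P283R.Sl
open Vale.Agent.P285N.Brep (jac Fr)

namespace C40

variable {K L : Type} [Field K] [Algebra ℂ K] [LieRing L] [LieAlgebra ℂ L] {k d : ℕ}

/-- a function which is killed by a frame of derivations is a constant -/
theorem con (hK : FF K d) {ξ : Fin d → Derivation ℂ K K} {y : Fin d → K} (hj : jac ξ y ≠ 0)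
    {φ : K} (h : ∀ i, ξ i φ = 0) : ∃ a : ℂ, algebraMap ℂ K a = φ := by
  obtain ⟨D, hD⟩ := Cb.fr_of hK (P285N.Brep.TbAux.ind ξ y hj)
  have z : (fun j => D j φ) = 0 := Matrix.eq_zero_of_mulVec_eq_zero hj (funext fun i =>
    (Cb.expand (Cb.dr_of (ξ i)) (ξ i).map_algebraMap hD φ).symm.trans (h i))
  have a : IsAlgebraic ℂ φ := by
    by_contra t
    obtain ⟨E, hE⟩ := P297.H927.exists_derivation t
    rw [Cb.expand (Cb.dr_of E) E.map_algebraMap hD φ,
      Finset.sum_eq_zero fun j _ => by rw [congrFun z j]; simp] at hE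
    exact zero_ne_one hE
  exact minpoly.mem_range_of_degree_eq_one ℂ φ
    (IsAlgClosed.degree_eq_one_of_irreducible ℂ (minpoly.irreducible a.isIntegral))

/-- the group of the homogeneous elements -/
abbrev H (K : Type) [Field K] (k : ℕ) : Type := (Fin k → ℤ) × Additive Kˣ

/-- the function -/
def val (h : H K k) : K := (h.2.toMul : Kˣ)

/-- the homogeneous element of a nonzero function -/
def mk (m : Fin k → ℤ) (φ : K) (h : φ ≠ 0) : H K k := (m, Additive.ofMul (Units.mk0 φ h))

omit [Algebra ℂ K] in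
theorem val_ne (h : H K k) : val h ≠ 0 := Units.ne_zero _

omit [Algebra ℂ K] in
theorem val_add (h h' : H K k) : val (h + h') = val h * val h' := rfl

omit [Algebra ℂ K] in
theorem val_sum {ι : Type} (s : Finset ι) (n : ι → ℤ) (h : ι → H K k) :
    val (∑ i ∈ s, n i • h i) = ∏ i ∈ s, val (h i) ^ n i := by
  simp [val, Prod.snd_sum, toMul_sum]

variable {ρ : L →ₗ⁅ℂ⁆ Derivation ℂ (Laurent K k) (Laurent K k)}
  {σ : L →ₗ⁅ℂ⁆ Derivation ℂ K K} {c : L → (Fin k → ℤ) → K}

theorem c_add (r : Res ρ σ c) (δ : L) (m m' : Fin k → ℤ) : c δ (m + m') = c δ m + c δ m' := by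
  have e : sg (m + m') (1 : K) = sg m 1 * sg m' 1 := by
    rw [AddMonoidAlgebra.single_mul_single, mul_one]
  have a := r.app δ (m + m') 1
  rw [e, Derivation.leibniz, r.app, r.app, smul_eq_mul, smul_eq_mul,
    AddMonoidAlgebra.single_mul_single, AddMonoidAlgebra.single_mul_single, add_comm m' m,
    ← AddMonoidAlgebra.single_add] at a
  have := AddMonoidAlgebra.single_right_injective a
  simp only [Derivation.map_one_eq_zero, zero_add, mul_one, one_mul] at this
  rw [← this, add_comm]

/-- the logarithmic derivative -/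
def lg (r : Res ρ σ c) (δ : L) : H K k →+ K :=
  AddMonoidHom.mk' (fun h => σ δ (val h) / val h + c δ h.1) fun h h' => by
    have a := val_ne h
    have b := val_ne h'
    rw [val_add, Derivation.leibniz, Prod.fst_add, c_add r, smul_eq_mul, smul_eq_mul]
    field_simp
    ring

theorem lg_ev (r : Res ρ σ c) {δ : L} {h : H K k} (e : Ev (ρ δ) (sg h.1 (val h))) :
    lg r δ h ∈ (algebraMap ℂ K).range := by
  obtain ⟨a, e⟩ := e
  rw [r.app, AddMonoidAlgebra.smul_single] at e
  have := AddMonoidAlgebra.single_right_injective e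
  refine ⟨a, ?_⟩
  have b := val_ne h
  change _ = σ δ (val h) / val h + c δ h.1
  rw [Algebra.smul_def] at this
  field_simp
  linear_combination -this

/-- the weight -/
def wt (r : Res ρ σ c) (δ : Fin d → L) : H K k →ₗ[ℤ] (Fin k → ℤ) × (Fin d → K) :=
  ((AddMonoidHom.fst _ _).prod (AddMonoidHom.pi fun i => lg r (δ i))).toIntLinearMap

theorem wt_eq (r : Res ρ σ c) (δ : Fin d → L) {h : H K k} :
    wt r δ h = 0 ↔ h.1 = 0 ∧ ∀ i, σ (δ i) (val h) = 0 := by
  refine Prod.ext_iff.trans (and_congr_right fun e : h.1 = 0 => funext_iff.trans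
    (forall_congr' fun i => ?_))
  change σ (δ i) (val h) / val h + c (δ i) h.1 = 0 ↔ _
  rw [e, r.zero, add_zero, div_eq_zero_iff, or_iff_left (val_ne h)]

/-- the rank of the group of the weights -/
theorem rank (hK : FF K d) (r : Res ρ σ c) (δ : Fin d → L) {ι : Type} [Fintype ι] (h : ι → H K k)
    (ev : ∀ j i, Ev (ρ (δ i)) (sg (h j).1 (val (h j))))
    (li : LinearIndependent ℤ fun j => wt r δ (h j)) : Fintype.card ι ≤ k + d := by
  classical
  let f : (ι → ℤ) →ₗ[ℤ] H K k := Fintype.linearCombination ℤ h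
  let g : (ι → ℤ) →ₗ[ℤ] (Fin k → ℤ) := (AddMonoidHom.fst _ _).toIntLinearMap.comp f
  let β := Module.finBasis ℤ (LinearMap.ker g)
  have ai := C35.ai (fun i => σ (δ i)) (fun a => val (f (β a))) (fun a => val_ne _)
    (fun i a => by
      have m : lg r (δ i) (f (β a)) ∈ (algebraMap ℂ K).range := by
        rw [Fintype.linearCombination_apply, map_sum]
        exact sum_mem fun j _ => by rw [map_zsmul]; exact zsmul_mem (lg_ev r (ev j i)) _
      obtain ⟨b, hb⟩ := m
      have z : (f (β a)).1 = 0 := (β a).2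
      change _ = σ (δ i) (val (f (β a))) / val (f (β a)) + c (δ i) (f (β a)).1 at hb
      rw [z, r.zero, add_zero, eq_div_iff (val_ne _)] at hb
      exact ⟨b, by rw [Algebra.smul_def, hb]⟩)
    fun n hn => by
      have e : f (Finsupp.linearCombination ℤ β n : LinearMap.ker g) =
          ∑ a ∈ n.support, n a • f (β a) := by
        change (f.comp (LinearMap.ker g).subtype) _ = _
        rw [Finsupp.linearCombination_apply, Finsupp.sum, map_sum]
        exact Finset.sum_congr rfl fun a _ => map_zsmul _ _ _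
      have z : wt r δ (f (Finsupp.linearCombination ℤ β n : LinearMap.ker g)) = 0 :=
        (wt_eq r δ).2 ⟨(Finsupp.linearCombination ℤ β n).2, fun i => by
          rw [e, val_sum]; exact hn i⟩
      rw [Fintype.linearCombination_apply, map_sum] at z
      simp only [map_zsmul] at z
      exact linearIndependent_iff.1 β.linearIndependent n
        (Subtype.ext (funext (Fintype.linearIndependent_iff.1 li _ z)))
  have a := (C35.card_le ai hK.trdeg.le).2
  rw [Nat.card_eq_fintype_card, Fintype.card_fin] at a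
  have b := (LinearMap.ker g).finrank_quotient_add_finrank
  rw [g.quotKerEquivRange.finrank_eq, Module.finrank_fintype_fun_eq_card] at b
  have e := (LinearMap.range g).finrank_le
  rw [Module.finrank_fintype_fun_eq_card, Fintype.card_fin] at e
  omega

/-- the order at a place -/
def oo (D : Pl K → Fin k → ℤ) (P : Pl K) : H K k →ₗ[ℤ] ℤ :=
  (AddMonoidHom.mk' (fun h : H K k => P.ord (val h) + h.1 ⬝ᵥ D P) fun h h' => by
    rw [val_add, P297Z.Pl.ord_mul _ (val_ne h) (val_ne h'), Prod.fst_add, add_dotProduct]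
    ring).toIntLinearMap

omit [Algebra ℂ K] in
theorem sg_add (h h' : H K k) :
    sg (h + h').1 (val (h + h')) = sg h.1 (val h) * sg h'.1 (val h') := by
  rw [AddMonoidAlgebra.single_mul_single, val_add, Prod.fst_add]

/-- the elements of a subalgebra -/
def mon (R : Subalgebra ℂ (Laurent K k)) : AddSubmonoid (H K k) where
  carrier := {h | sg h.1 (val h) ∈ R}
  zero_mem' := R.one_mem
  add_mem' := fun {a b} ha hb => by
    change sg _ _ ∈ R
    rw [sg_add]
    exact R.mul_mem ha hb

end C40

open C40 in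
/-- **CNTR** -/
theorem cntr40 : CNTR := by
  intro hres K L _ _ _ _ d k T D x e s b ρ fc sa S J hS hU hJ
  classical
  obtain ⟨σ, c, r, -, δ, y, hδ, hj⟩ := hres K L d k T D x e s b ρ fc sa
  have : CharZero K := charZero_of_injective_algebraMap (algebraMap ℂ K).injective
  let p : J → H K k := fun j => mk j.1.1 j.1.2 (hJ j j.2).1
  let U : Submodule ℤ (H K k) := ⨅ P ∈ T, LinearMap.ker (oo D P)
  have mU : ∀ h, h ∈ U ↔ Un T D h.1 (val h) := fun h => by
    simp only [U, Submodule.mem_iInf, LinearMap.mem_ker]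
    exact (and_iff_right (val_ne h)).symm
  let M : Submodule ℤ _ := Submodule.span ℤ (range fun j => wt r δ (p j))
  have : Module.Finite ℤ M := Module.Finite.span_of_finite ℤ (finite_range _)
  let β := Module.finBasis ℤ M
  have le : M ≤ U.map (wt r δ) := Submodule.span_le.2 (by
    rintro _ ⟨j, rfl⟩
    exact ⟨p j, (mU _).2 (hJ j j.2), rfl⟩)
  choose g gU hg using fun a => le (β a).2
  have kr : ∀ h, wt r δ h = 0 → h.1 = 0 ∧ ∃ a : ℂ, algebraMap ℂ K a = val h := fun h z =>
    ⟨((wt_eq r δ).1 z).1, con fc.ff hj ((wt_eq r δ).1 z).2⟩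
  let q : S → H K k := fun P => mk (e P) (x P) (fc.ne P (hS P P.2).1)
  have lb : LinearIndependent ℤ fun a => wt r δ (g a) := by
    rw [funext hg]
    exact β.linearIndependent.map' M.subtype M.ker_subtype
  have cnt := rank fc.ff r δ (Sum.elim q g) (by
      rintro (P | a) i
      · exact (hS P P.2).2 _ (hδ i)
      · exact hU _ _ ((mU _).1 (gU a)) _)
    (Fintype.linearIndependent_iff.2 fun n z => by
      have z1 : wt r δ (∑ j, n j • Sum.elim q g j) = 0 := by
        rw [map_sum]
        simpa only [map_zsmul] using z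
      obtain ⟨z2, a, ha⟩ := kr _ z1
      have l : ∀ P : S, n (.inl P) = 0 := fun P => by
        have o : oo D P (∑ j, n j • Sum.elim q g j) = 0 := by
          change P.1.ord (val _) + _ ⬝ᵥ D P = 0
          rw [z2, ← ha, Pl.ord_const, zero_dotProduct, add_zero]
        have t := (hS P P.2).1
        rw [map_sum, Fintype.sum_sum_type, Finset.sum_eq_single P, Finset.sum_eq_zero] at o
        · have u : oo D P (q P) = 1 := fc.one P t
          simpa [u] using o
        · intro a _
          have u : oo D P (g a) = 0 := ((mU _).1 (gU a)).2 P t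
          simp [u]
        · intro Q _ ne
          have u : oo D P (q Q) = 0 :=
            fc.zero Q (hS Q Q.2).1 P t fun e => ne (Subtype.ext e.symm)
          simp [u]
        · simp
      rw [Fintype.sum_sum_type, Finset.sum_eq_zero fun P _ => by rw [l P, zero_smul],
        zero_add] at z
      rintro (P | a)
      · exact l P
      · exact Fintype.linearIndependent_iff.1 lb (fun a => n (.inr a)) z a)
  rw [Fintype.card_sum, Fintype.card_coe, Fintype.card_fin] at cnt
  let G : Fin (Module.finrank ℤ M + 1) → H K k := Fin.cons (-∑ a, g a) g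
  refine ⟨_, fun j => ((G j).1, val (G j)), by omega, fun j => (mU _).1 ?_, fun j hj => ?_⟩
  · exact Fin.cases (neg_mem (sum_mem fun a _ => gU a)) gU j
  set R := Algebra.adjoin ℂ (range fun j => sg (G j).1 (val (G j)))
  have mG : ∀ j, G j ∈ mon R := fun j => Algebra.subset_adjoin ⟨j, rfl⟩
  have mg : ∀ a, g a ∈ mon R := fun a => mG a.succ
  have ng : ∀ a, -g a ∈ mon R := fun a => by
    have e : -g a = G 0 + ∑ a' ∈ Finset.univ.erase a, g a' := by
      change _ = -∑ a, g a + _
      rw [← Finset.add_sum_erase _ _ (Finset.mem_univ a)]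
      abel
    rw [e]
    exact add_mem (mG 0) (sum_mem fun a' _ => mg a')
  let v : M := ⟨wt r δ (p ⟨j, hj⟩), Submodule.subset_span ⟨_, rfl⟩⟩
  let t : H K k := ∑ a, β.repr v a • g a
  have mt : t ∈ mon R := sum_mem fun a _ => by
    obtain ⟨n, e | e⟩ := (β.repr v a).eq_nat_or_neg
    · rw [e, natCast_zsmul]
      exact nsmul_mem (mg a) n
    · rw [e, neg_smul, natCast_zsmul, ← neg_nsmul]
      exact nsmul_mem (ng a) n
  obtain ⟨z, a, ha⟩ := kr (p ⟨j, hj⟩ - t) (by
    have := congrArg M.subtype (β.sum_repr v)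
    rw [map_sub, map_sum, sub_eq_zero]
    rw [map_sum] at this
    simp only [map_zsmul, hg] at this ⊢
    exact this.symm)
  have e := sg_add (p ⟨j, hj⟩ - t) t
  rw [sub_add_cancel, z, ← ha] at e
  change sg (p ⟨j, hj⟩).1 (val (p ⟨j, hj⟩)) ∈ R
  rw [e]
  exact R.mul_mem (R.algebraMap_mem a) mt

end Vale.Agent.P283R.Sg
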