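import Vale.Agent.P283R.Sg.St

/-!
# P283R, block SG: an invariant subalgebra with the eigenvectors is everything
-/

set_option linter.all false

open Set

noncomputable section

namespace Vale.Agent.P283R.Sg

open Vale.Agent.P287D Vale.Agent.P283R.Sl

namespace G19

variable {K : Type} [Field K] [Algebra ℂ K] {k : ℕ}

theorem mem_iff (P : Pl K) (n : ℤ) {φ : K} (h : φ ≠ 0) : 0 ≤ P.ord φ + n ↔ φ * P.t ^ n ∈ P.ring := by
  rw [← P297Z.Pl.ord_nonneg_iff P.toPlace (mul_ne_zero h (zpow_ne_zero _ P.t_ne)),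
    P297Z.Pl.ord_mul _ h (zpow_ne_zero _ P.t_ne), P297Z.Pl.ord_zpow,
    show P.toPlace.ord P.t = 1 from P.ord_t, mul_one]

theorem sec_iff {T : Set (Pl K)} {D : Pl K → Fin k → ℤ} {m : Fin k → ℤ} {φ : K} :
    φ ∈ Sec T D m ↔ ∀ P ∈ T, φ * P.t ^ (m ⬝ᵥ D P) ∈ P.ring := by
  by_cases h : φ = 0
  · simp [Sec, h, zero_mem]
  · exact ⟨fun a P p => (mem_iff P _ h).1 (a h P p), fun a _ P p => (mem_iff P _ h).2 (a P p)⟩

/-- the sections as a subspace -/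
def sub (T : Set (Pl K)) (D : Pl K → Fin k → ℤ) (m : Fin k → ℤ) : Submodule ℂ K where
  carrier := Sec T D m
  zero_mem' := fun h => (h rfl).elim
  add_mem' := fun a b => sec_iff.2 fun P p => by
    rw [add_mul]; exact add_mem (sec_iff.1 a P p) (sec_iff.1 b P p)
  smul_mem' := fun c _ a => sec_iff.2 fun P p => by
    rw [Algebra.smul_def, mul_assoc]; exact mul_mem (P.con c) (sec_iff.1 a P p)

/-- the action as a linear map -/
def lin {Λ L : Type} [CommRing Λ] [Algebra ℂ Λ] [LieRing L] [LieAlgebra ℂ L]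
    (ρ : L →ₗ⁅ℂ⁆ Derivation ℂ Λ Λ) : L →ₗ[ℂ] Module.End ℂ Λ where
  toFun δ := (ρ δ).toLinearMap
  map_add' a b := by rw [map_add]; rfl
  map_smul' a b := by rw [map_smul]; rfl

theorem lin_lie {Λ L : Type} [CommRing Λ] [Algebra ℂ Λ] [LieRing L] [LieAlgebra ℂ L]
    (ρ : L →ₗ⁅ℂ⁆ Derivation ℂ Λ Λ) (u v : L) :
    lin ρ ⁅u, v⁆ = lin ρ u * lin ρ v - lin ρ v * lin ρ u := LinearMap.ext fun x => by
  show ρ ⁅u, v⁆ x = ρ u (ρ v x) - ρ v (ρ u x)
  rw [LieHom.map_lie, Derivation.commutator_apply]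

end G19

open G19

theorem genr19 : GENR := fun eg lie fct K L _ _ _ _ d k T D x e s b ρ f h => by
  have lf : ∀ δ m, ∀ φ ∈ Sec T D m, LF (ρ δ) (sg m φ) := fun δ m φ hφ =>
    let ⟨N, a, c, g⟩ := h.locFinite m φ hφ
    ⟨N, c, g, a δ⟩
  have fa : ∀ δ m m' φ ψ, φ ∈ Sec T D m → ψ ∈ Sec T D m' → φ * ψ ≠ 0 →
      Ev (ρ δ) (sg (m + m') (φ * ψ)) → Ev (ρ δ) (sg m φ) := fun δ m m' φ ψ a c z v => by
    have w : sg m φ * sg m' ψ = sg (m + m') (φ * ψ) := AddMonoidAlgebra.single_mul_single ..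
    exact eg _ (ρ δ) _ _ (lf δ m φ a) (lf δ m' ψ c)
      (w ▸ AddMonoidAlgebra.single_ne_zero.2 z) (w ▸ v)
  refine ⟨fun m u hu δ => fa δ m (-m) u u⁻¹ (fun _ P p => (hu.2 P p).ge) (fun _ P p => ?_)
    (by simp [hu.1]) ⟨0, ?_⟩, fun R r1 r2 r3 m φ hφ => ?_⟩
  · have := hu.2 P p
    rw [show P.ord u⁻¹ = -P.ord u from P297Z.Pl.ord_inv _ _, neg_dotProduct]
    omega
  · rw [add_neg_cancel, mul_inv_cancel₀ hu.1, zero_smul]
    exact (ρ δ).map_one_eq_zero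
  obtain ⟨N₀, n1, n2, n3⟩ := h.locFinite m φ hφ
  let H : Submodule ℂ (Laurent K k) := (sub T D m).map (AddMonoidAlgebra.lsingle m)
  have iH : Invariant ρ H := fun δ _ ⟨ψ, a, c⟩ =>
    let ⟨ψ', u, v⟩ := h.graded δ m ψ
    ⟨ψ', v a, c ▸ u.symm⟩
  have i1 : Invariant ρ (N₀ ⊓ H) := fun δ F a => ⟨n1 δ F a.1, iH δ F a.2⟩
  obtain ⟨M, m1, m2, m3⟩ := h.reducible (N₀ ⊓ H ⊓ R.toSubmodule) (N₀ ⊓ H)
    (fun δ F a => ⟨i1 δ F a.1, r1 δ F a.2⟩) i1 inf_le_left fun _ ⟨_, ψ, a, c⟩ m' => by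
      classical
      rw [← c, AddMonoidAlgebra.lsingle_apply, AddMonoidAlgebra.coeff_single, Finsupp.single_apply]
      split_ifs with z
      exacts [z ▸ a, fun w => (w rfl).elim]
  have le : M ≤ N₀ ⊓ H := m3 ▸ le_sup_right
  have bot : M = ⊥ := by_contra fun ne => by
    obtain ⟨y, y1, y0, y2⟩ := lie _ L (lin ρ) b M (lin_lie ρ) h.solvable
      (Submodule.finiteDimensional_of_le (le.trans inf_le_left)) ne fun δ _ => m1 δ
    obtain ⟨ψ, a, rfl⟩ := (le y1).2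
    have ψ0 : ψ ≠ 0 := AddMonoidAlgebra.single_ne_zero.1 y0
    obtain ⟨S, ν, m', u, s1, -, s2, s3⟩ := (fct K d k T D x e f).1 m ψ a ψ0
    refine y0 (Submodule.disjoint_def.1 m2 _ ⟨le y1, ?_⟩ y1)
    show sg m ψ ∈ R
    rw [s3]
    refine mul_mem (r2 m' u s2) (prod_mem fun P p => pow_mem ?_ _)
    obtain ⟨p, q⟩ := (s1 P).1 p
    have x0 := f.ne P p
    refine r3 P p fun δ hδ => fa δ (e P) (m - e P) (x P) (ψ / x P) (fun _ Q g => ?_)
      (fun _ Q g => ?_) (by rwa [mul_div_cancel₀ _ x0]) ?_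
    · by_cases z : Q = P
      · rw [z, f.one P p]; exact zero_le_one
      · exact (f.zero P p Q g z).ge
    · rw [show Q.ord (ψ / x P) = Q.ord ψ - Q.ord (x P) from P297Z.Pl.ord_div _ ψ0 x0,
        sub_dotProduct]
      by_cases z : Q = P
      · have := f.one P p
        rw [z]
        omega
      · have := f.zero P p Q g z
        have := a ψ0 Q g
        omega
    · rw [add_sub_cancel, mul_div_cancel₀ _ x0]
      exact y2 δ hδ
  rw [bot, sup_bot_eq] at m3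
  exact (m3.ge ⟨n3, φ, hφ, rfl⟩).2

end Vale.Agent.P283R.Sg
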