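import Vale.Agent.P283R.Sg.St

/-!
# P283R, block SG: factorisation of homogeneous elements, regularity of the action
-/

set_option linter.all false

open Set

noncomputable section

namespace Vale.Agent.P283R.Sg

open Vale.Agent.P287D Vale.Agent.P283R.Sl Vale.Agent.P297Z

namespace F9

variable {K : Type} [Field K] [Algebra ℂ K] {d k : ℕ} {T : Set (Pl K)} {D : Pl K → Fin k → ℤ}
  {x : Pl K → K} {e : Pl K → Fin k → ℤ}

theorem sg_mul (m m' : Fin k → ℤ) (φ ψ : K) : sg m φ * sg m' ψ = sg (m + m') (φ * ψ) :=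
  AddMonoidAlgebra.single_mul_single _ _ _ _

theorem sg_prod {ι : Type} (S : Finset ι) (a : ι → Fin k → ℤ) (s : ι → K) (ν : ι → ℕ) :
    ∏ i ∈ S, sg (a i) (s i) ^ ν i = sg (∑ i ∈ S, (ν i : ℤ) • a i) (∏ i ∈ S, s i ^ ν i) := by
  classical
  induction S using Finset.induction_on with
  | empty => rfl
  | insert i S hi ih =>
    rw [Finset.prod_insert hi, Finset.prod_insert hi, Finset.sum_insert hi, ih,
      AddMonoidAlgebra.single_pow, sg_mul, natCast_zsmul]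

theorem sg_inj {m : Fin k → ℤ} {φ ψ : K} (h : sg m φ = sg m ψ) : φ = ψ := by
  simpa using congrArg (fun F : Laurent K k => F.coeff m) h

/-- the divisor of a monomial -/
theorem mon (h : Fac d T D x e) (S : Finset (Pl K)) (hS : ∀ P ∈ S, P ∈ T) (G : Pl K → ℤ) :
    ∏ P ∈ S, x P ^ G P ≠ 0 ∧ ∀ Q ∈ T, Q.ord (∏ P ∈ S, x P ^ G P) + (∑ P ∈ S, G P • e P) ⬝ᵥ D Q =
      open Classical in if Q ∈ S then G Q else 0 := by
  classical
  have z := fun P (p : P ∈ S) => zpow_ne_zero (G P) (h.ne P (hS P p))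
  refine ⟨Finset.prod_ne_zero_iff.2 z, fun Q q => ?_⟩
  rw [Q.ord_prod _ z, sum_dotProduct, ← Finset.sum_add_distrib, ← Finset.sum_ite_eq S Q G]
  refine Finset.sum_congr rfl fun P p => ?_
  rw [Pl.ord_zpow, smul_dotProduct, smul_eq_mul, ← mul_add]
  split_ifs with w
  · rw [w, h.one P (hS P p), mul_one]
  · rw [h.zero P (hS P p) Q q w, mul_zero]

theorem sec1 {P : Pl K} {m : Fin k → ℤ} {φ : K} :
    φ ∈ Sec {P} D m ↔ φ * P.t ^ (m ⬝ᵥ D P) ∈ P.ring := by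
  by_cases z : φ = 0
  · simp [z, Sec, zero_mem]
  have t := zpow_ne_zero (m ⬝ᵥ D P) P.t_ne
  rw [← Pl.ord_nonneg_iff _ (mul_ne_zero z t), Pl.ord_mul _ z t, Pl.ord_zpow, P.ord_t, mul_one]
  simp [Sec, z]

end F9

open F9

/-- **FCT** -/
theorem fct : FCT := by
  classical
  intro K _ _ d k T D x e h
  refine ⟨fun m φ hφ φ0 => ?_, fun G hG => ?_⟩
  · have f : {P | P ∈ T ∧ 0 < P.ord φ + m ⬝ᵥ D P}.Finite :=
      (h.fin φ m).subset fun P p => ⟨p.1, p.2.ne'⟩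
    obtain ⟨a, b⟩ := mon h f.toFinset (fun P p => (f.mem_toFinset.1 p).1)
      fun P => ((P.ord φ + m ⬝ᵥ D P).toNat : ℤ)
    simp only [zpow_natCast] at a b
    refine ⟨f.toFinset, fun P => (P.ord φ + m ⬝ᵥ D P).toNat,
      m - ∑ P ∈ f.toFinset, ((P.ord φ + m ⬝ᵥ D P).toNat : ℤ) • e P,
      φ / ∏ P ∈ f.toFinset, x P ^ (P.ord φ + m ⬝ᵥ D P).toNat, fun P => f.mem_toFinset,
      fun P p => ?_, ⟨div_ne_zero φ0 a, fun Q q => ?_⟩, ?_⟩
    · exact Int.pos_iff_toNat_pos.1 (f.mem_toFinset.1 p).2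
    · have c := b Q q
      have n := hφ φ0 Q q
      rw [Pl.ord_div _ φ0 a, sub_dotProduct]
      split_ifs at c with w
      · omega
      · have : ¬ 0 < Q.ord φ + m ⬝ᵥ D Q := fun v => w (f.mem_toFinset.2 ⟨q, v⟩)
        omega
    · rw [sg_prod, sg_mul, sub_add_cancel, div_mul_cancel₀ _ a]
  · obtain ⟨a, b⟩ := mon h hG.toFinset (fun P p => (hG.mem_toFinset.1 p).1) G
    refine ⟨_, _, a, fun Q q => (b Q q).trans ?_⟩
    split_ifs with w
    · rfl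
    · exact (not_not.1 fun v => w (hG.mem_toFinset.2 ⟨q, v⟩)).symm

/-- **LOCR** -/
theorem locr : LOCR := by
  intro fc K L _ _ _ _ d k T D x e s b ρ h A σ c r P p δ m φ hφ
  by_cases φ0 : φ = 0
  · simp [φ0, Sec]
  obtain ⟨m₁, ψ, ψ0, hψ⟩ := (fc K d k T D x e h).2 (fun Q => max 0 (-(Q.ord φ + m ⬝ᵥ D Q)))
    ((h.fin φ m).subset fun Q q => ⟨q.1, fun z => q.2 (by rw [z]; rfl)⟩)
  have g : ∀ m φ, φ ∈ Sec T D m → σ δ φ + c δ m * φ ∈ Sec {P} D m := fun m φ a => by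
    obtain ⟨χ, e1, e2⟩ := A.graded δ m φ
    rw [sg_inj ((r.app δ m φ).symm.trans e1)]
    exact fun z Q q => q ▸ e2 a z P p
  have a1 := sec1.1 (g m₁ ψ fun _ Q q => by rw [hψ Q q]; exact le_max_left _ _)
  have a2 := sec1.1 (g (m + m₁) (φ * ψ) fun _ Q q => by
    have := hψ Q q
    rw [Pl.ord_mul _ φ0 ψ0, add_dotProduct]
    omega)
  have a3 := sec1.1 hφ
  have t := zpow_ne_zero (m₁ ⬝ᵥ D P) P.t_ne
  have a4 : (ψ * P.t ^ (m₁ ⬝ᵥ D P))⁻¹ ∈ P.ring := Cb.inv_mem_ord (by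
    have := hψ P p
    have := hφ φ0 P rfl
    rw [Pl.ord_mul _ ψ0 t, Pl.ord_zpow, P.ord_t]
    omega)
  have l := (ρ δ).leibniz (sg m φ) (sg m₁ ψ)
  rw [sg_mul, r.app, r.app, r.app, smul_eq_mul, smul_eq_mul, sg_mul, sg_mul, add_comm m₁ m,
    ← AddMonoidAlgebra.single_add] at l
  rw [sg_inj l, add_dotProduct, zpow_add₀ P.t_ne] at a2
  have := mul_mem (sub_mem a2 (mul_mem a3 a1)) a4
  refine sec1.2 (mem_of_eq_of_mem ?_ this)
  exact (eq_mul_inv_iff_mul_eq₀ (mul_ne_zero ψ0 t)).2 (by ring)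

/-- **LOC** -/
theorem loc : LOC := locr fct

end Vale.Agent.P283R.Sg
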