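import Mathlib.Algebra.Lie.CartanCriterion
import Vale.Agent.P283R.Sl.Sg
import Vale.Agent.P283R.Sl.Ga
import Vale.Agent.P283R.Sl.Br
import Vale.Agent.P287D.Cb.Hur

/-!
# P283R, block SG: spherical varieties, the statements
-/

open Set CategoryTheory AlgebraicGeometry

noncomputable section

namespace Vale.Agent.P283R.Sg

open Vale.Agent.P287D Vale.Agent.P283R.Sl
open Vale.Agent.P285N.Brep (jac Fr)

section defs

variable {Λ : Type} [CommRing Λ] [Algebra ℂ Λ]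

/-- `δ - a` -/
def op (δ : Derivation ℂ Λ Λ) (a : ℂ) : Module.End ℂ Λ := δ.toLinearMap - a • 1

/-- `x` lies in a finite dimensional invariant subspace -/
def LF (δ : Derivation ℂ Λ Λ) (x : Λ) : Prop :=
  ∃ N : Submodule ℂ Λ, Module.Finite ℂ N ∧ x ∈ N ∧ ∀ u ∈ N, δ u ∈ N

/-- `δ` is nilpotent on `x` -/
def LN (δ : Derivation ℂ Λ Λ) (x : Λ) : Prop := ∃ i : ℕ, δ^[i] x = 0

/-- `x` is an eigenvector or zero -/
def Ev (δ : Derivation ℂ Λ Λ) (x : Λ) : Prop := ∃ c : ℂ, δ x = c • x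

variable {K L : Type} [Field K] [Algebra ℂ K] [LieRing L] [LieAlgebra ℂ L] {k : ℕ}

/-- homogeneous elements -/
abbrev sg (m : Fin k → ℤ) (φ : K) : Laurent K k := AddMonoidAlgebra.single m φ

/-- the sections -/
def Sec (T : Set (Pl K)) (D : Pl K → Fin k → ℤ) (m : Fin k → ℤ) : Set K :=
  {φ | φ ≠ 0 → ∀ P ∈ T, 0 ≤ P.ord φ + m ⬝ᵥ D P}

/-- the homogeneous units -/
def Un (T : Set (Pl K)) (D : Pl K → Fin k → ℤ) (m : Fin k → ℤ) (u : K) : Prop :=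
  u ≠ 0 ∧ ∀ P ∈ T, P.ord u + m ⬝ᵥ D P = 0

/-- `x P * t ^ e P` has the divisor `P` -/
structure Fac (d : ℕ) (T : Set (Pl K)) (D : Pl K → Fin k → ℤ) (x : Pl K → K)
    (e : Pl K → Fin k → ℤ) : Prop where
  pos : 0 < d
  ff : FF K d
  fin : ∀ (φ : K) m, {P | P ∈ T ∧ P.ord φ + m ⬝ᵥ D P ≠ 0}.Finite
  can : ∀ y : Fin d → K, AlgebraicIndependent ℂ y → {P | P ∈ T ∧ kap y P ≠ 0}.Finite
  ne : ∀ P ∈ T, x P ≠ 0
  one : ∀ P ∈ T, P.ord (x P) + e P ⬝ᵥ D P = 1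
  zero : ∀ P ∈ T, ∀ Q ∈ T, Q ≠ P → Q.ord (x P) + e P ⬝ᵥ D Q = 0

/-- the action on the function field and the cocycle -/
structure Res (ρ : L →ₗ⁅ℂ⁆ Derivation ℂ (Laurent K k) (Laurent K k))
    (σ : L →ₗ⁅ℂ⁆ Derivation ℂ K K) (c : L → (Fin k → ℤ) → K) : Prop where
  app : ∀ δ m φ, ρ δ (sg m φ) = sg m (σ δ φ + c δ m * φ)
  zero : ∀ δ, c δ 0 = 0

/-- the bound for the dimension of the semisimple part -/
def ga (d : ℕ) : ℕ := d * (1 + d + d ^ 2)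

/-- the bound for the number of generators -/
def ell (d : ℕ) : ℕ :=
  d + 1 + ga d * (d * (ga d + 1)) * (ga d + 1) ^ (ga d * (d * (ga d + 1)))

end defs

/-- a property of domains -/
def ForD (q : ∀ (Λ : Type) [CommRing Λ] [Algebra ℂ Λ], Derivation ℂ Λ Λ → Prop) : Prop :=
  ∀ (Λ : Type) [CommRing Λ] [IsDomain Λ] [Algebra ℂ Λ] (δ : Derivation ℂ Λ Λ), q Λ δ

/-- **DEG**: the degree is additive -/
def DEG : Prop := ForD fun Λ _ _ δ => ∀ (a b : ℂ) (x y : Λ) (i j : ℕ), (op δ a ^ i) x ≠ 0 →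
  (op δ a ^ (i + 1)) x = 0 → (op δ b ^ j) y ≠ 0 → (op δ b ^ (j + 1)) y = 0 →
    (op δ (a + b) ^ (i + j)) (x * y) ≠ 0 ∧ (op δ (a + b) ^ (i + j + 1)) (x * y) = 0

/-- **EIG**: the factors of an eigenvector -/
def EIG : Prop := ForD fun Λ _ _ δ => ∀ x y : Λ, LF δ x → LF δ y → x * y ≠ 0 → Ev δ (x * y) → Ev δ x

/-- **EIGR** -/
def EIGR : Prop := DEG → EIG

/-- **DVD**: locally nilpotent derivations -/
def DVD : Prop := ForD fun Λ _ _ δ =>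
  (∀ (x y : Λ) (M : ℕ), LN δ x → LN δ y → x * y ≠ 0 → δ^[M] (x * y) = 0 → δ^[M] x = 0) ∧
  (∀ (ι : Type) (S : Finset ι) (x : ι → Λ) (y : Λ) (M : ℕ), (∀ i ∈ S, LN δ (x i)) → LN δ y →
    (∏ i ∈ S, x i) * y ≠ 0 → δ^[M] ((∏ i ∈ S, x i) * y) = 0 → (∀ i ∈ S, δ (x i) ≠ 0) →
      S.card ≤ M) ∧
  ∀ c w : Λ, LN δ c → LN δ w → w ≠ 0 → δ w = c * w → c = 0

/-- **DVDR** -/
def DVDR : Prop := DEG → DVD

/-- **NIL**: a semisimple Lie algebra is spanned by nilpotent elements -/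
def NIL : Prop := ∀ (s : Type) [LieRing s] [LieAlgebra ℂ s] [Module.Finite ℂ s]
  [LieAlgebra.IsKilling ℂ s], ∃ n a : Fin (Module.finrank ℂ s) → s,
    Submodule.span ℂ (range n) = ⊤ ∧ ∀ i, ⁅a i, n i⁆ = n i

/-- **NLP**: such elements are nilpotent on finite dimensional invariant subspaces -/
def NLP : Prop := ∀ (V : Type) [AddCommGroup V] [Module ℂ V] (a n : Module.End ℂ V)
  (N : Submodule ℂ V), Module.Finite ℂ N → (∀ u ∈ N, a u ∈ N) → (∀ u ∈ N, n u ∈ N) →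
    a * n - n * a = n → ∀ u ∈ N, (n ^ Module.finrank ℂ N) u = 0

/-- **PBW**: the module generated by a vector on which a basis is nilpotent -/
def PBW : Prop := ∀ (V L : Type) [AddCommGroup V] [Module ℂ V] [LieRing L] [LieAlgebra ℂ L]
  (ρ : L →ₗ[ℂ] Module.End ℂ V) (r M : ℕ) (n : Fin r → L) (x : V),
  (∀ u v, ρ ⁅u, v⁆ = ρ u * ρ v - ρ v * ρ u) → (∀ i j, ⁅n i, n j⁆ ∈ Submodule.span ℂ (range n)) →
    (∀ i, (ρ (n i) ^ M) x = 0) → ∃ U : Submodule ℂ V, x ∈ U ∧ Module.Finite ℂ U ∧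
      Module.finrank ℂ U ≤ (r + 1) ^ (r * M) ∧ (∀ i, ∀ u ∈ U, ρ (n i) u ∈ U) ∧
      (∀ N : Submodule ℂ V, x ∈ N → (∀ i, ∀ u ∈ N, ρ (n i) u ∈ N) → U ≤ N) ∧
      ∀ δ, (∀ i, ⁅δ, n i⁆ ∈ Submodule.span ℂ (range n)) → ρ δ x ∈ U → ∀ u ∈ U, ρ δ u ∈ U

/-- **LIE**: the theorem of Lie -/
def LIE : Prop := ∀ (V L : Type) [AddCommGroup V] [Module ℂ V] [LieRing L] [LieAlgebra ℂ L]
  (ρ : L →ₗ[ℂ] Module.End ℂ V) (b : LieSubalgebra ℂ L) (N : Submodule ℂ V),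
  (∀ u v, ρ ⁅u, v⁆ = ρ u * ρ v - ρ v * ρ u) → LieAlgebra.IsSolvable b → Module.Finite ℂ N →
    N ≠ ⊥ → (∀ δ ∈ b, ∀ u ∈ N, ρ δ u ∈ N) → ∃ y ∈ N, y ≠ 0 ∧ ∀ δ ∈ b, ∃ c : ℂ, ρ δ y = c • y

/-- **BND**: semisimple Lie algebras of vector fields -/
def BND : Prop := ∀ (K s : Type) [Field K] [Algebra ℂ K] [LieRing s] [LieAlgebra ℂ s]
  [Module.Finite ℂ s] [LieAlgebra.IsKilling ℂ s] (d : ℕ) (σ : s →ₗ⁅ℂ⁆ Derivation ℂ K K), FF K d →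
    Function.Injective σ → Module.finrank ℂ s ≤ ga d

/-- **JAC**: the Lie derivative of a form of top degree -/
def JAC : Prop := ∀ (K : Type) [Field K] [Algebra ℂ K] (d : ℕ) (y : Fin d → K)
  (E ξ : Fin d → Derivation ℂ K K) (n : Derivation ℂ K K), Fr y E →
    n (jac ξ y) = ∑ i, jac (Function.update ξ i ⁅n, ξ i⁆) y + (∑ j, E j (n (y j))) * jac ξ y

/-- **GG**: the ring of the sections; from generators to `GradedGen` and back -/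
def GG : Prop := ∀ (K : Type) [Field K] [Algebra ℂ K] (k : ℕ) (T : Set (Pl K))
  (D : Pl K → Fin k → ℤ), ∃ R : Subalgebra ℂ (Laurent K k),
    (∀ F, F ∈ R ↔ ∀ m, F.coeff m ∈ Sec T D m) ∧ (∀ m φ, sg m φ ∈ R ↔ φ ∈ Sec T D m) ∧
    (∀ N, GradedGen N (Sec T D) → ∃ (s : Fin N → K) (a : Fin N → Fin k → ℤ),
      Algebra.adjoin ℂ (range fun j => sg (a j) (s j)) = R) ∧
    ∀ (ι : Type) [Fintype ι] (s : ι → K) (a : ι → Fin k → ℤ),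
      Algebra.adjoin ℂ (range fun j => sg (a j) (s j)) = R → GradedGen (Fintype.card ι) (Sec T D)

/-- a property of spherical data -/
def ForS (q : ∀ (K L : Type) [Field K] [Algebra ℂ K] [LieRing L] [LieAlgebra ℂ L] (_ k : ℕ)
    (_ : Set (Pl K)) (_ : Pl K → Fin k → ℤ) (_ : Pl K → K) (_ : Pl K → Fin k → ℤ)
    (_ : LieIdeal ℂ L) (_ : LieSubalgebra ℂ L),
    (L →ₗ⁅ℂ⁆ Derivation ℂ (Laurent K k) (Laurent K k)) → Prop) : Prop :=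
  ∀ (K L : Type) [Field K] [Algebra ℂ K] [LieRing L] [LieAlgebra ℂ L] (d k : ℕ) (T : Set (Pl K))
    (D : Pl K → Fin k → ℤ) (x : Pl K → K) (e : Pl K → Fin k → ℤ) (s : LieIdeal ℂ L)
    (b : LieSubalgebra ℂ L) (ρ : L →ₗ⁅ℂ⁆ Derivation ℂ (Laurent K k) (Laurent K k)),
    Fac d T D x e → SphericalAction d (Sec T D) s b ρ → q K L d k T D x e s b ρ

/-- **RES**: the restriction to the function field -/
def RES : Prop := ForS fun K L _ _ _ _ d k _ _ _ _ s b ρ =>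
  ∃ (σ : L →ₗ⁅ℂ⁆ Derivation ℂ K K) (c : L → (Fin k → ℤ) → K), Res ρ σ c ∧
    (∀ δ ∈ s, σ δ = 0 → δ = 0) ∧
    ∃ (δ : Fin d → L) (y : Fin d → K), (∀ i, δ i ∈ b) ∧ jac (fun i => σ (δ i)) y ≠ 0

/-- **LOC**: the action is regular at the prime divisors -/
def LOC : Prop := ForS fun K L _ _ _ _ _ k T D _ _ _ _ ρ =>
  ∀ (σ : L →ₗ⁅ℂ⁆ Derivation ℂ K K) (c : L → (Fin k → ℤ) → K), Res ρ σ c → ∀ P ∈ T, ∀ δ m,
    ∀ φ ∈ Sec {P} D m, σ δ φ + c δ m * φ ∈ Sec {P} D m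

/-- **FCT**: a homogeneous element is a unit times a monomial -/
def FCT : Prop := ∀ (K : Type) [Field K] [Algebra ℂ K] (d k : ℕ) (T : Set (Pl K))
  (D : Pl K → Fin k → ℤ) (x : Pl K → K) (e : Pl K → Fin k → ℤ), Fac d T D x e →
    (∀ m, ∀ φ ∈ Sec T D m, φ ≠ 0 → ∃ (S : Finset (Pl K)) (ν : Pl K → ℕ) (m' : Fin k → ℤ) (u : K),
      (∀ P, P ∈ S ↔ P ∈ T ∧ 0 < P.ord φ + m ⬝ᵥ D P) ∧ (∀ P ∈ S, 0 < ν P) ∧ Un T D m' u ∧
      sg m φ = sg m' u * ∏ P ∈ S, sg (e P) (x P) ^ ν P) ∧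
    ∀ G : Pl K → ℤ, {P | P ∈ T ∧ G P ≠ 0}.Finite →
      ∃ m ψ, ψ ≠ 0 ∧ ∀ P ∈ T, P.ord ψ + m ⬝ᵥ D P = G P

/-- **LOCR** -/
def LOCR : Prop := FCT → LOC

/-- **WED**: the section of the anticanonical divisor -/
def WED : Prop := ForS fun _ _ _ _ _ _ d _ T D x e s b ρ => ∃ m, ∃ w ∈ Sec T D m, w ≠ 0 ∧
  (∀ P ∈ T, (∀ δ ∈ b, Ev (ρ δ) (sg (e P) (x P))) → 0 < P.ord w + m ⬝ᵥ D P) ∧
  ∀ n ∈ s, ∀ a ∈ s, ⁅a, n⁆ = n → (ρ n)^[d * (Module.finrank ℂ s + 1)] (sg m w) = 0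

/-- **WEDR** -/
def WEDR : Prop := RES → LOC → FCT → JAC → DVD → NLP → WED

/-- **CNT**: the number of the eigenvectors -/
def CNT : Prop := ForS fun K _ _ _ _ _ d k T D x e _ b ρ => ∀ (S : Finset (Pl K))
  (J : Finset ((Fin k → ℤ) × K)), (∀ P ∈ S, P ∈ T ∧ ∀ δ ∈ b, Ev (ρ δ) (sg (e P) (x P))) →
    (∀ m u, Un T D m u → ∀ δ, Ev (ρ δ) (sg m u)) → (∀ p ∈ J, Un T D p.1 p.2) →
    ∃ (r : ℕ) (g : Fin r → (Fin k → ℤ) × K), S.card + r ≤ k + (d + 1) ∧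
      (∀ j, Un T D (g j).1 (g j).2) ∧
      ∀ p ∈ J, sg p.1 p.2 ∈ Algebra.adjoin ℂ (range fun j => sg (g j).1 (g j).2)

/-- **CNTR** -/
def CNTR : Prop := RES → CNT

/-- **GEN**: an invariant subalgebra with the eigenvectors is everything -/
def GEN : Prop := ForS fun K _ _ _ _ _ _ k T D x e _ b ρ =>
  (∀ m u, Un T D m u → ∀ δ, Ev (ρ δ) (sg m u)) ∧ ∀ R : Subalgebra ℂ (Laurent K k),
    (∀ δ, ∀ F ∈ R, ρ δ F ∈ R) → (∀ m u, Un T D m u → sg m u ∈ R) →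
    (∀ P ∈ T, (∀ δ ∈ b, Ev (ρ δ) (sg (e P) (x P))) → sg (e P) (x P) ∈ R) →
    ∀ m, ∀ φ ∈ Sec T D m, sg m φ ∈ R

/-- **GENR** -/
def GENR : Prop := EIG → LIE → FCT → GEN

/-- **MOD**: the modules which are generated by the eigenvectors -/
def MOD : Prop := ForS fun K _ _ _ _ _ d k T D x e _ b ρ => ∃ (S : Finset (Pl K))
  (U : Pl K → Submodule ℂ (Laurent K k)),
    (∀ P, P ∈ S ↔ P ∈ T ∧ ∀ δ ∈ b, Ev (ρ δ) (sg (e P) (x P))) ∧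
    (∀ P ∈ S, sg (e P) (x P) ∈ U P ∧ Module.Finite ℂ (U P) ∧ Invariant ρ (U P) ∧
      ∀ F ∈ U P, ∃ φ ∈ Sec T D (e P), F = sg (e P) φ) ∧
    ∑ P ∈ S, Module.finrank ℂ (U P) + (d + 1) ≤ S.card + ell d

/-- **MODR** -/
def MODR : Prop := RES → FCT → DVD → NIL → NLP → PBW → BND → WED → MOD

/-- **TIER**: the theorem on the tier -/
def TIER : Prop := ForS fun _ _ _ _ _ _ d k T D _ _ _ _ _ => ∀ N, GradedGen N (Sec T D) →
  ∃ N', N' ≤ k + ell d ∧ GradedGen N' (Sec T D)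

/-- **ASM** -/
def ASM : Prop := GG → CNT → GEN → MOD → TIER

open Sl.Var in
/-- **MEM**: the membership -/
def MEM : Prop := ∀ (d : ℕ) (X Z : Sl.Var) (f : X.X ⟶ Z.X) (ω : X.Form d) (B : X.QDiv)
  (z : Pt Z.X), 1 ≤ d → dimension X.str = d → ω.Nonzero → SphericalCox f d z →
    Generated (ell d) f ω B z

/-- **TOP** -/
def TOP : Prop := FCT → TIER → MEM

end Vale.Agent.P283R.Sg
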