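import Vale.Agent.P283R.Sl.Sg3
import Vale.Agent.P283R.Mt.Tor
import Vale.Agent.P283R.To.Mop

/-!
# P283R, block SG: toric varieties are spherical
-/

open Set CategoryTheory AlgebraicGeometry

noncomputable section

namespace Vale.Agent.P283R.Sg.T91

section cr

variable {V L : Type} [AddCommGroup V] [Module ℂ V] (θ : L → V →ₗ[ℂ] V)

/-- an invariant subspace of a span of eigenvectors is spanned by eigenvectors -/
theorem eig_sum {ι : Type} {N : Submodule ℂ V} (hN : ∀ a, ∀ u ∈ N, θ a u ∈ N) (χ : ι → L → ℂ)
    (n : ℕ) : ∀ (S : Finset ι) (v : ι → V), S.card = n → (∀ i a, θ a (v i) = χ i a • v i) →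
      ∑ i ∈ S, v i ∈ N →
      ∑ i ∈ S, v i ∈ Submodule.span ℂ {u | u ∈ N ∧ ∀ a, ∃ c : ℂ, θ a u = c • u} := by
  classical
  induction n with
  | zero =>
    intro S v h _ _
    rw [Finset.card_eq_zero.1 h, Finset.sum_empty]
    exact zero_mem _
  | succ n ih =>
    intro S v h e m
    by_cases c : ∀ i ∈ S, ∀ j ∈ S, ∀ a, χ i a = χ j a
    · obtain ⟨i, hi⟩ := Finset.card_pos.1 (n.succ_pos.trans_eq h.symm)
      refine Submodule.subset_span ⟨m, fun a => ⟨χ i a, ?_⟩⟩
      rw [map_sum, Finset.smul_sum]
      exact Finset.sum_congr rfl fun j hj => by rw [e, c i hi j hj]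
    push Not at c
    obtain ⟨i, hi, j, hj, a, c⟩ := c
    have k : ∀ i ∈ S, θ a (∑ l ∈ S, v l) - χ i a • ∑ l ∈ S, v l ∈
        Submodule.span ℂ {u | u ∈ N ∧ ∀ a, ∃ c : ℂ, θ a u = c • u} := fun i hi => by
      have q : θ a (∑ l ∈ S, v l) - χ i a • ∑ l ∈ S, v l =
          ∑ l ∈ S.erase i, (χ l a - χ i a) • v l := by
        rw [Finset.sum_erase _ (by rw [sub_self, zero_smul]), map_sum, Finset.smul_sum,
          ← Finset.sum_sub_distrib]
        exact Finset.sum_congr rfl fun l _ => by rw [e, sub_smul]
      rw [q]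
      exact ih _ _ (by rw [Finset.card_erase_of_mem hi, h]; rfl)
        (fun l b => by rw [map_smul, e, smul_comm]) (q ▸ sub_mem (hN a _ m) (N.smul_mem _ m))
    have := sub_mem (k j hj) (k i hi)
    rw [sub_sub_sub_cancel_left, ← sub_smul] at this
    exact (Submodule.smul_mem_iff _ (sub_ne_zero.2 c)).1 this

theorem cr {N N' : Submodule ℂ V} (hN : ∀ a, ∀ u ∈ N', θ a u ∈ N') (le : N ≤ N')
    (h : N' ≤ Submodule.span ℂ {u | ∀ a, ∃ c : ℂ, θ a u = c • u}) :
    ∃ M : Submodule ℂ V, (∀ a, ∀ u ∈ M, θ a u ∈ M) ∧ Disjoint N M ∧ N ⊔ M = N' := by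
  let E := {u | u ∈ N' ∧ ∀ a, ∃ c : ℂ, θ a u = c • u}
  have e : N' ≤ Submodule.span ℂ E := fun u hu => by
    obtain ⟨n, c, g, rfl⟩ := Submodule.mem_span_set'.1 (h hu)
    choose χ hχ using fun i => (g i).2
    exact eig_sum θ hN χ _ _ _ rfl (fun i a => by rw [map_smul, hχ, smul_comm]) hu
  obtain ⟨B, b1, b2, b3⟩ := exists_linearIndependent ℂ (N : Set V)
  rw [Submodule.span_eq] at b2
  replace b3 : LinearIndepOn ℂ id B := b3
  have s1 := b3.subset_extend (subset_union_left (t := E))
  have s2 := b3.extend_subset (subset_union_left (t := E))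
  have s3 := b3.subset_span_extend (subset_union_left (t := E))
  have s4 := b3.linearIndepOn_extend (subset_union_left (t := E))
  generalize b3.extend _ = C at s1 s2 s3 s4
  have sE : C \ B ⊆ E := fun u hu => (s2 hu.1).resolve_left hu.2
  refine ⟨Submodule.span ℂ (C \ B), fun a u hu => ?_, ?_, le_antisymm
    (sup_le le (Submodule.span_le.2 fun u hu => (sE hu).1)) (e.trans (Submodule.span_le.2 ?_))⟩
  · induction hu using Submodule.span_induction with
    | mem u hu =>
      obtain ⟨c, hc⟩ := (sE hu).2 a
      exact hc ▸ Submodule.smul_mem _ c (Submodule.subset_span hu)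
    | zero => rw [map_zero]; exact zero_mem _
    | add x y _ _ hx hy => rw [map_add]; exact add_mem hx hy
    | smul c x _ hx => rw [map_smul]; exact Submodule.smul_mem _ c hx
  · rw [← union_sdiff_cancel s1, linearIndepOn_union_iff disjoint_sdiff_right, image_id,
      image_id, b2] at s4
    exact s4.2.2
  · rw [← b2, ← Submodule.span_union, union_sdiff_cancel s1]
    exact subset_union_right.trans s3

end cr

section alg

open Vale.Agent.P287D Vale.Agent.P283R.To Vale.Agent.P283R.Sl
open Vale.Agent.P285N.Brep (Fr)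

variable {K : Type} [Field K] [Algebra ℂ K] {d k : ℕ}

/-- a derivation acts on the coefficients -/
def lift (k : ℕ) (δ : Derivation ℂ K K) : Derivation ℂ (Laurent K k) (Laurent K k) :=
  Derivation.mk'
    { toFun := AddMonoidAlgebra.map (δ : K →ₗ[ℂ] K).toAddMonoidHom
      map_add' := fun x y => by ext; simp
      map_smul' := fun c x => by ext; simp } fun x y => by
    induction x using AddMonoidAlgebra.induction_linear with
    | zero => simp
    | add a b ha hb => simp only [add_mul, map_add, ha, hb, smul_eq_mul]; ring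
    | single m φ =>
      induction y using AddMonoidAlgebra.induction_linear with
      | zero => simp
      | add a b ha hb => simp only [mul_add, map_add, ha, hb, smul_eq_mul]; ring
      | single m' ψ =>
        simp [AddMonoidAlgebra.single_mul_single, AddMonoidAlgebra.single_add, add_comm m']

theorem lift_coeff (δ : Derivation ℂ K K) (F : Laurent K k) (m : Fin k → ℤ) :
    (lift k δ F).coeff m = δ (F.coeff m) := rfl

theorem lift_single (δ : Derivation ℂ K K) (m : Fin k → ℤ) (φ : K) :
    lift k δ (.single m φ) = .single m (δ φ) :=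
  AddMonoidAlgebra.map_single (δ : K →ₗ[ℂ] K).toAddMonoidHom φ m

attribute [local instance 100] LieRing.ofAssociativeRing

variable {y : Fin d → K} {D : Fin d → Derivation ℂ K K}

/-- the vector fields of the torus -/
def th (y : Fin d → K) (D : Fin d → Derivation ℂ K K) (a : Fin d → ℂ) : Derivation ℂ K K :=
  ∑ i, (a i • y i) • D i

theorem th_apply (a : Fin d → ℂ) (x : K) : th y D a x = ∑ i, a i • (y i * D i x) := by
  have h : ∀ s : Finset (Fin d), (∑ i ∈ s, (a i • y i) • D i) x = ∑ i ∈ s, a i • (y i * D i x) :=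
    fun s => by
      induction s using Finset.induction_on with
      | empty => simp
      | insert j s hj ih =>
        rw [Finset.sum_insert hj, Finset.sum_insert hj, Derivation.add_apply, ih,
          Derivation.smul_apply, smul_eq_mul, smul_mul_assoc]
  exact h _

theorem th_y (hD : Fr y D) (a : Fin d → ℂ) (j : Fin d) : th y D a (y j) = a j • y j := by
  simp [th_apply, hD.dual]

theorem th_mon (hD : Fr y D) (hy : ∀ j, y j ≠ 0) (a : Fin d → ℂ) (u : Fin d → ℤ) :
    th y D a (mon y u) = (∑ i, a i * u i) • mon y u := by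
  simp only [th_apply, Mop.eul hD hy, smul_smul, Finset.sum_smul]

theorem th_comm (hD : Fr y D) (a b : Fin d → ℂ) (x : K) :
    th y D a (th y D b x) = th y D b (th y D a x) := by
  have := Cb.expand (Cb.dr_of ⁅th y D a, th y D b⁆) (Derivation.map_algebraMap _) hD x
  simp only [Derivation.commutator_apply, th_y hD, Derivation.map_smul, smul_smul,
    mul_comm (a _), sub_self, zero_mul, Finset.sum_const_zero] at this
  exact sub_eq_zero.1 this

/-- the action of the Lie algebra of the torus -/
def rho (k : ℕ) (hD : Fr y D) : LieAction (Fin d → ℂ) K k where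
  toFun a := lift k (th y D a)
  map_add' a b := by
    ext F m
    simp [lift_coeff, th_apply, add_smul, Finset.sum_add_distrib]
  map_smul' c a := by
    ext F m
    simp [lift_coeff, th_apply, Finset.smul_sum, smul_smul]
  map_lie' := fun {a b} => by
    ext F m
    rw [Derivation.commutator_apply, AddMonoidAlgebra.coeff_sub, Finsupp.sub_apply]
    simp only [lift_coeff, th_comm hD a b, sub_self, Ring.lie_def, mul_comm a b]
    simp [th_apply]

theorem sph (hD : Fr y D) (hy : ∀ j, y j ≠ 0) {A : (Fin k → ℤ) → Set K}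
    {S : (Fin k → ℤ) → Set (Fin d → ℤ)}
    (hA : ∀ m φ, φ ∈ A m ↔ φ ∈ Submodule.span ℂ (mon y '' S m)) :
    (rho k hD).Spherical d A ⊥ ⊤ := by
  classical
  have act : ∀ a m φ, (rho k hD).act a (.single m φ) = .single m (th y D a φ) := fun a m φ =>
    lift_single _ m φ
  let θ : (Fin d → ℂ) → Laurent K k →ₗ[ℂ] Laurent K k := fun a => (lift k (th y D a) :)
  have ev : ∀ m u a, θ a (.single m (mon y u)) =
      (∑ i, a i * u i) • (.single m (mon y u) : Laurent K k) := fun m u a => by
    rw [AddMonoidAlgebra.smul_single, ← th_mon hD hy]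
    exact act a m _
  refine ⟨inferInstance, ?_, ?_, fun δ => ⟨0, zero_mem _, trivial⟩,
    fun a m φ => ⟨_, act a m φ, fun h => ?_⟩, fun δ h _ => h, fun m φ h => ?_,
    fun N N' _ h1 h2 h3 => cr θ h1 h2 fun F hF => ?_,
    fun i => Pi.single i 1, y, fun _ => trivial, ?_⟩
  · exact ⟨Subsingleton.elim _ _, fun I h => (h.1 (Subsingleton.elim _ _)).elim,
      fun I h => (h.1 (Subsingleton.elim _ _)).elim⟩
  · have : IsLieAbelian (⊤ : LieSubalgebra ℂ (Fin d → ℂ)) :=
      ⟨fun a b => Subtype.ext (sub_eq_zero.2 (mul_comm _ _))⟩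
    infer_instance
  · rw [hA] at h ⊢
    induction h using Submodule.span_induction with
    | mem x hx =>
      obtain ⟨u, hu, rfl⟩ := hx
      rw [th_mon hD hy]
      exact Submodule.smul_mem _ _ (Submodule.subset_span ⟨u, hu, rfl⟩)
    | zero => rw [map_zero]; exact zero_mem _
    | add x y _ _ hx hy => rw [map_add]; exact add_mem hx hy
    | smul c x _ hx => rw [Derivation.map_smul]; exact Submodule.smul_mem _ c hx
  · obtain ⟨n, c, g, rfl⟩ := Submodule.mem_span_set'.1 ((hA m φ).1 h)
    choose u _ hu using fun i => (g i).2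
    refine ⟨Submodule.span ℂ (range fun i => .single m (mon y (u i))), fun a F hF => ?_,
      Module.Finite.span_of_finite ℂ (finite_range _), ?_⟩
    · show θ a F ∈ _
      induction hF using Submodule.span_induction with
      | mem x hx =>
        obtain ⟨i, rfl⟩ := hx
        rw [ev]
        exact Submodule.smul_mem _ _ (Submodule.subset_span ⟨i, rfl⟩)
      | zero => rw [map_zero]; exact zero_mem _
      | add x y _ _ hx hy => rw [map_add]; exact add_mem hx hy
      | smul c x _ hx => rw [map_smul]; exact Submodule.smul_mem _ c hx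
    · rw [show (AddMonoidAlgebra.single m (∑ i, c i • (g i : K)) : Laurent K k) =
        ∑ i, c i • AddMonoidAlgebra.single m (mon y (u i)) from by
          simp only [hu, AddMonoidAlgebra.smul_single]
          exact map_sum (AddMonoidAlgebra.singleAddHom m) _ _]
      exact sum_mem fun i _ => Submodule.smul_mem _ _ (Submodule.subset_span ⟨i, rfl⟩)
  · rw [← AddMonoidAlgebra.sum_coeff_single F]
    refine sum_mem fun m _ => ?_
    have h := (hA m _).1 (h3 F hF m)
    generalize F.coeff m = φ at h
    induction h using Submodule.span_induction with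
    | mem x hx =>
      obtain ⟨u, -, rfl⟩ := hx
      exact Submodule.subset_span fun a => ⟨_, ev m u a⟩
    | zero => rw [AddMonoidAlgebra.single_zero]; exact zero_mem _
    | add x y _ _ hx hy => rw [AddMonoidAlgebra.single_add]; exact add_mem hx hy
    | smul c x _ hx => rw [← AddMonoidAlgebra.smul_single]; exact Submodule.smul_mem _ c hx
  · rw [show (Matrix.of fun i j => (rho k hD).act (Pi.single i 1) (.single 0 (y j))) =
      Matrix.diagonal fun j => (.single 0 (y j) : Laurent K k) from by
        ext1 i j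
        rw [Matrix.of_apply, act, th_y hD, Matrix.diagonal_apply, Pi.single_apply]
        by_cases e : i = j
        · simp [e]
        · simp [e, Ne.symm e], Matrix.det_diagonal]
    exact Finset.prod_ne_zero_iff.2 fun j _ => AddMonoidAlgebra.single_ne_zero.2 (hy j)

end alg

attribute [local instance 100] LieRing.ofAssociativeRing

open Sl Sl.Var P287D in
/-- **toric varieties are spherical** -/
theorem tor {X : Sl.Var} {d : ℕ} {W : X.X.Opens} {x : Pt X.X} (hx : x.In W) (t : Toric W d) :
    SphericalSet W d := by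
  obtain ⟨y, h⟩ := (Gl.toric_iff (X := X.o) (W := W) (d := d)).1 t
  obtain ⟨k, r, hr, er⟩ := Mt.rays (X := X.o) W y
  obtain ⟨D, hD⟩ := Cb.fr_of (h.rat hx).ff h.1
  refine ⟨k, _, fun i => Finsupp.single (r i) 1, Fin d → ℂ, inferInstance, inferInstance, ⊥, ⊤,
    rho k hD, fun E => ?_, Mt.gg_tor h.1.ne_zero _ fun m φ => Mt.sec h hx hr er m φ,
    sph hD h.1.ne_zero fun m φ => Mt.sec h hx hr er m φ⟩
  obtain ⟨m, φ, φ0, e⟩ := Mt.span h hx hr er (Finsupp.single E (1 : ℤ))
    (Finsupp.single E (1 : ℤ)).hasFiniteSupport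
  refine ⟨m, φ, φ0, fun E' w => ?_⟩
  classical
  have := e E' w
  rw [Finsupp.single_apply] at this
  show Finsupp.single E (1 : ℚ) E' = _
  rw [Finsupp.single_apply]
  exact_mod_cast this

end Vale.Agent.P283R.Sg.T91
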