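import Vale.Agent.P283R.Sg.St
import Vale.Agent.P287D.Cb.Fr

/-!
# P283R, block SG: a semisimple Lie algebra of vector fields in `d` variables has bounded dimension
(jets at the generic point)
-/

open Set TensorProduct
open Vale.Agent.P287D (FF)
open Vale.Agent.P285N.Brep (Fr)

noncomputable section

namespace Vale.Agent.P283R.Sg.B11

section filt

variable {K T : Type} [Field K] [CommRing T] [Algebra K T] {d : ℕ}

/-- the order of vanishing along `μ` -/
def V (μ : T →ₐ[K] K) (D : Fin d → T →ₗ[K] T) : ℕ → Submodule K T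
  | 0 => ⊤
  | k + 1 => LinearMap.ker μ.toLinearMap ⊓ ⨅ m, (V μ D k).comap (D m)

variable {μ : T →ₐ[K] K} {D : Fin d → T →ₗ[K] T}

theorem mem_succ {k : ℕ} {t : T} : t ∈ V μ D (k + 1) ↔ μ t = 0 ∧ ∀ m, D m t ∈ V μ D k := by
  simp [V, Submodule.mem_iInf]

theorem mem_zero (t : T) : t ∈ V μ D 0 := Submodule.mem_top

theorem V_D {j : ℕ} {t : T} (h : t ∈ V μ D j) (m : Fin d) : D m t ∈ V μ D (j - 1) := by
  rcases j with _ | j
  · exact mem_zero _
  · exact (mem_succ.1 h).2 m

theorem V_mul (hD : ∀ m s t, D m (s * t) = s * D m t + D m s * t) (n : ℕ) :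
    ∀ (i j : ℕ) (s t : T), n ≤ i + j → s ∈ V μ D i → t ∈ V μ D j → s * t ∈ V μ D n := by
  induction n with
  | zero => exact fun _ _ _ _ _ _ _ => mem_zero _
  | succ n ih =>
    intro i j s t h hs ht
    refine mem_succ.2 ⟨?_, fun m => ?_⟩
    · rw [map_mul]
      rcases i with _ | i
      · rcases j with _ | j
        · omega
        · rw [(mem_succ.1 ht).1, mul_zero]
      · rw [(mem_succ.1 hs).1, zero_mul]
    · rw [hD]
      exact add_mem (ih i (j - 1) _ _ (by omega) hs (V_D ht m))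
        (ih (i - 1) j _ _ (by omega) (V_D hs m) ht)

theorem V_E (E : T → T) (δ : K → K) (δ0 : δ 0 = 0) (m : Fin d)
    (hc : ∀ n t, D n (E t) = E (D n t)) (he : ∀ t, δ (μ t) = μ (E t) + μ (D m t)) (k : ℕ) :
    ∀ t, t ∈ V μ D (k + 1) → E t ∈ V μ D k := by
  induction k with
  | zero => exact fun _ _ => mem_zero _
  | succ k ih =>
    intro t ht
    obtain ⟨h1, h2⟩ := mem_succ.1 ht
    refine mem_succ.2 ⟨?_, fun n => ?_⟩
    · have := he t
      rw [h1, δ0, (mem_succ.1 (h2 m)).1, add_zero] at this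
      exact this.symm
    · rw [hc]
      exact ih _ (h2 n)

end filt

variable {K : Type} [Field K] [Algebra ℂ K] {d : ℕ}

/-- the common constants of a frame -/
theorem const {y : Fin d → K} {D : Fin d → Derivation ℂ K K} (h : Fr y D) {x : K}
    (hx : ∀ m, D m x = 0) : ∃ c, algebraMap ℂ K c = x := by
  classical
  by_cases a : IsAlgebraic ℂ x
  · exact minpoly.mem_range_of_degree_eq_one ℂ x
      (IsAlgClosed.degree_eq_one_of_irreducible ℂ (minpoly.irreducible a.isIntegral))
  · have i : AlgebraicIndepOn ℂ id ({x} : Set K) :=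
      (algebraicIndependent_singleton_iff (⟨x, rfl⟩ : ({x} : Set K))).2 a
    obtain ⟨t, h1, h2⟩ := exists_isTranscendenceBasis_superset i
    obtain ⟨δ, hδ⟩ := P297.H927.exists_derivation_of_basis h2 fun _ => (1 : K)
    have e := P287D.Cb.expand (P287D.Cb.dr_of δ) δ.map_algebraMap h x
    rw [hδ ⟨x, h1 rfl⟩] at e
    simp [hx] at e

/-- the lemma of Wronski -/
theorem wr {ι : Type} [Fintype ι] {y : Fin d → K} {D : Fin d → Derivation ℂ K K} (h : Fr y D)
    (P : Submodule K (ι → K)) (hD : ∀ m, ∀ c ∈ P, (fun i => D m (c i)) ∈ P)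
    (hc : ∀ γ : ι → ℂ, (fun i => algebraMap ℂ K (γ i)) ∈ P → γ = 0) : ∀ c ∈ P, c = 0 := by
  classical
  suffices H : ∀ (S : Finset ι), ∀ c ∈ P, (∀ i, i ∉ S → c i = 0) → c = 0 from
    fun c k => H Finset.univ c k fun i hi => (hi (Finset.mem_univ i)).elim
  intro S
  induction S using Finset.induction_on with
  | empty => exact fun c _ k => funext fun i => k i (Finset.notMem_empty i)
  | insert j S _ ih =>
    intro c k z
    by_cases c0 : c j = 0
    · refine ih c k fun i hi => ?_
      by_cases e : i = j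
      · rw [e, c0]
      · exact z i fun n => (Finset.mem_insert.1 n).elim e hi
    · exfalso
      have k' := P.smul_mem (c j)⁻¹ k
      have o : ((c j)⁻¹ • c) j = 1 := inv_mul_cancel₀ c0
      have a : ∀ i m, D m (((c j)⁻¹ • c) i) = 0 := fun i m => by
        refine congrFun (ih _ (hD m _ k') fun i hi => ?_) i
        by_cases e : i = j
        · rw [e, o, Derivation.map_one_eq_zero]
        · rw [Pi.smul_apply, z i fun n => (Finset.mem_insert.1 n).elim e hi, smul_zero, map_zero]
      choose γ hγ using fun i => const h (a i)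
      have := congrFun (hc γ (by rw [funext hγ]; exact k')) j
      have e := hγ j
      rw [this, o] at e
      simp at e

variable {s : Type} [LieRing s] [LieAlgebra ℂ s]

/-- evaluation of a vector field at a function -/
def ev (ρ : s →ₗ[ℂ] Derivation ℂ K K) (x : K) : s →ₗ[ℂ] K where
  toFun a := ρ a x
  map_add' a b := by simp
  map_smul' a b := by simp

/-- the components of a vector field at the generic point -/
def Φ (ρ : s →ₗ[ℂ] Derivation ℂ K K) (x : K) : K ⊗[ℂ] s →ₗ[K] K ⊗[ℂ] K := (ev ρ x).baseChange K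

/-- the derivative in the second factor -/
def R (D : Derivation ℂ K K) : K ⊗[ℂ] K →ₗ[K] K ⊗[ℂ] K := D.toLinearMap.baseChange K

theorem Φ_t (ρ : s →ₗ[ℂ] Derivation ℂ K K) (x c : K) (a : s) : Φ ρ x (c ⊗ₜ a) = c ⊗ₜ ρ a x := rfl

theorem R_t (D : Derivation ℂ K K) (c x : K) : R D (c ⊗ₜ x) = c ⊗ₜ D x := rfl

theorem R_mul (D : Derivation ℂ K K) (a b : K ⊗[ℂ] K) : R D (a * b) = a * R D b + R D a * b := by
  induction a using TensorProduct.induction_on with
  | zero => simp
  | add a a' h h' => simp only [add_mul, map_add, h, h']; ring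
  | tmul c x =>
    induction b using TensorProduct.induction_on with
    | zero => simp
    | add b b' h h' => simp only [mul_add, map_add, h, h']; ring
    | tmul e z =>
      simp only [Algebra.TensorProduct.tmul_mul_tmul, R_t, Derivation.leibniz, smul_eq_mul,
        tmul_add, mul_comm z]

theorem Φ_lie {y : Fin d → K} {D : Fin d → Derivation ℂ K K} (h : Fr y D)
    {ρ : s →ₗ[ℂ] Derivation ℂ K K} (hρ : ∀ a b x, ρ ⁅a, b⁆ x = ρ a (ρ b x) - ρ b (ρ a x)) (x : K)
    (a b : K ⊗[ℂ] s) : Φ ρ x ⁅a, b⁆ =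
      ∑ m, (Φ ρ (y m) a * R (D m) (Φ ρ x b) - Φ ρ (y m) b * R (D m) (Φ ρ x a)) := by
  induction a using TensorProduct.induction_on with
  | zero => simp
  | add a a' h h' =>
    rw [add_lie, map_add, h, h', ← Finset.sum_add_distrib]
    refine Finset.sum_congr rfl fun m _ => ?_
    simp only [map_add]
    ring
  | tmul c u =>
    induction b using TensorProduct.induction_on with
    | zero => simp
    | add b b' h h' =>
      rw [lie_add, map_add, h, h', ← Finset.sum_add_distrib]
      refine Finset.sum_congr rfl fun m _ => ?_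
      simp only [map_add]
      ring
    | tmul e v =>
      have e1 := P287D.Cb.expand (P287D.Cb.dr_of (ρ u)) (ρ u).map_algebraMap h (ρ v x)
      have e2 := P287D.Cb.expand (P287D.Cb.dr_of (ρ v)) (ρ v).map_algebraMap h (ρ u x)
      rw [LieAlgebra.ExtendScalars.bracket_tmul, Φ_t, hρ, e1, e2, ← Finset.sum_sub_distrib,
        tmul_sum]
      refine Finset.sum_congr rfl fun m _ => ?_
      simp only [Φ_t, R_t, Algebra.TensorProduct.tmul_mul_tmul, tmul_sub, RingHom.id_apply,
        mul_comm e c]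

/-- the multiplication -/
abbrev mu (K : Type) [Field K] [Algebra ℂ K] : K ⊗[ℂ] K →ₐ[K] K := Algebra.TensorProduct.lmul'' ℂ

theorem mu_t (c x : K) : mu K (c ⊗ₜ x) = c * x :=
  Algebra.TensorProduct.lmul'_apply_tmul (R := ℂ) c x

/-- the filtration by the order of vanishing at the generic point -/
def F (y : Fin d → K) (D : Fin d → Derivation ℂ K K) (ρ : s →ₗ[ℂ] Derivation ℂ K K) (k : ℕ) :
    Submodule K (K ⊗[ℂ] s) := ⨅ l, (V (mu K) (fun m => R (D m)) k).comap (Φ ρ (y l))

variable {y : Fin d → K} {D : Fin d → Derivation ℂ K K} {ρ : s →ₗ[ℂ] Derivation ℂ K K}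

theorem mem_F {k : ℕ} {a : K ⊗[ℂ] s} :
    a ∈ F y D ρ k ↔ ∀ l, Φ ρ (y l) a ∈ V (mu K) (fun m => R (D m)) k := by
  simp [F, Submodule.mem_iInf]

theorem F_lie (h : Fr y D) (hρ : ∀ a b x, ρ ⁅a, b⁆ x = ρ a (ρ b x) - ρ b (ρ a x)) {i j n : ℕ}
    {a b : K ⊗[ℂ] s} (ha : a ∈ F y D ρ i) (hb : b ∈ F y D ρ j) (h1 : n ≤ i + (j - 1))
    (h2 : n ≤ j + (i - 1)) : ⁅a, b⁆ ∈ F y D ρ n := by
  rw [mem_F] at *
  intro l
  rw [Φ_lie h hρ]
  exact sum_mem fun m _ => sub_mem
    (V_mul (fun m => R_mul (D m)) n _ _ _ _ h1 (ha m) (V_D (hb l) m))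
    (V_mul (fun m => R_mul (D m)) n _ _ _ _ h2 (hb m) (V_D (ha l) m))

theorem F_anti {i j : ℕ} (h : i ≤ j) : F y D ρ j ≤ F y D ρ i := fun a ha => by
  rw [mem_F] at *
  intro l
  simpa using V_mul (fun m => R_mul (D m)) i j 0 _ 1 h (ha l) (mem_zero 1)

theorem F_inf [FiniteDimensional ℂ s] (h : Fr y D) (hi : Function.Injective ρ) {a : K ⊗[ℂ] s}
    (ha : ∀ k, a ∈ F y D ρ k) : a = 0 := by
  let b := Module.finBasis ℂ s
  let B := b.baseChange K
  have hB : ∀ c : Fin (Module.finrank ℂ s) → K, B.equivFun.symm c = ∑ i, c i ⊗ₜ b i := fun c => by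
    rw [Module.Basis.equivFun_symm_apply]
    refine Finset.sum_congr rfl fun i _ => ?_
    rw [Module.Basis.baseChange_apply, smul_tmul', smul_eq_mul, mul_one]
  have H := wr h ((⨅ k, F y D ρ k).comap B.equivFun.symm.toLinearMap) (fun m c hc => ?_)
    (fun γ hc => ?_) (B.equivFun a) (by simpa [Submodule.mem_iInf] using ha)
  · exact B.equivFun.map_eq_zero_iff.1 H
  · simp only [Submodule.mem_comap, Submodule.mem_iInf, LinearEquiv.coe_coe, hB, mem_F, map_sum,
      Φ_t] at hc ⊢
    intro k l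
    have := V_E (fun t => (D m).toLinearMap.rTensor K t) (D m) (map_zero _) m (fun n t => ?_)
      (fun t => ?_) k _ (hc (k + 1) l)
    · simpa [map_sum] using this
    · induction t using TensorProduct.induction_on with
      | zero => simp
      | add a b h h' => simp only [map_add, h, h']
      | tmul c x => simp [R_t]
    · induction t using TensorProduct.induction_on with
      | zero => simp
      | add a b h h' => simp only [map_add, h, h']; ring
      | tmul c x => simp [R_t, mu_t]; ring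
  · simp only [Submodule.mem_comap, Submodule.mem_iInf, LinearEquiv.coe_coe, hB, mem_F, map_sum,
      Φ_t] at hc
    have z : ρ (∑ i, γ i • b i) = ρ 0 := by
      ext x
      rw [map_zero, P287D.Cb.expand (P287D.Cb.dr_of _) (ρ _).map_algebraMap h x]
      refine Finset.sum_eq_zero fun l _ => mul_eq_zero_of_left ?_ _
      have := (mem_succ.1 (hc 1 l)).1
      simp only [map_sum, mu_t] at this
      rw [← this]
      change ev ρ (y l) _ = _
      simp only [map_sum, map_smul, Algebra.smul_def]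
      rfl
    exact funext (Fintype.linearIndependent_iff.1 b.linearIndependent γ (hi z))

theorem F_three [FiniteDimensional ℂ s] [LieAlgebra.IsKilling ℂ s] (h : Fr y D)
    (hρ : ∀ a b x, ρ ⁅a, b⁆ x = ρ a (ρ b x) - ρ b (ρ a x)) (hi : Function.Injective ρ)
    {a : K ⊗[ℂ] s} (ha : a ∈ F y D ρ 3) : a = 0 := by
  obtain ⟨N, hN⟩ := IsArtinian.monotone_stabilizes
    (⟨fun k => OrderDual.toDual (F y D ρ k), fun i j e => F_anti e⟩ :
      ℕ →o (Submodule K (K ⊗[ℂ] s))ᵒᵈ)
  have z : ∀ v ∈ F y D ρ N, v = 0 := fun v hv => F_inf h hi fun k => by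
    have e : F y D ρ N = F y D ρ (max N k) := hN _ (le_max_left N k)
    exact F_anti (le_max_right N k) (e ▸ hv)
  have t : ∀ x, LieModule.traceForm K (K ⊗[ℂ] s) (K ⊗[ℂ] s) a x = 0 := fun x => by
    rw [LieModule.traceForm_apply_apply, ← isNilpotent_iff_eq_zero]
    refine LinearMap.isNilpotent_trace_of_isNilpotent ⟨N, LinearMap.ext fun v => z _ ?_⟩
    generalize N = n
    induction n with
    | zero => exact mem_F.2 fun l => mem_zero _
    | succ n ih =>
      rw [pow_succ', Module.End.mul_apply, LinearMap.comp_apply, LieModule.toEnd_apply_apply,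
        LieModule.toEnd_apply_apply]
      exact F_lie h hρ ha (F_lie h hρ (i := 0) (n := n - 1) (mem_F.2 fun l => mem_zero _) ih
        (by omega) (by omega)) (by omega) (by omega)
  let b := Module.finBasis ℂ s
  let B := b.baseChange K
  have n0 : (LinearMap.BilinForm.toMatrix b (killingForm ℂ s)).det ≠ 0 :=
    (LinearMap.BilinForm.nondegenerate_iff_det_ne_zero b).1
      (LieAlgebra.IsKilling.killingForm_nondegenerate ℂ s)
  have n1 : ((killingForm ℂ s).baseChange K).Nondegenerate := by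
    rw [LinearMap.BilinForm.nondegenerate_iff_det_ne_zero B]
    have e : LinearMap.BilinForm.toMatrix B ((killingForm ℂ s).baseChange K) =
        (algebraMap ℂ K).mapMatrix (LinearMap.BilinForm.toMatrix b (killingForm ℂ s)) := by
      ext i j
      simp [B, Algebra.smul_def]
    rw [e, ← RingHom.map_det]
    exact (map_ne_zero _).2 n0
  refine n1.1 a fun x => ?_
  rw [← t x]
  exact congrFun (congrArg DFunLike.coe (congrFun (congrArg DFunLike.coe
    (LieModule.traceForm_baseChange ℂ s s K)) a)).symm x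

/-- **BND**, for a frame -/
theorem bnd_fr [FiniteDimensional ℂ s] [LieAlgebra.IsKilling ℂ s] (h : Fr y D)
    (hρ : ∀ a b x, ρ ⁅a, b⁆ x = ρ a (ρ b x) - ρ b (ρ a x)) (hi : Function.Injective ρ) :
    Module.finrank ℂ s ≤ d * (1 + d + d ^ 2) := by
  let J : K ⊗[ℂ] s →ₗ[K] (Fin d → K) × (Fin d → Fin d → K) × (Fin d → Fin d → Fin d → K) :=
    (LinearMap.pi fun l => (mu K).toLinearMap ∘ₗ Φ ρ (y l)).prod
      ((LinearMap.pi fun l => LinearMap.pi fun m =>
        (mu K).toLinearMap ∘ₗ R (D m) ∘ₗ Φ ρ (y l)).prod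
      (LinearMap.pi fun l => LinearMap.pi fun m => LinearMap.pi fun n =>
        (mu K).toLinearMap ∘ₗ R (D n) ∘ₗ R (D m) ∘ₗ Φ ρ (y l)))
  have i : Function.Injective J := (injective_iff_map_eq_zero J).2 fun a ha =>
    F_three h hρ hi (mem_F.2 fun l => mem_succ.2 ⟨congrFun (congrArg Prod.fst ha) l, fun m =>
      mem_succ.2 ⟨congrFun (congrFun (congrArg (·.2.1) ha) l) m, fun n =>
        mem_succ.2 ⟨congrFun (congrFun (congrFun (congrArg (·.2.2) ha) l) m) n, fun _ =>
          mem_zero _⟩⟩⟩)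
  have := LinearMap.finrank_le_finrank_of_injective i
  simp only [Module.finrank_baseChange, Module.finrank_prod, Module.finrank_pi_fintype,
    Module.finrank_self, Finset.sum_const, Finset.card_univ, Fintype.card_fin, smul_eq_mul] at this
  exact this.trans (le_of_eq (by ring))

/-- **BND** -/
theorem bnd' [FiniteDimensional ℂ s] [LieAlgebra.IsKilling ℂ s] (hK : FF K d)
    (ρ : s →ₗ[ℂ] Derivation ℂ K K) (hρ : ∀ a b x, ρ ⁅a, b⁆ x = ρ a (ρ b x) - ρ b (ρ a x))
    (hi : Function.Injective ρ) : Module.finrank ℂ s ≤ d * (1 + d + d ^ 2) := by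
  obtain ⟨y, hy, -⟩ := id hK
  obtain ⟨D, h⟩ := P287D.Cb.fr_of hK hy
  exact bnd_fr h hρ hi

/-- **BND**, for a homomorphism of Lie algebras -/
theorem bnd_hom [FiniteDimensional ℂ s] [LieAlgebra.IsKilling ℂ s] (hK : FF K d)
    (ρ : s →ₗ⁅ℂ⁆ Derivation ℂ K K) (hi : Function.Injective ρ) :
    Module.finrank ℂ s ≤ d * (1 + d + d ^ 2) :=
  bnd' hK ρ.toLinearMap (fun a b x => by
    rw [LieHom.coe_toLinearMap, LieHom.map_lie, Derivation.commutator_apply]) hi

end Vale.Agent.P283R.Sg.B11

namespace Vale.Agent.P283R.Sg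

/-- **BND** -/
theorem bnd : BND := fun _ _ _ _ _ _ _ _ _ σ hK hi => B11.bnd_hom hK σ hi

end Vale.Agent.P283R.Sg
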