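import Mathlib

/-!
# P283R, block SG: degrees and eigenvectors of locally finite derivations
-/

set_option linter.all false

open Finset

namespace Vale.Agent.P283R.Sg.E19

variable {R : Type*} [CommRing R] [Algebra ℂ R]

/-- `a` lies in a stable subspace of finite dimension -/
def Lf (d : Derivation ℂ R R) (a : R) : Prop :=
  ∃ W : Submodule ℂ R, FiniteDimensional ℂ W ∧ a ∈ W ∧ ∀ x ∈ W, d x ∈ W

section leib

variable {A B C : Module.End ℂ R} (h : ∀ x y, C (x * y) = A x * y + x * B y)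

include h

theorem leib (k : ℕ) (x y : R) : (C ^ k) (x * y) =
    ∑ p ∈ antidiagonal k, k.choose p.1 • ((A ^ p.1) x * (B ^ p.2) y) := by
  induction k with
  | zero => simp
  | succ k ih =>
    rw [pow_succ', Module.End.mul_apply, ih, map_sum, sum_antidiagonal_choose_succ_nsmul
      (fun i j => (A ^ i) x * (B ^ j) y) k, add_comm, ← sum_add_distrib]
    refine sum_congr rfl fun p hp => ?_
    rw [map_nsmul, h, pow_succ', pow_succ', Module.End.mul_apply, Module.End.mul_apply, smul_add,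
      ← Nat.choose_symm_of_eq_add (mem_antidiagonal.1 hp).symm]

omit h in
theorem pow_zero_of {i k : ℕ} {x : R} (a : (A ^ i) x = 0) (e : i ≤ k) : (A ^ k) x = 0 := by
  rw [← Nat.sub_add_cancel e, pow_add, Module.End.mul_apply, a, map_zero]

theorem top {i j : ℕ} {x y : R} (a : (A ^ (i + 1)) x = 0) (b : (B ^ (j + 1)) y = 0) :
    (C ^ (i + j)) (x * y) = (i + j).choose i • ((A ^ i) x * (B ^ j) y) ∧
      (C ^ (i + j + 1)) (x * y) = 0 := by
  rw [leib h, leib h]
  refine ⟨sum_eq_single (i, j) (fun p hp ne => ?_) (by simp), sum_eq_zero fun p hp => ?_⟩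
  · have e := mem_antidiagonal.1 hp
    by_cases k : i + 1 ≤ p.1
    · rw [pow_zero_of a k, zero_mul, smul_zero]
    · rw [pow_zero_of b (k := p.2) (by_contra fun w => ne (Prod.ext (by simp; omega)
        (by simp; omega))), mul_zero, smul_zero]
  · have e := mem_antidiagonal.1 hp
    by_cases k : i + 1 ≤ p.1
    · rw [pow_zero_of a k, zero_mul, smul_zero]
    · rw [pow_zero_of b (k := p.2) (by omega), mul_zero, smul_zero]

theorem top_ne [IsDomain R] {i j : ℕ} {x y : R} (a : (A ^ (i + 1)) x = 0) (a' : (A ^ i) x ≠ 0)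
    (b : (B ^ (j + 1)) y = 0) (b' : (B ^ j) y ≠ 0) : (C ^ (i + j)) (x * y) ≠ 0 := by
  haveI : CharZero R := charZero_of_injective_algebraMap (algebraMap ℂ R).injective
  rw [(top h a b).1, nsmul_eq_mul]
  exact mul_ne_zero (Nat.cast_ne_zero.2 (Nat.choose_pos (Nat.le_add_right i j)).ne')
    (mul_ne_zero a' b')

end leib

theorem exists_deg {A : Module.End ℂ R} {x : R} (x0 : x ≠ 0) (h : ∃ k, (A ^ k) x = 0) :
    ∃ i, (A ^ (i + 1)) x = 0 ∧ (A ^ i) x ≠ 0 := by
  classical
  have k0 : Nat.find h ≠ 0 := fun e => x0 (by simpa [e] using Nat.find_spec h)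
  exact ⟨Nat.find h - 1, by rw [Nat.sub_add_cancel (Nat.pos_of_ne_zero k0)]; exact Nat.find_spec h,
    Nat.find_min h (by omega)⟩

theorem shift (d : Derivation ℂ R R) (μ ν : ℂ) (x y : R) :
    ((d : Module.End ℂ R) - (μ + ν) • 1) (x * y) =
      ((d : Module.End ℂ R) - μ • 1) x * y + x * ((d : Module.End ℂ R) - ν • 1) y := by
  simp only [LinearMap.sub_apply, LinearMap.smul_apply, Module.End.one_apply, Derivation.coeFn_coe,
    Derivation.leibniz, smul_eq_mul]
  simp only [Algebra.smul_def, map_add]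
  ring

theorem mul_mem (d : Derivation ℂ R R) {μ ν : ℂ} {x y : R}
    (a : x ∈ Module.End.maxGenEigenspace (d : Module.End ℂ R) μ)
    (b : y ∈ Module.End.maxGenEigenspace (d : Module.End ℂ R) ν) :
    x * y ∈ Module.End.maxGenEigenspace (d : Module.End ℂ R) (μ + ν) := by
  rw [Module.End.mem_maxGenEigenspace] at a b ⊢
  obtain ⟨i, a⟩ := a
  obtain ⟨j, b⟩ := b
  exact ⟨_, (top (shift d μ ν) (pow_zero_of a i.le_succ) (pow_zero_of b j.le_succ)).2⟩

theorem Lf.dec {d : Derivation ℂ R R} {a : R} (h : Lf d a) : ∃ α : ℂ →₀ R,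
    (∀ μ, α μ ∈ Module.End.maxGenEigenspace (d : Module.End ℂ R) μ) ∧
      ∑ μ ∈ α.support, α μ = a := by
  obtain ⟨W, _, m, s⟩ := h
  have s' : ∀ x ∈ W, (d : Module.End ℂ R) x ∈ W := s
  have e := Module.End.iSup_maxGenEigenspace_eq_top (LinearMap.restrict _ s')
  have k : a ∈ ⨆ μ, Module.End.maxGenEigenspace (d : Module.End ℂ R) μ := by
    have k := Submodule.mem_map_of_mem (f := W.subtype) (e.ge (Submodule.mem_top (x := ⟨a, m⟩)))
    rw [Submodule.map_iSup] at k
    refine SetLike.le_def.1 (iSup_mono fun μ => ?_) k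
    rw [Module.End.maxGenEigenspace, ← Submodule.inf_genEigenspace _ W s']
    exact inf_le_right
  exact (Submodule.mem_iSup_iff_exists_finsupp _ _).1 k

variable [IsDomain R] {d : Derivation ℂ R R}

/-- **EIG**: factors of eigenvectors are eigenvectors -/
theorem eig {a b : R} {c : ℂ} (ha : Lf d a) (hb : Lf d b) (h0 : a * b ≠ 0)
    (h : d (a * b) = c • (a * b)) : ∃ c' : ℂ, d a = c' • a := by
  classical
  obtain ⟨α, a1, a2⟩ := ha.dec
  obtain ⟨β, b1, b2⟩ := hb.dec
  have n1 : ((d : Module.End ℂ R) - c • 1) (a * b) = 0 := by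
    rw [LinearMap.sub_apply, Derivation.coeFn_coe, h]
    simp
  have m : a * b ∈ Module.End.maxGenEigenspace (d : Module.End ℂ R) c :=
    (Module.End.mem_maxGenEigenspace _ _ _).2 ⟨1, by rwa [pow_one]⟩
  have key : ∀ p ∈ α.support ×ˢ β.support, UniqueAdd α.support β.support p.1 p.2 →
      p.1 + p.2 = c := fun p hp u => by_contra fun ne => by
    obtain ⟨p1, p2⟩ := mem_product.1 hp
    have e : α p.1 * β p.2 = a * b - ∑ q ∈ (α.support ×ˢ β.support).erase p, α q.1 * β q.2 := by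
      rw [← a2, ← b2, sum_mul_sum, ← sum_product', ← add_sum_erase _ _ hp, add_sub_cancel_right]
    refine mul_ne_zero (Finsupp.mem_support_iff.1 p1) (Finsupp.mem_support_iff.1 p2)
      (Submodule.disjoint_def.1 (Module.End.independent_maxGenEigenspace (d : Module.End ℂ R)
        (p.1 + p.2)) _ (mul_mem d (a1 _) (b1 _)) ?_)
    rw [e]
    refine sub_mem (Submodule.mem_iSup_of_mem c (Submodule.mem_iSup_of_mem (Ne.symm ne) m))
      (Submodule.sum_mem _ fun q hq => Submodule.mem_iSup_of_mem (q.1 + q.2)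
        (Submodule.mem_iSup_of_mem (fun z => ?_) (mul_mem d (a1 _) (b1 _))))
    obtain ⟨q0, q1⟩ := mem_erase.1 hq
    obtain ⟨q1, q2⟩ := mem_product.1 q1
    exact q0 (Prod.ext (u q1 q2 z).1 (u q1 q2 z).2)
  have le : α.support.card * β.support.card ≤ 1 := by_contra fun w => by
    obtain ⟨p, hp, q, hq, ne, u, v⟩ := TwoUniqueSums.uniqueAdd_of_one_lt_card (not_le.1 w)
    obtain ⟨p1, p2⟩ := mem_product.1 hp
    have := v p1 p2 ((key p hp u).trans (key q hq v).symm)
    exact ne (Prod.ext this.1 this.2)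
  have a0 := left_ne_zero_of_mul h0
  have b0 := right_ne_zero_of_mul h0
  have ca : α.support.card ≠ 0 := fun e => a0 (by rw [← a2, card_eq_zero.1 e, sum_empty])
  have cb : β.support.card ≠ 0 := fun e => b0 (by rw [← b2, card_eq_zero.1 e, sum_empty])
  obtain ⟨μ, hμ⟩ := card_eq_one.1 (show α.support.card = 1 by
    have := Nat.le_mul_of_pos_right α.support.card (Nat.pos_of_ne_zero cb); omega)
  obtain ⟨ν, hν⟩ := card_eq_one.1 (show β.support.card = 1 by
    have := Nat.le_mul_of_pos_left β.support.card (Nat.pos_of_ne_zero ca); omega)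
  have e : μ + ν = c := key (μ, ν) (by simp [hμ, hν]) fun _ _ x y _ => by
    rw [hμ, mem_singleton] at x
    rw [hν, mem_singleton] at y
    exact ⟨x, y⟩
  rw [hμ, sum_singleton] at a2
  rw [hν, sum_singleton] at b2
  obtain ⟨i, i1, i2⟩ := exists_deg a0 ((Module.End.mem_maxGenEigenspace _ _ _).1 (a2 ▸ a1 μ))
  obtain ⟨j, j1, j2⟩ := exists_deg b0 ((Module.End.mem_maxGenEigenspace _ _ _).1 (b2 ▸ b1 ν))
  have t := top_ne (shift d μ ν) i1 i2 j1 j2
  rw [e] at t
  have z : i = 0 := by_contra fun z => t (pow_zero_of (i := 1) (by rwa [pow_one]) (by omega))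
  rw [z, zero_add, pow_one, LinearMap.sub_apply, sub_eq_zero] at i1
  exact ⟨μ, i1⟩

theorem leib0 (d : Derivation ℂ R R) (x y : R) :
    (d : Module.End ℂ R) (x * y) = (d : Module.End ℂ R) x * y + x * (d : Module.End ℂ R) y := by
  simp only [Derivation.coeFn_coe, Derivation.leibniz, smul_eq_mul]
  ring

theorem pw (d : Derivation ℂ R R) (k : ℕ) (x : R) : ((d : Module.End ℂ R) ^ k) x = d^[k] x :=
  Module.End.pow_apply _ _ _

/-- **DEG**: the degree is additive -/
theorem deg {a b : R} {i j : ℕ} (a1 : d^[i] a ≠ 0) (a2 : d^[i + 1] a = 0) (b1 : d^[j] b ≠ 0)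
    (b2 : d^[j + 1] b = 0) : d^[i + j] (a * b) ≠ 0 ∧ d^[i + j + 1] (a * b) = 0 := by
  simp only [← pw] at *
  exact ⟨top_ne (leib0 d) a2 a1 b2 b1, (top (leib0 d) a2 b2).2⟩

theorem ex_deg {x : R} (x0 : x ≠ 0) (h : ∃ k, d^[k] x = 0) :
    ∃ i, d^[i] x ≠ 0 ∧ d^[i + 1] x = 0 := by
  simp only [← pw] at *
  exact (exists_deg x0 h).imp fun _ => And.symm

theorem it_zero {i k : ℕ} {x : R} (a : d^[i] x = 0) (e : i ≤ k) : d^[k] x = 0 := by
  simp only [← pw] at *
  exact pow_zero_of a e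

/-- a locally nilpotent derivation has no eigenvalue in the ring -/
theorem c0 {w c : R} (w0 : w ≠ 0) (hw : ∃ k, d^[k] w = 0) (hc : ∃ k, d^[k] c = 0)
    (h : d w = c * w) : c = 0 := by_contra fun c0 => by
  obtain ⟨i, i1, i2⟩ := ex_deg c0 hc
  obtain ⟨j, j1, j2⟩ := ex_deg w0 hw
  refine (deg i1 i2 j1 j2).1 ?_
  rw [← h, ← Function.iterate_succ_apply]
  exact it_zero j2 (by omega)

theorem deg_prod {ι : Type*} (S : Finset ι) {x : ι → R} {g : ι → ℕ}
    (h : ∀ P ∈ S, d^[g P] (x P) ≠ 0 ∧ d^[g P + 1] (x P) = 0) :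
    d^[∑ P ∈ S, g P] (∏ P ∈ S, x P) ≠ 0 ∧ d^[∑ P ∈ S, g P + 1] (∏ P ∈ S, x P) = 0 := by
  classical
  induction S using Finset.induction_on with
  | empty => simp
  | insert P S n ih =>
    rw [sum_insert n, prod_insert n]
    have a := h P (mem_insert_self _ _)
    have b := ih fun Q q => h Q (mem_insert_of_mem q)
    exact deg a.1 a.2 b.1 b.2

/-- the factors of an element of degree at most `M` -/
theorem dvd_nil {ι : Type*} (S : Finset ι) {x : ι → R} {v : R} {M : ℕ}
    (nil : ∀ a : R, ∃ k, d^[k] a = 0) (h0 : (∏ P ∈ S, x P) * v ≠ 0)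
    (h : d^[M + 1] ((∏ P ∈ S, x P) * v) = 0) :
    (∀ P ∈ S, d^[M + 1] (x P) = 0) ∧ {P | P ∈ S ∧ d (x P) ≠ 0}.ncard ≤ M := by
  classical
  have x0 := prod_ne_zero_iff.1 (left_ne_zero_of_mul h0)
  choose! g hg using fun P (p : P ∈ S) => ex_deg (x0 P p) (nil (x P))
  obtain ⟨j, j1, j2⟩ := ex_deg (right_ne_zero_of_mul h0) (nil v)
  have a := deg_prod S hg
  have le : ∑ P ∈ S, g P ≤ M := by_contra fun w =>
    (deg a.1 a.2 j1 j2).1 (it_zero h (by omega))
  refine ⟨fun P p => it_zero (hg P p).2 ?_, ?_⟩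
  · have := single_le_sum (f := g) (fun _ _ => Nat.zero_le _) p
    omega
  · rw [show {P | P ∈ S ∧ d (x P) ≠ 0} = ((S.filter fun P => d (x P) ≠ 0 : Finset ι) : Set ι) by
      ext; simp, Set.ncard_coe_finset, card_eq_sum_ones]
    refine le_trans ((sum_le_sum fun P p => ?_).trans
      (sum_le_sum_of_subset (f := g) (filter_subset _ _))) le
    obtain ⟨p, q⟩ := mem_filter.1 p
    exact Nat.pos_of_ne_zero fun z => q (by simpa [z] using (hg P p).2)

end Vale.Agent.P283R.Sg.E19
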