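import Vale.Agent.P283R.Sg.St
import Vale.Agent.P283R.Sg.Eig19

/-!
# P283R, block SG: the rows DEG, EIG, DVD
-/

namespace Vale.Agent.P283R.Sg

theorem deg : DEG := fun _ _ _ _ δ a b _ _ _ _ i1 i2 j1 j2 =>
  ⟨E19.top_ne (E19.shift δ a b) i2 i1 j2 j1, (E19.top (E19.shift δ a b) i2 j2).2⟩

theorem eig : EIG := fun _ _ _ _ _ _ _ a b h0 ⟨_, h⟩ => E19.eig a b h0 h

theorem dvd19 : DVD := fun _ _ _ _ δ => by
  refine ⟨fun x y M a b h0 h => ?_, fun ι S x y M a b h0 h n => ?_,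
    fun c w a b w0 h => E19.c0 w0 b a h⟩
  · obtain ⟨i, i1, i2⟩ := E19.ex_deg (left_ne_zero_of_mul h0) a
    obtain ⟨j, j1, j2⟩ := E19.ex_deg (right_ne_zero_of_mul h0) b
    exact E19.it_zero i2 (by_contra fun w => (E19.deg i1 i2 j1 j2).1 (E19.it_zero h (by omega)))
  · have x0 := Finset.prod_ne_zero_iff.1 (left_ne_zero_of_mul h0)
    choose! g hg using fun P (p : P ∈ S) => E19.ex_deg (x0 P p) (a P p)
    obtain ⟨j, j1, j2⟩ := E19.ex_deg (right_ne_zero_of_mul h0) b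
    have k := E19.deg_prod S hg
    have le : ∑ P ∈ S, g P ≤ M := by_contra fun w =>
      (E19.deg k.1 k.2 j1 j2).1 (E19.it_zero h (by omega))
    rw [Finset.card_eq_sum_ones]
    exact (Finset.sum_le_sum fun P p => Nat.pos_of_ne_zero fun z =>
      n P p (by simpa [z] using (hg P p).2)).trans le

end Vale.Agent.P283R.Sg
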