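import Mathlib

/-!
# P283R, block SG: the Lie derivative of a determinant of derivations
-/

open Function

noncomputable section

namespace Vale.Agent.P283R.Sg.L84

section det

variable {k K : Type} [CommRing k] [CommRing K] [Algebra k K] {d : ℕ}

theorem der_prod {ι : Type} [DecidableEq ι] (D : Derivation k K K) (s : Finset ι) (f : ι → K) :
    D (∏ i ∈ s, f i) = ∑ j ∈ s, D (f j) * ∏ i ∈ s.erase j, f i := by
  induction s using Finset.induction_on with
  | empty => simp
  | insert a s ha ih =>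
    rw [Finset.prod_insert ha, Finset.sum_insert ha, Finset.erase_insert ha, D.leibniz, ih,
      smul_eq_mul, smul_eq_mul, add_comm, mul_comm, Finset.mul_sum]
    refine congrArg _ (Finset.sum_congr rfl fun j hj => ?_)
    rw [Finset.erase_insert_of_ne (fun c : a = j => ha (c ▸ hj)),
      Finset.prod_insert fun c => ha (Finset.mem_of_mem_erase c)]
    ring

/-- the formula of Jacobi -/
theorem der_det (D : Derivation k K K) (M : Matrix (Fin d) (Fin d) K) :
    D M.det = (M.adjugate * M.map D).trace := by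
  have e : ∀ j, (M.updateCol j fun i => D (M i j)).det = (M.adjugate * M.map D).diag j := by
    intro j
    rw [← Matrix.cramer_apply, Matrix.cramer_eq_adjugate_mulVec]
    rfl
  rw [Matrix.trace, ← Finset.sum_congr rfl fun j _ => e j, Matrix.det_apply', map_sum]
  simp only [Matrix.det_apply']
  rw [Finset.sum_comm]
  refine Finset.sum_congr rfl fun σ _ => ?_
  rw [D.leibniz, D.map_intCast, smul_zero, add_zero, smul_eq_mul, der_prod, Finset.mul_sum]
  refine Finset.sum_congr rfl fun j _ => congrArg _ ?_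
  rw [← Finset.mul_prod_erase _ _ (Finset.mem_univ j), Matrix.updateCol_self]
  exact congrArg _ (Finset.prod_congr rfl fun i hi =>
    (Matrix.updateCol_ne (Finset.ne_of_mem_erase hi)).symm)

theorem sum_row (M B : Matrix (Fin d) (Fin d) K) :
    ∑ i, (M.updateRow i (B i)).det = (M.adjugate * B).trace := by
  rw [Matrix.trace_mul_comm, Matrix.trace]
  refine Finset.sum_congr rfl fun i _ => ?_
  rw [← Matrix.cramer_transpose_apply, Matrix.cramer_eq_adjugate_mulVec,
    ← Matrix.adjugate_transpose]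
  simp only [Matrix.diag_apply, Matrix.mul_apply, Matrix.mulVec, dotProduct,
    Matrix.transpose_apply]
  exact Finset.sum_congr rfl fun j _ => mul_comm (M.adjugate j i) (B i j)

/-- the determinant of `d` derivations in the frame `y` -/
def wd (y : Fin d → K) (ξ : Fin d → Derivation k K K) : K :=
  (Matrix.of fun i j => ξ i (y j)).det

theorem wd_zero (y : Fin d → K) (ξ : Fin d → Derivation k K K) (i : Fin d) (h : ξ i = 0) :
    wd y ξ = 0 :=
  Matrix.det_eq_zero_of_row_eq_zero i fun j => by simp [h]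

/-- **the Lie derivative of the determinant** -/
theorem lied (y : Fin d → K) (dd : Fin d → K → K) (n : Derivation k K K)
    (ξ : Fin d → Derivation k K K) (h : ∀ i j, ξ i (n (y j)) = ∑ l, ξ i (y l) * dd l (n (y j))) :
    n (wd y ξ) = ∑ i, wd y (update ξ i ⁅n, ξ i⁆) + (∑ j, dd j (n (y j))) * wd y ξ := by
  have e : (Matrix.of fun i j => ξ i (y j)).map n = (Matrix.of fun i j => ⁅n, ξ i⁆ (y j)) +
      (Matrix.of fun i j => ξ i (y j)) * Matrix.of fun l j => dd l (n (y j)) := by
    ext i j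
    simp only [Matrix.map_apply, Matrix.of_apply, Matrix.add_apply, Matrix.mul_apply,
      Derivation.commutator_apply, ← h]
    ring
  rw [wd, der_det, e, Matrix.mul_add, Matrix.trace_add, ← sum_row, ← Matrix.mul_assoc,
    Matrix.adjugate_mul, Matrix.smul_mul, Matrix.one_mul, Matrix.trace_smul, smul_eq_mul, mul_comm]
  refine congrArg₂ _ (Finset.sum_congr rfl fun i _ => congrArg Matrix.det ?_) rfl
  ext a j
  by_cases c : a = i
  · subst c; simp
  · simp [Matrix.updateRow_ne c, update_of_ne c]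

end det

section nil

variable {g E : Type} [Zero g] {d : ℕ}

theorem drop {ad : g → g} {ξ : Fin d → g} {a : Fin d → ℕ} (h : ∀ i, ad^[a i] (ξ i) = 0) {m : ℕ}
    (hm : ∑ i, a i ≤ m + 1) (i : Fin d) (c : ξ i ≠ 0) : ∃ a' : Fin d → ℕ,
      (∀ j, ad^[a' j] (update ξ i (ad (ξ i)) j) = 0) ∧ ∑ j, a' j ≤ m := by
  obtain ⟨b, hb⟩ : ∃ b, a i = b + 1 := Nat.exists_eq_succ_of_ne_zero fun c' => c (by
    have k := h i
    rwa [c'] at k)
  refine ⟨update a i b, fun j => ?_, ?_⟩
  · by_cases e : j = i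
    · subst e
      rw [update_self, update_self, ← iterate_succ_apply, Nat.succ_eq_add_one, ← hb]
      exact h j
    · rw [update_of_ne e, update_of_ne e]; exact h j
  · rw [Finset.sum_update_of_mem (Finset.mem_univ i)]
    rw [← Finset.add_sum_erase _ _ (Finset.mem_univ i), hb, Finset.erase_eq] at hm
    omega

/-- the last value which is not zero is an eigenvector -/
theorem last [Semiring E] {ad : g → g} (S : Set g) (hS : ∀ x ∈ S, ad x ∈ S)
    (W : (Fin d → g) → E) (h0 : ∀ ξ i, ξ i = 0 → W ξ = 0) (D : E → E) (c : E)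
    (hD : ∀ ξ, (∀ i, ξ i ∈ S) → D (W ξ) = ∑ i, W (update ξ i (ad (ξ i))) + c * W ξ) (m : ℕ) :
    ∀ (ξ : Fin d → g) (a : Fin d → ℕ), (∀ i, ξ i ∈ S) → (∀ i, ad^[a i] (ξ i) = 0) →
      ∑ i, a i ≤ m → W ξ ≠ 0 → ∃ ξ', (∀ i, ξ' i ∈ S) ∧ W ξ' ≠ 0 ∧ D (W ξ') = c * W ξ' := by
  induction m with
  | zero =>
    intro ξ a hs h hm hW
    refine ⟨ξ, hs, hW, ?_⟩
    rw [hD ξ hs, Finset.sum_eq_zero fun i _ => (hW (h0 ξ i ?_)).elim, zero_add]
    have k := h i
    rwa [Finset.sum_eq_zero_iff.1 (Nat.le_zero.1 hm) i (Finset.mem_univ i)] at k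
  | succ m ih =>
    intro ξ a hs h hm hW
    by_cases e : ∀ i, W (update ξ i (ad (ξ i))) = 0
    · exact ⟨ξ, hs, hW, by rw [hD ξ hs, Finset.sum_eq_zero fun i _ => e i, zero_add]⟩
    · obtain ⟨i, hi⟩ := not_forall.1 e
      obtain ⟨a', a1, a2⟩ := drop h hm i fun c => hW (h0 ξ i c)
      refine ih _ a' (fun j => ?_) a1 a2 hi
      by_cases e : j = i
      · subst e; rw [update_self]; exact hS _ (hs j)
      · rw [update_of_ne e]; exact hs j

/-- the bound for the order of nilpotency -/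
theorem pow [AddCommMonoid E] {ad : g → g} (a0 : ad 0 = 0) (S : Set g) (hS : ∀ x ∈ S, ad x ∈ S)
    (W : (Fin d → g) → E) (h0 : ∀ ξ i, ξ i = 0 → W ξ = 0) (D : E → E) (D0 : D 0 = 0)
    (D1 : ∀ x y, D (x + y) = D x + D y)
    (hD : ∀ ξ, (∀ i, ξ i ∈ S) → D (W ξ) = ∑ i, W (update ξ i (ad (ξ i)))) (m : ℕ) :
    ∀ (ξ : Fin d → g) (a : Fin d → ℕ), (∀ i, ξ i ∈ S) → (∀ i, ad^[a i] (ξ i) = 0) →
      ∑ i, a i ≤ m → D^[m + 1] (W ξ) = 0 := by
  have z : ∀ (ξ : Fin d → g) i, ξ i = 0 → W (update ξ i (ad (ξ i))) = 0 := fun ξ i c =>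
    h0 _ i (by rw [update_self, c, a0])
  induction m with
  | zero =>
    intro ξ a hs h hm
    rw [zero_add, iterate_one, hD ξ hs]
    refine Finset.sum_eq_zero fun i _ => z ξ i ?_
    have k := h i
    rwa [Finset.sum_eq_zero_iff.1 (Nat.le_zero.1 hm) i (Finset.mem_univ i)] at k
  | succ m ih =>
    intro ξ a hs h hm
    rw [iterate_succ_apply, hD ξ hs]
    refine Finset.sum_induction _ (fun x => D^[m + 1] x = 0) (fun x y hx hy => ?_)
      (iterate_fixed D0 _) fun i _ => ?_
    · rw [show D^[m + 1] (x + y) = D^[m + 1] x + D^[m + 1] y from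
        iterate_map_add (⟨⟨D, D0⟩, D1⟩ : E →+ E) (m + 1) x y, hx, hy, add_zero]
    by_cases c : ξ i = 0
    · rw [z ξ i c]; exact iterate_fixed D0 _
    · obtain ⟨a', a1, a2⟩ := drop h hm i c
      refine ih _ a' (fun j => ?_) a1 a2
      by_cases e : j = i
      · subst e; rw [update_self]; exact hS _ (hs j)
      · rw [update_of_ne e]; exact hs j

end nil

end Vale.Agent.P283R.Sg.L84
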