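import Vale.Agent.P283R.Sg.St
import Vale.Agent.P283R.Sg.Lie84

/-!
# P283R, block SG: the row JAC
-/

namespace Vale.Agent.P283R.Sg

open Vale.Agent.P287D

/-- **JAC** -/
theorem jac84 : JAC := fun K _ _ _ y E ξ n h =>
  L84.lied y (fun l => E l) n ξ fun i j => by
    rw [Cb.expand (Cb.dr_of (ξ i)) (fun c => (ξ i).map_algebraMap c) h (n (y j))]
    exact Finset.sum_congr rfl fun l _ => by simp [mul_comm]

end Vale.Agent.P283R.Sg
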