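import Mathlib.Algebra.Lie.LieTheorem
import Vale.Agent.P283R.Sg.St

/-!
# P283R, block SG: the theorem of Lie
-/

namespace Vale.Agent.P283R.Sg

attribute [local instance 100] LieRing.ofAssociativeRing

theorem lie : LIE := by
  intro V L _ _ _ _ ρ b N hρ hs hf hN hb
  let φ : b →ₗ⁅ℂ⁆ Module.End ℂ N :=
    { toFun := fun δ => (ρ δ).restrict (hb δ δ.2)
      map_add' := fun u v => by
        ext x
        simp [LinearMap.restrict_apply]
      map_smul' := fun c v => by
        ext x
        simp [LinearMap.restrict_apply]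
      map_lie' := fun {u v} => by
        ext x
        simp [LinearMap.restrict_apply, hρ, Ring.lie_def] }
  let _ : LieRingModule b N := LieRingModule.compLieHom N φ
  have : LieModule ℂ b N := LieModule.compLieHom N φ
  have : Nontrivial N := Submodule.nontrivial_iff_ne_bot.2 hN
  obtain ⟨χ, hχ⟩ := LieModule.exists_nontrivial_weightSpace_of_isSolvable ℂ b N
  obtain ⟨⟨v, hv⟩, h0⟩ := exists_ne (0 : LieModule.weightSpace N χ)
  refine ⟨v, v.2, fun e => h0 (Subtype.ext (Subtype.ext e)), fun a ha => ⟨χ ⟨a, ha⟩, ?_⟩⟩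
  have := (LieModule.mem_weightSpace χ v).1 hv ⟨a, ha⟩
  exact congrArg Subtype.val this

end Vale.Agent.P283R.Sg
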