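import Mathlib

/-!
Locally finite derivations of a domain: factors of an eigenvector are eigenvectors, and the
degree of a locally nilpotent derivation is additive.
-/

namespace Vale.Agent.P283R.Sg.E88

open Finset

variable {L : Type} [CommRing L] [Algebra ℂ L]

/-- `x` lies in a finite dimensional `D`-stable subspace -/
def Lf (D : Derivation ℂ L L) (x : L) : Prop :=
  ∃ V : Submodule ℂ L, FiniteDimensional ℂ V ∧ x ∈ V ∧ ∀ v ∈ V, D v ∈ V

/-- some power of `D` kills `x` -/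
def Nl (D : Derivation ℂ L L) (x : L) : Prop := ∃ m : ℕ, (⇑D)^[m] x = 0

theorem lb (A B T : Module.End ℂ L) (h : ∀ x y, T (x * y) = A x * y + x * B y) (n : ℕ) (x y : L) :
    (T ^ n) (x * y) =
      ∑ p ∈ antidiagonal n, n.choose p.1 • ((A ^ p.1) x * (B ^ p.2) y) := by
  induction n with
  | zero => simp
  | succ n ih =>
    rw [pow_succ', Module.End.mul_apply, ih, map_sum,
      sum_antidiagonal_choose_succ_nsmul (fun i j => (A ^ i) x * (B ^ j) y) n,
      ← sum_add_distrib]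
    refine sum_congr rfl fun p hp => ?_
    rw [map_nsmul, h, pow_succ', pow_succ', Module.End.mul_apply, Module.End.mul_apply, smul_add,
      add_comm, Nat.choose_symm_of_eq_add (mem_antidiagonal.1 hp).symm]

theorem kill (A : Module.End ℂ L) {x : L} {p i : ℕ} (h : (A ^ p) x = 0) (hi : p ≤ i) :
    (A ^ i) x = 0 := by
  obtain ⟨k, rfl⟩ := Nat.exists_eq_add_of_le hi
  rw [add_comm, pow_add, Module.End.mul_apply, h, map_zero]

theorem top0 (A B T : Module.End ℂ L) (h : ∀ x y, T (x * y) = A x * y + x * B y) {p q : ℕ}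
    {x y : L} (hx : (A ^ p) x = 0) (hy : (B ^ q) y = 0) : (T ^ (p + q)) (x * y) = 0 := by
  rw [lb A B T h]
  refine sum_eq_zero fun r hr => ?_
  have := mem_antidiagonal.1 hr
  by_cases h1 : p ≤ r.1
  · rw [kill A hx h1, zero_mul, smul_zero]
  · rw [kill B hy (by omega), mul_zero, smul_zero]

theorem top1 (A B T : Module.End ℂ L) (h : ∀ x y, T (x * y) = A x * y + x * B y) {p q : ℕ}
    {x y : L} (hx : (A ^ (p + 1)) x = 0) (hy : (B ^ (q + 1)) y = 0) :
    (T ^ (p + q)) (x * y) = (p + q).choose p • ((A ^ p) x * (B ^ q) y) := by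
  rw [lb A B T h, sum_eq_single (p, q)]
  · intro r hr hne
    have := mem_antidiagonal.1 hr
    by_cases h1 : p + 1 ≤ r.1
    · rw [kill A hx h1, zero_mul, smul_zero]
    · have h2 : q + 1 ≤ r.2 := by
        by_contra h2
        exact hne (Prod.ext (by simp only; omega) (by simp only; omega))
      rw [kill B hy h2, mul_zero, smul_zero]
  · intro hn
    exact absurd (by simp) hn

theorem last (A : Module.End ℂ L) {x : L} (h0 : x ≠ 0) (h : ∃ m, (A ^ m) x = 0) :
    ∃ p, (A ^ p) x ≠ 0 ∧ (A ^ (p + 1)) x = 0 := by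
  classical
  have h1 := Nat.find_spec h
  have h2 : Nat.find h ≠ 0 := by
    intro e
    rw [e] at h1
    exact h0 (by simpa using h1)
  obtain ⟨p, hp⟩ := Nat.exists_eq_succ_of_ne_zero h2
  refine ⟨p, Nat.find_min h (by omega), ?_⟩
  rw [hp] at h1
  exact h1

theorem top2 [IsDomain L] (A B T : Module.End ℂ L) (h : ∀ x y, T (x * y) = A x * y + x * B y)
    {p q : ℕ} {x y : L} (hx : (A ^ (p + 1)) x = 0) (hy : (B ^ (q + 1)) y = 0)
    (hx' : (A ^ p) x ≠ 0) (hy' : (B ^ q) y ≠ 0) : (T ^ (p + q)) (x * y) ≠ 0 := by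
  rw [top1 A B T h hx hy]
  have : CharZero L := charZero_of_injective_algebraMap (algebraMap ℂ L).injective
  rw [nsmul_eq_mul]
  exact mul_ne_zero (Nat.cast_ne_zero.2 (Nat.choose_pos (Nat.le_add_right p q)).ne')
    (mul_ne_zero hx' hy')

/-- the operator `D - μ` -/
noncomputable def sh (D : Derivation ℂ L L) (μ : ℂ) : Module.End ℂ L :=
  (D : L →ₗ[ℂ] L) - μ • (1 : Module.End ℂ L)

theorem sh_apply (D : Derivation ℂ L L) (μ : ℂ) (x : L) : sh D μ x = D x - μ • x := rfl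

theorem sh_mul (D : Derivation ℂ L L) (μ ν : ℂ) (x y : L) :
    sh D (μ + ν) (x * y) = sh D μ x * y + x * sh D ν y := by
  simp only [sh_apply, Derivation.leibniz, smul_eq_mul, Algebra.smul_def, map_add]
  ring

/-- the generalised eigenspace -/
noncomputable abbrev Eg (D : Derivation ℂ L L) (μ : ℂ) : Submodule ℂ L :=
  Module.End.maxGenEigenspace (D : L →ₗ[ℂ] L) μ

theorem mem_eg (D : Derivation ℂ L L) (μ : ℂ) (x : L) :
    x ∈ Eg D μ ↔ ∃ m : ℕ, (sh D μ ^ m) x = 0 := Module.End.mem_maxGenEigenspace _ _ _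

theorem eg_mul (D : Derivation ℂ L L) {μ ν : ℂ} {x y : L} (hx : x ∈ Eg D μ) (hy : y ∈ Eg D ν) :
    x * y ∈ Eg D (μ + ν) := by
  obtain ⟨p, hp⟩ := (mem_eg D μ x).1 hx
  obtain ⟨q, hq⟩ := (mem_eg D ν y).1 hy
  exact (mem_eg D _ _).2 ⟨p + q, top0 _ _ _ (sh_mul D μ ν) hp hq⟩

theorem lf_mem (D : Derivation ℂ L L) {x : L} (h : Lf D x) : x ∈ ⨆ μ, Eg D μ := by
  obtain ⟨V, hV, hx, hD⟩ := h
  have hD' : ∀ v ∈ V, (D : L →ₗ[ℂ] L) v ∈ V := hD
  let f : Module.End ℂ V := (D : L →ₗ[ℂ] L).restrict hD'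
  have h1 : (⟨x, hx⟩ : V) ∈ ⨆ μ, f.maxGenEigenspace μ := by
    rw [Module.End.iSup_maxGenEigenspace_eq_top]; trivial
  have h2 : (⨆ μ, f.maxGenEigenspace μ).map V.subtype ≤ ⨆ μ, Eg D μ := by
    rw [Submodule.map_iSup]
    refine iSup_mono fun μ => ?_
    rintro _ ⟨v, hv, rfl⟩
    obtain ⟨m, hm⟩ := (Module.End.mem_maxGenEigenspace _ _ _).1 hv
    refine (mem_eg D μ _).2 ⟨m, ?_⟩
    have h3 : ∀ (m : ℕ) (v : V), (sh D μ ^ m) (v : L) =
        (((f - μ • (1 : Module.End ℂ V)) ^ m) v : V) := by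
      intro m
      induction m with
      | zero => intro v; rfl
      | succ m ih =>
        intro v
        rw [pow_succ', pow_succ', Module.End.mul_apply, Module.End.mul_apply, ih]
        rfl
    rw [Submodule.subtype_apply, h3, hm]
    rfl
  exact h2 ⟨⟨x, hx⟩, h1, rfl⟩

theorem gen_of [IsDomain L] (D : Derivation ℂ L L) {a b : L} (ha : Lf D a) (hb : Lf D b)
    (h0 : a * b ≠ 0) {c : ℂ} (h : a * b ∈ Eg D c) : ∃ μ, a ∈ Eg D μ := by
  classical
  obtain ⟨f, hf, rfl⟩ := (Submodule.mem_iSup_iff_exists_finsupp _ _).1 (lf_mem D ha)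
  obtain ⟨g, hg, rfl⟩ := (Submodule.mem_iSup_iff_exists_finsupp _ _).1 (lf_mem D hb)
  have key : ∀ μ ∈ f.support, ∀ ν ∈ g.support, UniqueAdd f.support g.support μ ν → μ + ν = c := by
    intro μ hμ ν hν hu
    by_contra hne
    have hi := (Module.End.independent_maxGenEigenspace (D : L →ₗ[ℂ] L)) (μ + ν)
    have e1 : (f.sum fun _ x => x) * (g.sum fun _ x => x) =
        ∑ p ∈ f.support ×ˢ g.support, f p.1 * g p.2 := by
      rw [Finsupp.sum, Finsupp.sum, sum_mul_sum, sum_product]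
    have hm : (μ, ν) ∈ f.support ×ˢ g.support := mem_product.2 ⟨hμ, hν⟩
    have e2 : f μ * g ν = (f.sum fun _ x => x) * (g.sum fun _ x => x) -
        ∑ p ∈ (f.support ×ˢ g.support).erase (μ, ν), f p.1 * g p.2 := by
      rw [e1, ← add_sum_erase _ _ hm]
      ring
    have h1 : f μ * g ν ∈ ⨆ (j : ℂ) (_ : j ≠ μ + ν), Eg D j := by
      rw [e2]
      refine Submodule.sub_mem _ ?_ (Submodule.sum_mem _ fun p hp => ?_)
      · exact Submodule.mem_iSup_of_mem c (Submodule.mem_iSup_of_mem (Ne.symm hne) h)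
      · have hp1 := mem_erase.1 hp
        have hp2 := mem_product.1 hp1.2
        have hn : p.1 + p.2 ≠ μ + ν := fun e =>
          hp1.1 (Prod.ext (hu hp2.1 hp2.2 e).1 (hu hp2.1 hp2.2 e).2)
        exact Submodule.mem_iSup_of_mem (p.1 + p.2)
          (Submodule.mem_iSup_of_mem hn (eg_mul D (hf _) (hg _)))
    have h2 := (Submodule.disjoint_def.1 hi) _ (eg_mul D (hf μ) (hg ν)) h1
    exact mul_ne_zero (Finsupp.mem_support_iff.1 hμ) (Finsupp.mem_support_iff.1 hν) h2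
  have hc : ¬ 1 < f.support.card * g.support.card := by
    intro hc
    obtain ⟨p1, h1, p2, h2, hne, u1, u2⟩ := TwoUniqueSums.uniqueAdd_of_one_lt_card hc
    have m1 := mem_product.1 h1
    have m2 := mem_product.1 h2
    have e := (key _ m2.1 _ m2.2 u2).trans (key _ m1.1 _ m1.2 u1).symm
    exact hne (Prod.ext (u1 m2.1 m2.2 e).1 (u1 m2.1 m2.2 e).2).symm
  have g0 : 0 < g.support.card := by
    refine card_pos.2 (Finsupp.support_nonempty_iff.2 ?_)
    rintro rfl
    exact h0 (by simp)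
  have f1 : f.support.card ≤ 1 := by
    by_contra f1
    exact hc (by nlinarith)
  obtain ⟨μ, hμ⟩ := card_le_one_iff_subset_singleton.1 f1
  refine ⟨μ, Submodule.sum_mem _ fun j hj => ?_⟩
  rw [mem_singleton.1 (hμ hj)]
  exact hf μ

/-- a locally finite factor of an eigenvector is an eigenvector -/
theorem eig [IsDomain L] (D : Derivation ℂ L L) {a b : L} (ha : Lf D a) (hb : Lf D b)
    (h0 : a * b ≠ 0) {c : ℂ} (h : D (a * b) = c • (a * b)) : ∃ e : ℂ, D a = e • a := by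
  have hc : a * b ∈ Eg D c := (mem_eg D c _).2 ⟨1, by rw [pow_one, sh_apply, h, sub_self]⟩
  obtain ⟨μ, hμ⟩ := gen_of D ha hb h0 hc
  obtain ⟨ν, hν⟩ := gen_of D hb ha (by rwa [mul_comm]) (by rwa [mul_comm])
  obtain ⟨p, p0, p1⟩ := last _ (left_ne_zero_of_mul h0) ((mem_eg D μ a).1 hμ)
  obtain ⟨q, q0, q1⟩ := last _ (right_ne_zero_of_mul h0) ((mem_eg D ν b).1 hν)
  have t2 := top2 _ _ _ (sh_mul D μ ν) p1 q1 p0 q0
  have t0 := top0 _ _ _ (sh_mul D μ ν) p1 q1
  have e1 : sh D (μ + ν) (a * b) = (c - (μ + ν)) • (a * b) := by rw [sh_apply, h, sub_smul]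
  have e2 : ∀ n : ℕ, (sh D (μ + ν) ^ n) (a * b) = (c - (μ + ν)) ^ n • (a * b) := by
    intro n
    induction n with
    | zero => simp
    | succ n ih => rw [pow_succ', Module.End.mul_apply, ih, map_smul, e1, smul_smul, pow_succ]
  rw [e2] at t0 t2
  have e3 : c - (μ + ν) = 0 := by
    rcases smul_eq_zero.1 t0 with t | t
    · exact pow_eq_zero_iff (by omega) |>.1 t
    · exact absurd t h0
  have e4 : p + q = 0 := by
    by_contra e4
    exact t2 (by rw [e3, zero_pow e4, zero_smul])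
  have e5 : p = 0 := by omega
  subst e5
  refine ⟨μ, ?_⟩
  rw [zero_add, pow_one, sh_apply] at p1
  exact sub_eq_zero.1 p1

theorem lf_one (D : Derivation ℂ L L) : Lf D 1 :=
  ⟨Submodule.span ℂ {1}, inferInstance, Submodule.mem_span_singleton_self _, fun v hv => by
    obtain ⟨c, rfl⟩ := Submodule.mem_span_singleton.1 hv
    simp⟩

theorem lf_mul (D : Derivation ℂ L L) {a b : L} (ha : Lf D a) (hb : Lf D b) : Lf D (a * b) := by
  obtain ⟨V, hV, a1, a2⟩ := ha
  obtain ⟨W, hW, b1, b2⟩ := hb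
  refine ⟨V * W, ?_, Submodule.mul_mem_mul a1 b1, fun v hv => ?_⟩
  · exact Module.Finite.iff_fg.2
      ((Module.Finite.iff_fg.1 hV).mul (Module.Finite.iff_fg.1 hW))
  · refine Submodule.mul_induction_on hv (fun x hx y hy => ?_) fun x y hx hy => ?_
    · rw [Derivation.leibniz, smul_eq_mul, smul_eq_mul, mul_comm y]
      exact Submodule.add_mem _ (Submodule.mul_mem_mul hx (b2 y hy))
        (Submodule.mul_mem_mul (a2 x hx) hy)
    · rw [map_add]
      exact Submodule.add_mem _ hx hy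

theorem lf_prod {ι : Type} (D : Derivation ℂ L L) (T : Finset ι) (x : ι → L)
    (h : ∀ i ∈ T, Lf D (x i)) : Lf D (∏ i ∈ T, x i) :=
  prod_induction _ _ (fun _ _ => lf_mul D) (lf_one D) h

theorem lf_pow (D : Derivation ℂ L L) {a : L} (ha : Lf D a) (n : ℕ) : Lf D (a ^ n) := by
  induction n with
  | zero => simpa using lf_one D
  | succ n ih => rw [pow_succ]; exact lf_mul D ih ha

/-- every factor of a finite product that is an eigenvector is an eigenvector -/
theorem eig_prod [IsDomain L] {ι : Type} (D : Derivation ℂ L L) (T : Finset ι) (x : ι → L) {g : L}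
    (hg : Lf D g) (h : ∀ i ∈ T, Lf D (x i)) (h0 : g * ∏ i ∈ T, x i ≠ 0) {c : ℂ}
    (hc : D (g * ∏ i ∈ T, x i) = c • (g * ∏ i ∈ T, x i)) :
    ∀ i ∈ T, ∃ e : ℂ, D (x i) = e • x i := by
  classical
  intro i hi
  have e : g * ∏ i ∈ T, x i = x i * (g * ∏ j ∈ T.erase i, x j) := by
    rw [← mul_prod_erase T x hi]; ring
  rw [e] at h0 hc
  exact eig D (h i hi)
    (lf_mul D hg (lf_prod D _ x fun j hj => h j (mem_of_mem_erase hj))) h0 hc

/-- a unit (with locally finite inverse) is an eigenvector -/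
theorem eig_unit [IsDomain L] (D : Derivation ℂ L L) {a b : L} (ha : Lf D a) (hb : Lf D b)
    (h : a * b = 1) : ∃ e : ℂ, D a = e • a :=
  eig D ha hb (by rw [h]; exact one_ne_zero) (c := 0) (by rw [h]; simp)

theorem it (D : Derivation ℂ L L) (m : ℕ) (x : L) :
    (⇑D)^[m] x = (((D : L →ₗ[ℂ] L) : Module.End ℂ L) ^ m) x := by
  rw [Module.End.pow_apply]; rfl

theorem dl (D : Derivation ℂ L L) (x y : L) :
    (D : L →ₗ[ℂ] L) (x * y) = (D : L →ₗ[ℂ] L) x * y + x * (D : L →ₗ[ℂ] L) y := by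
  simp only [Derivation.coeFn_coe, Derivation.leibniz, smul_eq_mul]
  ring

theorem nl_one (D : Derivation ℂ L L) : Nl D 1 := ⟨1, by simp⟩

theorem nl_mul (D : Derivation ℂ L L) {a b : L} (ha : Nl D a) (hb : Nl D b) : Nl D (a * b) := by
  obtain ⟨p, hp⟩ := ha
  obtain ⟨q, hq⟩ := hb
  rw [it] at hp hq
  exact ⟨p + q, by rw [it]; exact top0 _ _ _ (dl D) hp hq⟩

theorem nl_prod {ι : Type} (D : Derivation ℂ L L) (T : Finset ι) (x : ι → L)
    (h : ∀ i ∈ T, Nl D (x i)) : Nl D (∏ i ∈ T, x i) :=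
  prod_induction _ _ (fun _ _ => nl_mul D) (nl_one D) h

theorem nl_last (D : Derivation ℂ L L) {x : L} (h0 : x ≠ 0) (h : Nl D x) :
    ∃ p, (⇑D)^[p] x ≠ 0 ∧ (⇑D)^[p + 1] x = 0 := by
  obtain ⟨m, hm⟩ := h
  rw [it] at hm
  obtain ⟨p, h1, h2⟩ := last _ h0 ⟨m, hm⟩
  exact ⟨p, by rwa [it], by rwa [it]⟩

theorem it_kill (D : Derivation ℂ L L) {x : L} {p i : ℕ} (h : (⇑D)^[p] x = 0) (hi : p ≤ i) :
    (⇑D)^[i] x = 0 := by
  rw [it] at h ⊢
  exact kill _ h hi

/-- the degree is additive -/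
theorem deg_mul [IsDomain L] (D : Derivation ℂ L L) {p q : ℕ} {x y : L} (hx : Nl D x)
    (hy : Nl D y) (hx' : (⇑D)^[p] x ≠ 0) (hy' : (⇑D)^[q] y ≠ 0) :
    (⇑D)^[p + q] (x * y) ≠ 0 := by
  have x0 : x ≠ 0 := by
    rintro rfl
    exact hx' (by rw [it, map_zero])
  have y0 : y ≠ 0 := by
    rintro rfl
    exact hy' (by rw [it, map_zero])
  obtain ⟨p', a1, a2⟩ := nl_last D x0 hx
  obtain ⟨q', b1, b2⟩ := nl_last D y0 hy
  have h1 : p ≤ p' := by
    by_contra h1
    exact hx' (it_kill D a2 (by omega))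
  have h2 : q ≤ q' := by
    by_contra h2
    exact hy' (it_kill D b2 (by omega))
  intro h
  have h3 := it_kill D h (show p + q ≤ p' + q' by omega)
  rw [it] at a1 a2 b1 b2 h3
  exact top2 _ _ _ (dl D) a2 b2 a1 b1 h3

/-- `D w = c * w` forces `c = 0` -/
theorem czero [IsDomain L] (D : Derivation ℂ L L) {c w : L} (hc : Nl D c) (hw : Nl D w)
    (w0 : w ≠ 0) (h : D w = c * w) : c = 0 := by
  by_contra c0
  obtain ⟨p, p0, p1⟩ := nl_last D w0 hw
  have h1 := deg_mul D (p := 0) hc hw (by simpa using c0) p0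
  rw [zero_add, ← h] at h1
  exact h1 (by rw [← Function.iterate_succ_apply]; exact p1)

theorem deg_prod [IsDomain L] {ι : Type} (D : Derivation ℂ L L) (T : Finset ι) (x : ι → L)
    (k : ι → ℕ) (h : ∀ i ∈ T, Nl D (x i)) (hk : ∀ i ∈ T, (⇑D)^[k i] (x i) ≠ 0) :
    (⇑D)^[∑ i ∈ T, k i] (∏ i ∈ T, x i) ≠ 0 := by
  classical
  induction T using Finset.induction_on with
  | empty => simp
  | insert a s ha ih =>
    rw [sum_insert ha, prod_insert ha]
    exact deg_mul D (h a (mem_insert_self _ _))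
      (nl_prod D s x fun i hi => h i (mem_insert_of_mem hi)) (hk a (mem_insert_self _ _))
      (ih (fun i hi => h i (mem_insert_of_mem hi)) fun i hi => hk i (mem_insert_of_mem hi))

open Classical in
/-- if `D ^ M` kills a multiple of a product, it kills the factors and moves fewer than `M` -/
theorem mv [IsDomain L] {ι : Type} (D : Derivation ℂ L L) (T : Finset ι) (x : ι → L) {g w : L}
    (h : ∀ i ∈ T, Nl D (x i)) (hg : Nl D g) (hw : w = g * ∏ i ∈ T, x i) (w0 : w ≠ 0) {M : ℕ}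
    (hM : (⇑D)^[M] w = 0) :
    (∀ i ∈ T, (⇑D)^[M] (x i) = 0) ∧ (T.filter fun i => D (x i) ≠ 0).card < M := by
  subst hw
  have g0 : g ≠ 0 := left_ne_zero_of_mul w0
  have x0 : ∀ i ∈ T, x i ≠ 0 := prod_ne_zero_iff.1 (right_ne_zero_of_mul w0)
  have key : ∀ k : ι → ℕ, (∀ i ∈ T, (⇑D)^[k i] (x i) ≠ 0) → ∑ i ∈ T, k i < M := by
    intro k hk
    have h1 := deg_mul D (p := 0) hg (nl_prod D T x h) (by simpa using g0) (deg_prod D T x k h hk)
    by_contra h2
    exact h1 (it_kill D hM (by omega))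
  refine ⟨fun i hi => ?_, ?_⟩
  · by_contra hn
    have h1 := key (fun j => if j = i then M else 0) fun j hj => by
      by_cases e : j = i
      · simpa [e] using hn
      · simpa [e] using x0 j hj
    rw [sum_ite_eq' T i, if_pos hi] at h1
    exact lt_irrefl _ h1
  · have h1 := key (fun j => if D (x j) ≠ 0 then 1 else 0) fun j hj => by
      by_cases e : D (x j) ≠ 0
      · rw [if_pos e]; simpa using e
      · rw [if_neg e]; simpa using x0 j hj
    rwa [card_filter]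

end Vale.Agent.P283R.Sg.E88
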