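import Vale.Agent.P283R.Sg.St
import Vale.Agent.P283R.Sg.Eig88
import Vale.Agent.P287D.Va.Bas

/-!
# P283R, block SG: the row MODR
-/

open Set

noncomputable section

namespace Vale.Agent.P283R.Sg.M88

open Vale.Agent.P287D Vale.Agent.P283R.Sl

variable {K L : Type} [Field K] [Algebra ℂ K] [LieRing L] [LieAlgebra ℂ L] {k : ℕ}

/-- the homogeneous sections of one degree -/
def hs (T : Set (Pl K)) (D : Pl K → Fin k → ℤ) (m : Fin k → ℤ) : Submodule ℂ (Laurent K k) where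
  carrier := {F | ∃ φ ∈ Sec T D m, F = sg m φ}
  zero_mem' := ⟨0, fun h => absurd rfl h, by simp [sg]⟩
  add_mem' := by
    rintro _ _ ⟨φ, hφ, rfl⟩ ⟨ψ, hψ, rfl⟩
    refine ⟨φ + ψ, fun h P hP => ?_, (AddMonoidAlgebra.single_add _ _ _).symm⟩
    by_cases a : φ = 0
    · rw [a, zero_add] at h ⊢
      exact hψ h P hP
    by_cases b : ψ = 0
    · rw [b, add_zero] at h ⊢
      exact hφ h P hP
    have h1 := P297Z.Pl.min_ord_le_add P.toPlace a b h
    have h2 := hφ a P hP
    have h3 := hψ b P hP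
    rcases min_le_iff.1 h1 with h4 | h4 <;> omega
  smul_mem' := by
    rintro c _ ⟨φ, hφ, rfl⟩
    refine ⟨c • φ, fun h P hP => ?_, by simp [sg]⟩
    rw [P.ord_smul (left_ne_zero_of_smul h)]
    exact hφ (right_ne_zero_of_smul h) P hP

/-- the action by endomorphisms -/
def en (ρ : L →ₗ⁅ℂ⁆ Derivation ℂ (Laurent K k) (Laurent K k)) :
    L →ₗ[ℂ] Module.End ℂ (Laurent K k) where
  toFun δ := (ρ δ).toLinearMap
  map_add' a b := by rw [map_add]; rfl
  map_smul' c a := by rw [map_smul]; rfl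

theorem en_apply (ρ : L →ₗ⁅ℂ⁆ Derivation ℂ (Laurent K k) (Laurent K k)) (δ : L)
    (F : Laurent K k) : en ρ δ F = ρ δ F := rfl

theorem en_lie (ρ : L →ₗ⁅ℂ⁆ Derivation ℂ (Laurent K k) (Laurent K k)) (u v : L) :
    en ρ ⁅u, v⁆ = en ρ u * en ρ v - en ρ v * en ρ u := by
  refine LinearMap.ext fun F => ?_
  rw [en_apply, LieHom.map_lie, Derivation.commutator_apply]
  rfl

theorem nl_pow {Λ : Type} [CommRing Λ] [Algebra ℂ Λ] (δ : Derivation ℂ Λ Λ) {a : Λ}
    (h : E88.Nl δ a) (n : ℕ) : E88.Nl δ (a ^ n) := by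
  induction n with
  | zero => simpa using E88.nl_one δ
  | succ n ih => rw [pow_succ]; exact E88.nl_mul δ ih h

theorem bound {d r : ℕ} (h : r ≤ ga d) :
    r * (d * (r + 1)) * (r + 1) ^ (r * (d * (r + 1))) + (d + 1) ≤ ell d := by
  have h1 : r * (d * (r + 1)) ≤ ga d * (d * (ga d + 1)) :=
    Nat.mul_le_mul h (Nat.mul_le_mul_left _ (by omega))
  have h2 : (r + 1) ^ (r * (d * (r + 1))) ≤ (ga d + 1) ^ (ga d * (d * (ga d + 1))) :=
    (Nat.pow_le_pow_left (by omega) _).trans (Nat.pow_le_pow_right (by omega) h1)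
  have h3 := Nat.mul_le_mul h1 h2
  unfold ell
  omega

end Vale.Agent.P283R.Sg.M88

namespace Vale.Agent.P283R.Sg

open Vale.Agent.P287D Vale.Agent.P283R.Sl M88

theorem modr88 : MODR := by
  classical
  intro res fct _ nil nlp pbw bnd wed K L _ _ _ _ d k T D x e s b ρ hF hS
  obtain ⟨σ, c, -, hf, -⟩ := res K L d k T D x e s b ρ hF hS
  obtain ⟨m, w, hw, w0, hv, hM⟩ := wed K L d k T D x e s b ρ hF hS
  obtain ⟨S0, ν, m', u, hS0, hν, hu, hfac⟩ := (fct K d k T D x e hF).1 m w hw w0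
  have := hS.finite
  have := hS.semisimple
  have hfin : Module.Finite ℂ s := inferInstanceAs (Module.Finite ℂ s.toSubmodule)
  have hr : Module.finrank ℂ s ≤ ga d := by
    refine bnd K s d (σ.comp s.incl) hF.ff ?_
    rw [← LieHom.ker_eq_bot, eq_bot_iff]
    intro δ hδ
    have h1 : σ (δ : L) = 0 := hδ
    exact Subtype.ext (hf _ δ.2 h1)
  have hnil := nil s
  generalize Module.finrank ℂ s = r at hnil hr hM
  obtain ⟨n, a, hn, ha⟩ := hnil
  obtain ⟨M, hMM⟩ : ∃ M, M = d * (r + 1) := ⟨_, rfl⟩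
  rw [← hMM] at hM
  let X : Pl K → Laurent K k := fun P => sg (e P) (x P)
  let n' : Fin r → L := fun i => n i
  have sp : ∀ δ ∈ s, δ ∈ Submodule.span ℂ (range n') := by
    intro δ hδ
    have h1 : (⟨δ, hδ⟩ : s) ∈ Submodule.span ℂ (range n) := by rw [hn]; trivial
    have h2 := Submodule.mem_map_of_mem (f := s.toSubmodule.subtype) h1
    rw [Submodule.map_span, ← range_comp] at h2
    exact h2
  have an : ∀ i, ⁅(a i : L), n' i⁆ = n' i := fun i => congrArg Subtype.val (ha i)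
  have nl : ∀ i m, ∀ φ ∈ Sec T D m, E88.Nl (ρ (n' i)) (sg m φ) := by
    intro i m φ hφ
    obtain ⟨N, h1, h2, h3⟩ := hS.locFinite m φ hφ
    refine ⟨Module.finrank ℂ N, ?_⟩
    rw [E88.it]
    exact nlp _ (en ρ (a i)) (en ρ (n' i)) N h2 (h1 _) (h1 _) (by rw [← en_lie, an]) _ h3
  have xs : ∀ P ∈ T, x P ∈ Sec T D (e P) := by
    intro P hP _ Q hQ
    by_cases h : Q = P
    · rw [h, hF.one P hP]; exact zero_le_one
    · rw [hF.zero P hP Q hQ h]
  have us : u ∈ Sec T D m' := fun _ Q hQ => (hu.2 Q hQ).ge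
  have e1 : sg m w = (sg m' u * ∏ P ∈ S0, X P ^ (ν P - 1)) * ∏ P ∈ S0, X P := by
    rw [hfac, mul_assoc, ← Finset.prod_mul_distrib]
    refine congrArg _ (Finset.prod_congr rfl fun P hP => ?_)
    rw [← pow_succ, Nat.sub_add_cancel (hν P hP)]
  have mv : ∀ i, (∀ P ∈ S0, (⇑(ρ (n' i)))^[M] (X P) = 0) ∧
      (S0.filter fun P => ρ (n' i) (X P) ≠ 0).card < M := by
    intro i
    have h1 : ∀ P ∈ S0, E88.Nl (ρ (n' i)) (X P) :=
      fun P hP => nl i _ _ (xs P ((hS0 P).1 hP).1)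
    have h2 := E88.mv (ρ (n' i)) S0 X h1 (E88.nl_mul _ (nl i _ _ us)
      (E88.nl_prod _ S0 _ fun P hP => nl_pow _ (h1 P hP) _)) e1
      (by simpa [sg] using w0) (hM _ (n i).2 _ (a i).2 (an i))
    refine ⟨h2.1, lt_of_le_of_lt (le_of_eq ?_) h2.2⟩
    exact congrArg Finset.card (Finset.ext fun P => by simp only [Finset.mem_filter])
  let S := S0.filter fun P => ∀ δ ∈ b, Ev (ρ δ) (X P)
  have hSm : ∀ P, P ∈ S ↔ P ∈ T ∧ ∀ δ ∈ b, Ev (ρ δ) (sg (e P) (x P)) := by
    intro P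
    rw [Finset.mem_filter]
    exact ⟨fun h => ⟨((hS0 P).1 h.1).1, h.2⟩,
      fun h => ⟨(hS0 P).2 ⟨h.1, hv P h.1 h.2⟩, h.2⟩⟩
  have ex : ∀ P, ∃ U : Submodule ℂ (Laurent K k), P ∈ S →
      (sg (e P) (x P) ∈ U ∧ Module.Finite ℂ U ∧ Invariant ρ U ∧
        ∀ F ∈ U, ∃ φ ∈ Sec T D (e P), F = sg (e P) φ) ∧
      Module.finrank ℂ U ≤ 1 +
        if ∃ i, ρ (n' i) (X P) ≠ 0 then (r + 1) ^ (r * M) else 0 := by
    intro P
    by_cases hP : P ∈ S
    swap
    · exact ⟨⊥, fun h => absurd h hP⟩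
    have hP0 := (Finset.mem_filter.1 hP).1
    have hP1 := (hSm P).1 hP
    obtain ⟨U, u1, u2, u3, u4, u5, u6⟩ := pbw _ L (en ρ) r M n' (X P) (en_lie ρ)
      (fun i j => sp _ (s.lie_mem (n j).2)) fun i => by
        have h := (mv i).1 P hP0
        rw [E88.it] at h
        exact h
    refine ⟨U, fun _ => ⟨⟨u1, u2, fun δ F hF' => ?_, fun F hF' => ?_⟩, ?_⟩⟩
    · obtain ⟨v, hv', hb⟩ := hS.sum δ
      have h1 : ∀ v ∈ Submodule.span ℂ (range n'), en ρ v F ∈ U := by
        intro v hv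
        induction hv using Submodule.span_induction with
        | mem y hy =>
          obtain ⟨i, rfl⟩ := hy
          exact u4 i F hF'
        | zero => rw [map_zero]; exact U.zero_mem
        | add y z _ _ hy hz => rw [map_add]; exact U.add_mem hy hz
        | smul t y _ hy => rw [map_smul]; exact U.smul_mem t hy
      have h2 : en ρ (δ - v) F ∈ U := by
        refine u6 _ (fun i => sp _ (s.lie_mem (n i).2)) ?_ F hF'
        obtain ⟨t, ht⟩ := hP1.2 _ hb
        rw [en_apply, ht]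
        exact U.smul_mem t u1
      have h3 : ρ δ F = en ρ v F + en ρ (δ - v) F := by
        rw [map_sub, LinearMap.sub_apply, add_sub_cancel, en_apply]
      rw [h3]
      exact U.add_mem (h1 v (sp v hv')) h2
    · refine u5 (hs T D (e P)) ⟨x P, xs P hP1.1, rfl⟩ (fun i G hG => ?_) hF'
      obtain ⟨φ, hφ, rfl⟩ := hG
      obtain ⟨ψ, h1, h2⟩ := hS.graded (n' i) (e P) φ
      exact ⟨ψ, h2 hφ, h1⟩
    · split_ifs with h
      · omega
      · have h1 : U ≤ Submodule.span ℂ {X P} := by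
          refine u5 _ (Submodule.mem_span_singleton_self _) fun i G hG => ?_
          obtain ⟨t, rfl⟩ := Submodule.mem_span_singleton.1 hG
          have h2 : en ρ (n' i) (X P) = 0 := by
            by_contra h2
            exact h ⟨i, h2⟩
          rw [map_smul, h2, smul_zero]
          exact Submodule.zero_mem _
        refine (Submodule.finrank_mono h1).trans ?_
        simpa using finrank_span_le_card (R := ℂ) ({X P} : Set (Laurent K k))
  choose U hU using ex
  refine ⟨S, U, hSm, fun P hP => (hU P hP).1, ?_⟩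
  have c1 : (S.filter fun P => ∃ i, ρ (n' i) (X P) ≠ 0).card ≤ r * M := by
    have h1 : (S.filter fun P => ∃ i, ρ (n' i) (X P) ≠ 0) ⊆
        Finset.univ.biUnion fun i => S0.filter fun P => ρ (n' i) (X P) ≠ 0 := by
      intro P hP
      obtain ⟨h1, i, hi⟩ := Finset.mem_filter.1 hP
      exact Finset.mem_biUnion.2 ⟨i, Finset.mem_univ _,
        Finset.mem_filter.2 ⟨(Finset.mem_filter.1 h1).1, hi⟩⟩
    refine (Finset.card_le_card h1).trans (Finset.card_biUnion_le.trans ?_)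
    refine (Finset.sum_le_sum fun i _ => (mv i).2.le).trans ?_
    simp
  have c2 : ∑ P ∈ S, Module.finrank ℂ (U P) ≤ S.card + r * M * (r + 1) ^ (r * M) := by
    refine (Finset.sum_le_sum fun P hP => (hU P hP).2).trans ?_
    rw [Finset.sum_add_distrib, ← Finset.sum_filter, Finset.sum_const, Finset.sum_const,
      smul_eq_mul, smul_eq_mul, mul_one]
    exact Nat.add_le_add_left (Nat.mul_le_mul_right _ c1) _
  have c3 := bound hr
  rw [← hMM] at c3
  omega

end Vale.Agent.P283R.Sg
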