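import Mathlib

/-! Block SG, row NIL: a semisimple Lie algebra over `ℂ` is spanned by elements `n` with
`⁅a, n⁆ = n`; such elements are nilpotent on every finite dimensional module. -/

namespace P283R.Sg.N63

open LieAlgebra LieModule

theorem comm_pow {A : Type*} [Ring A] (a n : A) (h : a * n - n * a = n) (k : ℕ) :
    a * n ^ k - n ^ k * a = k • n ^ k := by
  induction k with
  | zero => simp
  | succ k ih =>
    have e : a * n ^ (k + 1) - n ^ (k + 1) * a
        = (a * n ^ k - n ^ k * a) * n + n ^ k * (a * n - n * a) := by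
      rw [pow_succ]; noncomm_ring
    rw [e, ih, h, succ_nsmul, pow_succ, smul_mul_assoc]

/-- In a finite dimensional algebra `a n - n a = n` forces `n` to be nilpotent. -/
theorem nil_alg {A : Type*} [Ring A] [Algebra ℂ A] [FiniteDimensional ℂ A] (a n : A)
    (h : a * n - n * a = n) : IsNilpotent n := by
  by_contra hn
  have hne : ∀ k : ℕ, n ^ k ≠ 0 := fun k hk => hn ⟨k, hk⟩
  let T : Module.End ℂ A := LinearMap.mulLeft ℂ a - LinearMap.mulRight ℂ a
  have hli : LinearIndependent ℂ (fun k : ℕ => n ^ k) := by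
    refine Module.End.eigenvectors_linearIndependent' T (fun k : ℕ => (k : ℂ))
      Nat.cast_injective _ fun k => ⟨?_, hne k⟩
    rw [Module.End.mem_eigenspace_iff]
    simp only [T, LinearMap.sub_apply, LinearMap.mulLeft_apply, LinearMap.mulRight_apply]
    rw [comm_pow a n h k, Nat.cast_smul_eq_nsmul]
  exact Module.Finite.not_linearIndependent_of_infinite _ hli

/-- Endomorphism form, with the bound `n ^ dim = 0`. -/
theorem nil_end {M : Type*} [AddCommGroup M] [Module ℂ M] [FiniteDimensional ℂ M]
    (a n : Module.End ℂ M) (h : a * n - n * a = n) : n ^ Module.finrank ℂ M = 0 := by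
  have hn := nil_alg a n h
  have := (LinearMap.isNilpotent_iff_charpoly n).mp hn
  have h2 := LinearMap.aeval_self_charpoly n
  rw [this] at h2
  simpa using h2

/-- Local form: on a finite dimensional subspace stable under `a` and `n`. -/
theorem nil_loc {M : Type*} [AddCommGroup M] [Module ℂ M] (a n : Module.End ℂ M)
    (h : a * n - n * a = n) (W : Submodule ℂ M) [FiniteDimensional ℂ W]
    (ha : ∀ x ∈ W, a x ∈ W) (hn : ∀ x ∈ W, n x ∈ W) {x : M} (hx : x ∈ W) :
    (n ^ Module.finrank ℂ W) x = 0 := by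
  have h1 : a.restrict ha * n.restrict hn - n.restrict hn * a.restrict ha = n.restrict hn := by
    ext y
    have := LinearMap.congr_fun h (y : M)
    simpa using this
  have h2 := nil_end _ _ h1
  have h3 := LinearMap.congr_fun h2 ⟨x, hx⟩
  rw [Module.End.pow_restrict] at h3
  simpa using congrArg Subtype.val h3

/-- Lie module form. -/
theorem nil_mod {L M : Type*} [LieRing L] [LieAlgebra ℂ L] [AddCommGroup M] [Module ℂ M]
    [LieRingModule L M] [LieModule ℂ L M] [FiniteDimensional ℂ M] {a n : L} (h : ⁅a, n⁆ = n) :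
    toEnd ℂ L M n ^ Module.finrank ℂ M = 0 := by
  refine nil_end (toEnd ℂ L M a) _ ?_
  ext x
  have := lie_lie a n x
  rw [h] at this
  simpa using this.symm

theorem nil_ad {L : Type*} [LieRing L] [LieAlgebra ℂ L] [FiniteDimensional ℂ L] {a n : L}
    (h : ⁅a, n⁆ = n) : ad ℂ L n ^ Module.finrank ℂ L = 0 :=
  nil_mod (M := L) h

variable (L : Type*) [LieRing L] [LieAlgebra ℂ L] [FiniteDimensional ℂ L] [IsKilling ℂ L]

/-- The elements `n` with `⁅a, n⁆ = n` span. -/
theorem span_top : Submodule.span ℂ {n : L | ∃ a : L, ⁅a, n⁆ = n} = ⊤ := by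
  obtain ⟨x0, hx0⟩ := exists_isCartanSubalgebra_engel ℂ L
  set H := LieSubalgebra.engel ℂ x0
  set N := Submodule.span ℂ {n : L | ∃ a : L, ⁅a, n⁆ = n}
  have hroot : ∀ α : Weight ℂ H L, α.IsNonZero → ∀ x ∈ rootSpace H α, x ∈ N := by
    intro α hα x hx
    refine Submodule.subset_span ⟨(2 : ℂ)⁻¹ • (IsKilling.coroot α : L), ?_⟩
    have := IsKilling.lie_eq_smul_of_mem_rootSpace hx (IsKilling.coroot α)
    rw [LieSubalgebra.coe_bracket_of_module, IsKilling.root_apply_coroot hα] at this
    rw [smul_lie, this, smul_smul]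
    simp
  have hco : ∀ α : Weight ℂ H L, α.IsNonZero → (IsKilling.coroot α : L) ∈ N := by
    intro α hα
    obtain ⟨h, e, f, t, he, hf⟩ := IsKilling.exists_isSl2Triple_of_weight_isNonZero hα
    rw [← t.h_eq_coroot hα he hf]
    have h1 : f + h - e ∈ N := by
      refine Submodule.subset_span ⟨e - (2 : ℂ)⁻¹ • h, ?_⟩
      have e1 := t.lie_e_f
      have e2 := t.lie_h_e_smul ℂ
      have e3 := t.lie_lie_smul_f ℂ
      have e4 : ⁅e, h⁆ = -((2 : ℂ) • e) := by rw [← e2, lie_skew]
      simp only [sub_lie, lie_sub, lie_add, smul_lie, lie_self, e1, e2, e3, e4]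
      module
    have h2 := hroot α hα e he
    have h3 := hroot (-α) hα.neg f hf
    have : h = (f + h - e) - f + e := by abel
    rw [this]
    exact N.add_mem (N.sub_mem h1 h3) h2
  have hH : ∀ x : H, (x : L) ∈ N := by
    intro x
    have hx : x ∈ Submodule.span ℂ (Set.range (IsKilling.rootSystem H).coroot) := by
      rw [RootPairing.IsRootSystem.span_coroot_eq_top]; trivial
    induction hx using Submodule.span_induction with
    | mem y hy =>
      obtain ⟨α, rfl⟩ := hy
      exact hco α (LieSubalgebra.isNonZero_coe_root α)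
    | zero => simp
    | add y z _ _ hy hz => exact N.add_mem hy hz
    | smul c y _ hy => exact N.smul_mem c hy
  have key := cartan_sup_iSup_rootSpace_eq_top (K := ℂ) (L := L) H
  rw [← LieSubmodule.toSubmodule_inj, LieSubmodule.sup_toSubmodule, LieSubmodule.top_toSubmodule,
    LieSubmodule.iSup_toSubmodule] at key
  rw [eq_top_iff, ← key]
  refine sup_le (fun x hx => hH ⟨x, hx⟩) (iSup_le fun α => ?_)
  rw [LieSubmodule.iSup_toSubmodule]
  exact iSup_le fun hα x hx => hroot α hα x hx

/-- A basis of such elements. -/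
theorem basis : ∃ b : Module.Basis (Fin (Module.finrank ℂ L)) ℂ L,
    ∀ i, ∃ a : L, ⁅a, b i⁆ = b i := by
  obtain ⟨s, hs, hsp, hli⟩ := exists_linearIndependent ℂ {n : L | ∃ a : L, ⁅a, n⁆ = n}
  rw [span_top] at hsp
  let b0 : Module.Basis s ℂ L := Module.Basis.mk hli (by simp [hsp])
  have : Fintype s := FiniteDimensional.fintypeBasisIndex b0
  refine ⟨b0.reindex (Fintype.equivFinOfCardEq (Module.finrank_eq_card_basis b0).symm),
    fun i => ?_⟩
  rw [Module.Basis.reindex_apply, Module.Basis.mk_apply]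
  exact hs (Subtype.property _)

end P283R.Sg.N63
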