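import Vale.Agent.P283R.Sg.St
import Vale.Agent.P283R.Sg.Nil63

/-!
# P283R, block SG: rows NIL and NLP
-/

namespace Vale.Agent.P283R.Sg

theorem nil : NIL := by
  intro s _ _ _ _
  obtain ⟨b, hb⟩ := _root_.P283R.Sg.N63.basis s
  choose a ha using hb
  exact ⟨b, a, b.span_eq, ha⟩

theorem nlp : NLP := by
  intro V _ _ a n N _ ha hn h u hu
  exact _root_.P283R.Sg.N63.nil_loc a n h N ha hn hu

end Vale.Agent.P283R.Sg
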