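import Vale.Agent.P283R.Sg.St
import Vale.Agent.P283R.Sl.Mb

/-!
# P283R, block SG: from the membership to the complements
-/

open CategoryTheory AlgebraicGeometry

namespace Vale.Agent.P283R.Sl

open Var

theorem on_sg_of (h : Sg.MEM) :
    On fun d _ _ f ω B z => FanoType f ω ∧ NefOver f (-logCan ω B) ∧ SphericalCox f d z := by
  intro d hd ε hε R hR
  obtain ⟨n, hn, H⟩ := on_gen' (Sg.ell d) d hd ε hε R hR
  exact ⟨n, hn, fun X Z f ω B z a b c e s t u =>
    H X Z f ω B z a b c e s t ⟨u.1, u.2.1, h d X Z f ω B z hd a b u.2.2⟩⟩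

end Vale.Agent.P283R.Sl
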