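import Mathlib

/-!
# P283R, block SG: words in a family of operators which spans a bracket closed space
-/

open Set Submodule

namespace Vale.Agent.P283R.Sg.P35

variable {k V : Type*} [Field k] [AddCommGroup V] [Module k V] {r M : ℕ}
  (n : Fin r → Module.End k V)

/-- the words which are shorter than `c` -/
def Q (c : ℕ) : Submodule k (Module.End k V) :=
  span k {A | ∃ l : List (Fin r), l.length < c ∧ A = (l.map n).prod}

variable {n}

theorem Q_mul (i : Fin r) {c : ℕ} {A : Module.End k V} (h : A ∈ Q n c) : n i * A ∈ Q n (c + 1) := by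
  induction h using span_induction with
  | mem A h =>
    obtain ⟨l, a, rfl⟩ := h
    exact subset_span ⟨i :: l, by simpa using a, by simp⟩
  | zero => simp
  | add _ _ _ _ a b => rw [mul_add]; exact add_mem a b
  | smul c _ _ a => rw [mul_smul_comm]; exact smul_mem _ c a

theorem perm (h : ∀ i j, n i * n j - n j * n i ∈ span k (range n)) {l l' : List (Fin r)}
    (p : l.Perm l') : (l.map n).prod - (l'.map n).prod ∈ Q n l.length := by
  induction p with
  | nil => simp
  | cons i _ a => simpa [← mul_sub] using Q_mul i a
  | swap i j l =>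
    have : ∀ A ∈ span k (range n), A * (l.map n).prod ∈ Q n (l.length + 2) := fun A hA => by
      induction hA using span_induction with
      | mem A h =>
        obtain ⟨i, rfl⟩ := h
        exact subset_span ⟨i :: l, by simp, by simp⟩
      | zero => simp
      | add _ _ _ _ a b => rw [add_mul]; exact add_mem a b
      | smul c _ _ a => rw [smul_mul_assoc]; exact smul_mem _ c a
    simpa [sub_mul, mul_assoc] using this _ (h j i)
  | trans p _ a b =>
    rw [← p.length_eq] at b
    simpa using add_mem a b

theorem exists_count (l : List (Fin r)) (h : r * M < l.length) : ∃ i, M ≤ l.count i := by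
  by_contra! c
  have := Finset.sum_le_card_nsmul l.toFinset (fun i => l.count i) M fun i _ => (c i).le
  rw [List.sum_toFinset_count_eq_length, smul_eq_mul] at this
  have b := Nat.mul_le_mul_right M (l.toFinset.card_le_univ.trans_eq (Fintype.card_fin r))
  omega

theorem enc (N : ℕ) : ∀ l : List (Fin r), l.length ≤ N →
    ∃ w : Fin N → Option (Fin r), (List.ofFn w).reduceOption = l := by
  induction N with
  | zero => exact fun l h => ⟨Fin.elim0, by simpa [eq_comm] using h⟩
  | succ N ih =>
    rintro (_ | ⟨a, l⟩) h
    · obtain ⟨w, e⟩ := ih [] (Nat.zero_le _)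
      exact ⟨Fin.cons none w, by simpa [List.ofFn_succ] using e⟩
    · obtain ⟨w, e⟩ := ih l (by simpa using h)
      exact ⟨Fin.cons (some a) w, by simpa [List.ofFn_succ] using e⟩

theorem dec {N : ℕ} (w : Fin N → Option (Fin r)) : (List.ofFn w).reduceOption.length ≤ N :=
  (List.reduceOption_length_le _).trans_eq List.length_ofFn

/-- all words are combinations of the short ones -/
theorem short (h : ∀ i j, n i * n j - n j * n i ∈ span k (range n)) {x : V}
    (hx : ∀ i, (n i ^ M) x = 0) (l : List (Fin r)) : (l.map n).prod x ∈
      span k {v | ∃ l : List (Fin r), l.length ≤ r * M ∧ v = (l.map n).prod x} := by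
  classical
  induction e : l.length using Nat.strong_induction_on generalizing l with
  | _ c ih =>
  rcases le_or_gt l.length (r * M) with a | a
  · exact subset_span ⟨l, a, rfl⟩
  obtain ⟨i, hi⟩ := exists_count l a
  have p : l.Perm (l.filter (fun j => !(j == i)) ++ l.filter (· == i)) :=
    ((List.filter_append_perm (· == i) l).symm).trans List.perm_append_comm
  have z : ((l.filter (fun j => !(j == i)) ++ l.filter (· == i)).map n).prod x = 0 := by
    obtain ⟨m, hm⟩ := Nat.exists_eq_add_of_le' hi
    rw [List.filter_beq, hm, List.map_append, List.prod_append, List.map_replicate,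
      List.prod_replicate, pow_add, Module.End.mul_apply, Module.End.mul_apply, hx, map_zero,
      map_zero]
  have t : ∀ A ∈ Q n c, A x ∈
      span k {v | ∃ l : List (Fin r), l.length ≤ r * M ∧ v = (l.map n).prod x} := fun A hA => by
    induction hA using span_induction with
    | mem A h =>
      obtain ⟨l', b, rfl⟩ := h
      exact ih _ b l' rfl
    | zero => simp
    | add _ _ _ _ a b => exact add_mem a b
    | smul c _ _ a => exact smul_mem _ c a
  have := t _ (e ▸ perm h p :)
  rwa [LinearMap.sub_apply, z, sub_zero] at this

/-- **PBW**: the cyclic module has at most `(r + 1) ^ (r M)` generators -/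
theorem pbw (h : ∀ i j, n i * n j - n j * n i ∈ span k (range n)) {x : V}
    (hx : ∀ i, (n i ^ M) x = 0) : ∃ g : (Fin (r * M) → Option (Fin r)) → V, x ∈ range g ∧
      (∀ i, ∀ v ∈ span k (range g), n i v ∈ span k (range g)) ∧
      ∀ w, ∃ l : List (Fin r), g w = (l.map n).prod x := by
  refine ⟨fun w => ((List.ofFn w).reduceOption.map n).prod x, ?_, fun i v hv => ?_,
    fun w => ⟨_, rfl⟩⟩
  · obtain ⟨w, e⟩ := enc (r := r) (r * M) [] (Nat.zero_le _)
    exact ⟨w, by simp [e]⟩
  · induction hv using span_induction with
    | mem v a =>
      obtain ⟨w, rfl⟩ := a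
      refine span_mono ?_ (short h hx (i :: (List.ofFn w).reduceOption))
      rintro _ ⟨l, a, rfl⟩
      obtain ⟨w', e⟩ := enc _ l a
      exact ⟨w', by simp [e]⟩
    | zero => simp
    | add _ _ _ _ a b => rw [map_add]; exact add_mem a b
    | smul c _ _ a => rw [map_smul]; exact smul_mem _ c a

end Vale.Agent.P283R.Sg.P35
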