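import Vale.Agent.P283R.Sg.St
import Vale.Agent.P283R.Sg.Pbw35

/-!
# P283R, block SG: the row PBW
-/

open Set Submodule

namespace Vale.Agent.P283R.Sg

/-- **PBW** -/
theorem pbw : PBW := by
  intro V L _ _ _ _ ρ r M n x hρ hn hx
  have im : ∀ a ∈ span ℂ (range n), ρ a ∈ span ℂ (range fun i => ρ (n i)) := fun a ha => by
    have := Submodule.mem_map_of_mem (f := ρ) ha
    rwa [map_span, ← range_comp] at this
  obtain ⟨g, g0, st, wd⟩ := P35.pbw (n := fun i => ρ (n i)) (fun i j => hρ _ _ ▸ im _ (hn i j)) hx
  have mn : ∀ N : Submodule ℂ V, x ∈ N → (∀ i, ∀ u ∈ N, ρ (n i) u ∈ N) →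
      ∀ l : List (Fin r), (l.map fun i => ρ (n i)).prod x ∈ N := fun N a b l => by
    induction l with
    | nil => simpa using a
    | cons i l ih => simpa using b i _ ih
  have sp : ∀ A ∈ span ℂ (range fun i => ρ (n i)), ∀ u ∈ span ℂ (range g),
      A u ∈ span ℂ (range g) := fun A hA u hu => by
    induction hA using span_induction with
    | mem A h =>
      obtain ⟨i, rfl⟩ := h
      exact st i u hu
    | zero => simp
    | add _ _ _ _ a b => exact add_mem a b
    | smul c _ _ a => exact smul_mem _ c a
  refine ⟨span ℂ (range g), subset_span g0, .span_of_finite ℂ (finite_range g),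
    (finrank_range_le_card g).trans_eq (by simp), st, fun N a b => span_le.2 ?_,
    fun δ a b u hu => ?_⟩
  · rintro _ ⟨w, rfl⟩
    obtain ⟨l, e⟩ := wd w
    exact e ▸ mn N a b l
  have t : ∀ l : List (Fin r), ρ δ ((l.map fun i => ρ (n i)).prod x) ∈ span ℂ (range g) :=
    fun l => by
      induction l with
      | nil => simpa using b
      | cons i l ih =>
        have := add_mem (sp _ (im _ (a i)) _ (mn _ (subset_span g0) st l)) (st i _ ih)
        rw [hρ] at this
        simpa using this
  induction hu using span_induction with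
  | mem v h =>
    obtain ⟨w, rfl⟩ := h
    obtain ⟨l, e⟩ := wd w
    exact e ▸ t l
  | zero => simp
  | add _ _ _ _ a b => rw [map_add]; exact add_mem a b
  | smul c _ _ a => rw [map_smul]; exact smul_mem _ c a

end Vale.Agent.P283R.Sg
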