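import Mathlib

/-! Block SG, algebra of row W: derivative of a determinant, and the Lie derivative of a
multilinear form along a nilpotent element. -/

namespace P283R.Sg.W63

open Matrix

section Det

variable {R F : Type*} [CommRing R] [CommRing F] [Algebra R F]

theorem der_prod {ι : Type*} [DecidableEq ι] (D : Derivation R F F) (s : Finset ι) (f : ι → F) :
    D (∏ i ∈ s, f i) = ∑ i ∈ s, ∏ j ∈ s, Function.update f i (D (f i)) j := by
  induction s using Finset.induction_on with
  | empty => simp
  | insert a s ha ih =>
    rw [Finset.prod_insert ha, Derivation.leibniz, ih, Finset.sum_insert ha,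
      Finset.prod_insert ha, Function.update_self, smul_eq_mul, smul_eq_mul, Finset.mul_sum,
      add_comm]
    congr 1
    · rw [mul_comm]
      congr 1
      refine Finset.prod_congr rfl fun j hj => ?_
      rw [Function.update_of_ne (ne_of_mem_of_not_mem hj ha)]
    · refine Finset.sum_congr rfl fun i hi => ?_
      rw [Finset.prod_insert ha, Function.update_of_ne (ne_of_mem_of_not_mem hi ha).symm]

variable {n : Type*} [Fintype n] [DecidableEq n]

theorem der_det_col (D : Derivation R F F) (A : Matrix n n F) :
    D A.det = ∑ j, (A.updateCol j fun i => D (A i j)).det := by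
  simp only [det_apply', map_sum]
  rw [Finset.sum_comm]
  refine Finset.sum_congr rfl fun σ _ => ?_
  rw [Derivation.leibniz, Derivation.map_intCast, smul_zero, add_zero, der_prod, smul_eq_mul,
    Finset.mul_sum]
  refine Finset.sum_congr rfl fun j _ => ?_
  congr 1
  refine Finset.prod_congr rfl fun i _ => ?_
  by_cases h : i = j
  · subst h; simp
  · simp [Function.update_of_ne h, updateCol_ne h]

theorem der_det (D : Derivation R F F) (A : Matrix n n F) :
    D A.det = ∑ i, (A.updateRow i fun j => D (A i j)).det := by
  rw [← det_transpose, der_det_col]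
  refine Finset.sum_congr rfl fun i _ => ?_
  rw [updateCol_transpose, det_transpose]
  rfl

theorem sum_row (A V : Matrix n n F) :
    ∑ i, (A.updateRow i (V i)).det = (A.adjugate * V).trace := by
  simp only [← cramer_transpose_apply, cramer_eq_adjugate_mulVec, ← adjugate_transpose, trace,
    diag_apply, mul_apply, mulVec, dotProduct, transpose_apply]
  rw [Finset.sum_comm]

/-- If `D A = B + A m` entrywise then `D det A = ∑ det (A, row i := B i) + tr m det A`. -/
theorem jac (D : Derivation R F F) (A B m : Matrix n n F)
    (h : ∀ i j, D (A i j) = B i j + ∑ k, A i k * m k j) :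
    D A.det = ∑ i, (A.updateRow i (B i)).det + m.trace * A.det := by
  have e : ∀ i, (fun j => D (A i j)) = B i + (A * m) i := fun i => by
    funext j; rw [h]; simp [mul_apply]
  rw [der_det]
  simp only [e, det_updateRow_add, Finset.sum_add_distrib]
  rw [sum_row A (A * m), ← Matrix.mul_assoc, adjugate_mul, Matrix.smul_mul, Matrix.one_mul,
    trace_smul, smul_eq_mul, mul_comm]

/-- Concrete form: `xi i`, `D` derivations, `pd k` a frame dual to `y` in which every `xi i`
is written. -/
theorem jac_der (D : Derivation R F F) (xi pd : n → Derivation R F F) (y : n → F)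
    (h : ∀ i j, xi i (D (y j)) = ∑ k, xi i (y k) * pd k (D (y j))) :
    D (Matrix.of fun i j => xi i (y j)).det
      = ∑ i, (Matrix.of fun i1 j => Function.update xi i ⁅D, xi i⁆ i1 (y j)).det
        + (∑ k, pd k (D (y k))) * (Matrix.of fun i j => xi i (y j)).det := by
  rw [jac D _ (Matrix.of fun i j => ⁅D, xi i⁆ (y j)) (Matrix.of fun k j => pd k (D (y j)))]
  · congr 1
    refine Finset.sum_congr rfl fun i _ => ?_
    congr 1
    ext i1 j
    by_cases e : i1 = i
    · subst e; simp
    · simp [updateRow_ne e, Function.update_of_ne e]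
  · intro i j
    simp only [of_apply, Derivation.commutator_apply]
    rw [← h]; ring

end Det

section Lie

variable {k g F ι : Type*} [Field k] [AddCommGroup g] [Module k g] [CommRing F] [Algebra k F]
  [Fintype ι] [DecidableEq ι]

/-- `N` applied in slot `i`. -/
noncomputable def slot (N : Module.End k g) (i : ι) :
    Module.End k (MultilinearMap k (fun _ : ι => g) F) :=
  MultilinearMap.compLinearMapₗ (Function.update (fun _ : ι => LinearMap.id) i N)

omit [Fintype ι] in
theorem slot_apply (N : Module.End k g) (i : ι) (Φ : MultilinearMap k (fun _ : ι => g) F)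
    (x : ι → g) : slot N i Φ x = Φ (Function.update x i (N (x i))) := by
  simp only [slot, MultilinearMap.compLinearMapₗ_apply, MultilinearMap.compLinearMap_apply]
  congr 1
  funext j
  by_cases e : j = i
  · subst e; simp
  · simp [Function.update_of_ne e]

omit [Fintype ι] in
theorem slot_pow (N : Module.End k g) (i : ι) (m : ℕ) (Φ : MultilinearMap k (fun _ : ι => g) F)
    (x : ι → g) : (slot N i ^ m) Φ x = Φ (Function.update x i ((N ^ m) (x i))) := by
  induction m generalizing x with
  | zero => simp
  | succ m ih =>
    rw [pow_succ', Module.End.mul_apply, slot_apply, ih, Function.update_idem,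
      Function.update_self, pow_succ, Module.End.mul_apply]

omit [Fintype ι] in
theorem slot_comm (N : Module.End k g) (i j : ι) :
    Commute (slot (F := F) N i) (slot N j) := by
  by_cases e : i = j
  · subst e; exact Commute.refl _
  ext Φ x
  simp only [Module.End.mul_apply, slot_apply]
  rw [Function.update_of_ne (Ne.symm e), Function.update_of_ne e, Function.update_comm e]

omit [Fintype ι] in
theorem sum_pow {A : Type*} [Ring A] (f : ι → A) (r : ℕ) (hc : ∀ i j, Commute (f i) (f j))
    (hf : ∀ i, f i ^ r = 0) (s : Finset ι) : (∑ i ∈ s, f i) ^ (s.card * r + 1) = 0 := by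
  induction s using Finset.induction_on with
  | empty => simp
  | insert a s ha ih =>
    rw [Finset.sum_insert ha, Finset.card_insert_of_notMem ha]
    refine Commute.add_pow_eq_zero_of_add_le_succ_of_pow_eq_zero
      (Commute.sum_right _ _ _ fun i _ => hc a i) (hf a) ih ?_
    rw [add_mul]; omega

/-- The Lie derivative on multilinear forms. -/
noncomputable def lie (N : Module.End k g) :
    Module.End k (MultilinearMap k (fun _ : ι => g) F) := ∑ i, slot N i

theorem lie_apply (N : Module.End k g) (Φ : MultilinearMap k (fun _ : ι => g) F) (x : ι → g) :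
    lie N Φ x = ∑ i, Φ (Function.update x i (N (x i))) := by
  simp only [lie, LinearMap.sum_apply, _root_.sum_apply, slot_apply]

theorem lie_nil (N : Module.End k g) (r : ℕ) (hN : N ^ r = 0) :
    lie (F := F) (ι := ι) N ^ (Fintype.card ι * r + 1) = 0 := by
  refine sum_pow (fun i : ι => slot (F := F) N i) r (fun i j => slot_comm N i j) (fun i => ?_)
    Finset.univ
  ext Φ x
  rw [slot_pow, hN]
  simp

theorem step (N : Module.End k g) (D : F →ₗ[k] F) (c : F)
    (Φ : MultilinearMap k (fun _ : ι => g) F)
    (h : ∀ x, D (Φ x) = ∑ i, Φ (Function.update x i (N (x i))) + c * Φ x) (m : ℕ) (x : ι → g) :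
    D ((lie N ^ m) Φ x) = (lie N ^ (m + 1)) Φ x + c * (lie N ^ m) Φ x := by
  induction m generalizing x with
  | zero => simpa [lie_apply] using h x
  | succ m ih =>
    rw [pow_succ' _ (m + 1), pow_succ' _ m, Module.End.mul_apply, Module.End.mul_apply,
      lie_apply, lie_apply, map_sum, Finset.mul_sum, ← Finset.sum_add_distrib]
    refine Finset.sum_congr rfl fun i _ => ?_
    rw [ih, pow_succ' _ m, Module.End.mul_apply]

theorem mem_span (N : Module.End k g) (Φ : MultilinearMap k (fun _ : ι => g) F) (m : ℕ)
    (x : ι → g) : (lie N ^ m) Φ x ∈ Submodule.span k (Set.range Φ) := by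
  induction m generalizing x with
  | zero => exact Submodule.subset_span ⟨x, by simp⟩
  | succ m ih =>
    rw [pow_succ', Module.End.mul_apply, lie_apply]
    exact Submodule.sum_mem _ fun i _ => ih _

/-- A nonzero element of the span of the values with `D w = c w`. -/
theorem last (N : Module.End k g) (r : ℕ) (hN : N ^ r = 0) (D : F →ₗ[k] F) (c : F)
    (Φ : MultilinearMap k (fun _ : ι => g) F)
    (h : ∀ x, D (Φ x) = ∑ i, Φ (Function.update x i (N (x i))) + c * Φ x) {x0 : ι → g}
    (h0 : Φ x0 ≠ 0) : ∃ w ∈ Submodule.span k (Set.range Φ), w ≠ 0 ∧ D w = c * w := by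
  classical
  have hex : ∃ m, (lie N ^ m) Φ = 0 := ⟨_, by rw [lie_nil N r hN]; rfl⟩
  have hpos : Nat.find hex ≠ 0 := fun e => by
    have := Nat.find_spec hex
    rw [e] at this
    exact h0 (by simpa using congrArg (fun Ψ : MultilinearMap k (fun _ : ι => g) F => Ψ x0) this)
  obtain ⟨m, hm⟩ := Nat.exists_eq_succ_of_ne_zero hpos
  have h1 : (lie N ^ (m + 1)) Φ = 0 := by
    have := Nat.find_spec hex
    rwa [hm] at this
  have h2 : (lie N ^ m) Φ ≠ 0 := Nat.find_min hex (by omega)
  obtain ⟨x, hx⟩ : ∃ x, (lie N ^ m) Φ x ≠ 0 := by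
    by_contra! hh
    exact h2 (MultilinearMap.ext hh)
  refine ⟨_, mem_span N Φ m x, hx, ?_⟩
  rw [step N D c Φ h, h1]
  simp

/-- With `c = 0` the values are killed by a bounded power of `D`. -/
theorem pow (N : Module.End k g) (r : ℕ) (hN : N ^ r = 0) (D : F →ₗ[k] F)
    (Φ : MultilinearMap k (fun _ : ι => g) F)
    (h : ∀ x, D (Φ x) = ∑ i, Φ (Function.update x i (N (x i)))) (x : ι → g) :
    (D ^ (Fintype.card ι * r + 1)) (Φ x) = 0 := by
  have key : ∀ m, (D ^ m) (Φ x) = (lie N ^ m) Φ x := by
    intro m
    induction m with
    | zero => simp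
    | succ m ih =>
      rw [pow_succ', Module.End.mul_apply, ih, step N D 0 Φ (by simpa using h)]
      simp
  rw [key, lie_nil N r hN]
  simp

end Lie

end P283R.Sg.W63
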