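import Vale.Agent.P283R.Sg.Reg4
import Vale.Agent.P283R.Sg.W63

/-!
# P283R, block SG: row WED
-/

open Set

noncomputable section

namespace Vale.Agent.P283R.Sg.W63

open Vale.Agent.P287D Vale.Agent.P283R.Sl
open _root_.P283R.Sg.W63 hiding jac
open Vale.Agent.P285N.Brep (jac Fr)

section sharp

variable {k g F ι : Type*} [Field k] [AddCommGroup g] [Module k g] [CommRing F] [Algebra k F]
  [Fintype ι] [DecidableEq ι]

omit [Fintype ι] in
theorem sum_pow1 {A : Type*} [Ring A] (f : ι → A) (r : ℕ) (hc : ∀ i j, Commute (f i) (f j))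
    (hf : ∀ i, f i ^ (r + 1) = 0) (s : Finset ι) : (∑ i ∈ s, f i) ^ (s.card * r + 1) = 0 := by
  induction s using Finset.induction_on with
  | empty => simp
  | insert a s ha ih =>
    rw [Finset.sum_insert ha, Finset.card_insert_of_notMem ha]
    refine Commute.add_pow_eq_zero_of_add_le_succ_of_pow_eq_zero
      (Commute.sum_right _ _ _ fun i _ => hc a i) (hf a) ih ?_
    rw [add_mul]; omega

theorem pow1 (N : Module.End k g) (r : ℕ) (hN : N ^ (r + 1) = 0) (D : F →ₗ[k] F)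
    (Φ : MultilinearMap k (fun _ : ι => g) F)
    (h : ∀ x, D (Φ x) = ∑ i, Φ (Function.update x i (N (x i)))) (x : ι → g) :
    (D ^ (Fintype.card ι * r + 1)) (Φ x) = 0 := by
  have key : ∀ m, (D ^ m) (Φ x) = (lie N ^ m) Φ x := by
    intro m
    induction m with
    | zero => simp
    | succ m ih =>
      rw [pow_succ', Module.End.mul_apply, ih, step N D 0 Φ (by simpa using h)]
      simp
  have z : lie (F := F) (ι := ι) N ^ (Fintype.card ι * r + 1) = 0 := by
    refine sum_pow1 (fun i : ι => slot (F := F) N i) r (fun i j => slot_comm N i j)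
      (fun i => ?_) Finset.univ
    ext Φ x
    rw [slot_pow, hN]
    simp
  rw [key, z]
  simp

end sharp

theorem it {Λ : Type} [CommRing Λ] [Algebra ℂ Λ] (δ : Derivation ℂ Λ Λ) (i : ℕ) (x : Λ) :
    δ^[i] x = (δ.toLinearMap ^ i) x := by
  rw [Module.End.pow_apply]; rfl

theorem ln_span {Λ : Type} [CommRing Λ] [Algebra ℂ Λ] (δ : Derivation ℂ Λ Λ) {S : Set Λ}
    (h : ∀ x ∈ S, LN δ x) {x : Λ} (hx : x ∈ Submodule.span ℂ S) : LN δ x := by
  induction hx using Submodule.span_induction with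
  | mem y hy => exact h y hy
  | zero => exact ⟨0, rfl⟩
  | add y z _ _ hy hz =>
    obtain ⟨i, hi⟩ := hy
    obtain ⟨j, hj⟩ := hz
    rw [it] at hi hj
    refine ⟨i + j, ?_⟩
    rw [it, map_add, Module.End.pow_map_zero_of_le (Nat.le_add_right i j) hi,
      Module.End.pow_map_zero_of_le (Nat.le_add_left j i) hj, add_zero]
  | smul c y _ hy =>
    obtain ⟨i, hi⟩ := hy
    rw [it] at hi
    exact ⟨i, by rw [it, map_smul, hi, smul_zero]⟩

variable {K L : Type} [Field K] [Algebra ℂ K] [LieRing L] [LieAlgebra ℂ L] {d k : ℕ}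

/-- `ad n` is nilpotent of bounded order -/
theorem ad_nil (nlp : NLP) [Module.Finite ℂ L] (s : LieIdeal ℂ L) {a n : L}
    (hn : n ∈ s) (h : ⁅a, n⁆ = n) :
    LieAlgebra.ad ℂ L n ^ (Module.finrank ℂ s + 1) = 0 := by
  ext u
  rw [pow_succ, Module.End.mul_apply]
  refine nlp L (LieAlgebra.ad ℂ L a) (LieAlgebra.ad ℂ L n) s.toSubmodule inferInstance
    (fun v hv => s.lie_mem hv) (fun v hv => s.lie_mem hv) ?_ _ (lie_mem_left ℂ L s n u hn)
  ext v
  have := lie_lie a n v
  rw [h] at this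
  simpa using this.symm

/-- local nilpotency on the sections -/
theorem ln_sec (nlp : NLP) {A : (Fin k → ℤ) → Set K} {s : LieIdeal ℂ L} {b : LieSubalgebra ℂ L}
    {ρ : L →ₗ⁅ℂ⁆ Derivation ℂ (Laurent K k) (Laurent K k)} (sa : SphericalAction d A s b ρ)
    {a n : L} (h : ⁅a, n⁆ = n) {m : Fin k → ℤ} {φ : K} (hφ : φ ∈ A m) : LN (ρ n) (sg m φ) := by
  obtain ⟨N, hN, fin, mem⟩ := sa.locFinite m φ hφ
  refine ⟨Module.finrank ℂ N, ?_⟩
  rw [it]
  refine nlp _ (ρ a).toLinearMap (ρ n).toLinearMap N fin (hN a) (hN n) ?_ _ mem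
  refine LinearMap.ext fun v => ?_
  have := congrArg (fun D : Derivation ℂ (Laurent K k) (Laurent K k) => D v) (ρ.map_lie a n)
  simp only [h, Derivation.commutator_apply] at this
  simpa using this.symm

/-- the form `ξ ↦ det (ξ_i y_j) ψ t^m` -/
def form (σ : L →ₗ⁅ℂ⁆ Derivation ℂ K K) (y : Fin d → K) (ψ : K) (m : Fin k → ℤ) :
    MultilinearMap ℂ (fun _ : Fin d => L) (Laurent K k) where
  toFun ξ := sg m (jac (fun i => σ (ξ i)) y * ψ)
  map_update_add' := fun {inst} ξ i u v => by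
    obtain rfl : inst = instDecidableEqFin d := Subsingleton.elim _ _
    rw [← AddMonoidAlgebra.single_add, ← add_mul]
    congr 2
    have e : ∀ w : L, (Matrix.of fun i1 j => σ (Function.update ξ i w i1) (y j)) =
        (Matrix.of fun i1 j => σ (ξ i1) (y j)).updateRow i fun j => σ w (y j) := fun w => by
      ext i1 j
      by_cases e : i1 = i
      · subst e; simp
      · simp [Matrix.updateRow_ne e, Function.update_of_ne e]
    simp only [jac, e]
    rw [← Matrix.det_updateRow_add]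
    congr 2
    funext j
    simp
  map_update_smul' := fun {inst} ξ i c u => by
    obtain rfl : inst = instDecidableEqFin d := Subsingleton.elim _ _
    rw [AddMonoidAlgebra.smul_single, ← smul_mul_assoc]
    congr 2
    have e : ∀ w : L, (Matrix.of fun i1 j => σ (Function.update ξ i w i1) (y j)) =
        (Matrix.of fun i1 j => σ (ξ i1) (y j)).updateRow i fun j => σ w (y j) := fun w => by
      ext i1 j
      by_cases e : i1 = i
      · subst e; simp
      · simp [Matrix.updateRow_ne e, Function.update_of_ne e]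
    simp only [jac, e]
    rw [Algebra.smul_def, ← Matrix.det_updateRow_smul]
    congr 2
    funext j
    simp [Algebra.smul_def]

/-- the third part of WED -/
theorem nilp (dvd : DVD) (nlp : NLP) (pos : 0 < d) {A : (Fin k → ℤ) → Set K} {s : LieIdeal ℂ L}
    {b : LieSubalgebra ℂ L} {ρ : L →ₗ⁅ℂ⁆ Derivation ℂ (Laurent K k) (Laurent K k)}
    (sa : SphericalAction d A s b ρ) (σ : L →ₗ⁅ℂ⁆ Derivation ℂ K K) (y : Fin d → K) (ψ : K)
    (m : Fin k → ℤ) (mem : ∀ ξ : Fin d → L, jac (fun i => σ (ξ i)) y * ψ ∈ A m)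
    {a n : L} (hn : n ∈ s) (h : ⁅a, n⁆ = n) {C : K} (hC : C ∈ A 0)
    (lie : ∀ ξ : Fin d → L, ρ n (sg m (jac (fun i => σ (ξ i)) y * ψ)) =
      ∑ i, sg m (jac (fun j => σ (Function.update ξ i ⁅n, ξ i⁆ j)) y * ψ) +
        sg 0 C * sg m (jac (fun i => σ (ξ i)) y * ψ))
    (ξ : Fin d → L) :
    (ρ n)^[d * (Module.finrank ℂ s + 1)] (sg m (jac (fun i => σ (ξ i)) y * ψ)) = 0 := by
  have := sa.finite
  have hN := ad_nil nlp s hn h
  by_cases h0 : form σ y ψ m ξ = 0
  · have h1 : sg m (jac (fun i => σ (ξ i)) y * ψ) = 0 := h0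
    rw [it, h1, map_zero]
  obtain ⟨w, hw, w0, e⟩ := last (LieAlgebra.ad ℂ L n) _ hN (ρ n).toLinearMap (sg 0 C)
    (form σ y ψ m) lie h0
  have c0 : sg (0 : Fin k → ℤ) C = 0 := (dvd _ (ρ n)).2.2 _ w (ln_sec nlp sa h hC)
    (ln_span _ (by rintro _ ⟨η, rfl⟩; exact ln_sec nlp sa h (mem η)) hw) w0 e
  have z := pow1 (LieAlgebra.ad ℂ L n) _ hN (ρ n).toLinearMap (form σ y ψ m)
    (fun η => by
      have := lie η
      rw [c0, zero_mul, add_zero] at this
      exact this) ξ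
  rw [it]
  refine Module.End.pow_map_zero_of_le ?_ z
  rw [Fintype.card_fin, mul_add]
  omega

end Vale.Agent.P283R.Sg.W63

namespace Vale.Agent.P283R.Sg

open Vale.Agent.P287D

/-- **WEDR** -/
theorem wedr : WEDR := fun res loc fct jc dvd nlp K L _ _ _ _ d k T D x e s b ρ fc sa => by
  obtain ⟨σ, c, rs, -, δ, y, hb, j0⟩ := res K L d k T D x e s b ρ fc sa
  have lo : ∀ P ∈ T, R4.Lo P D σ c := fun P t => loc K L d k T D x e s b ρ fc sa σ c rs P t
  have yi : AlgebraicIndependent ℂ y := P285N.Brep.TbAux.ind _ y j0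
  obtain ⟨E, hy⟩ := Cb.fr_of fc.ff yi
  obtain ⟨m, ψ, ψ0, hψ⟩ := R4.ex_psi fct fc yi
  exact ⟨m, _, R4.mem fc.ff rs lo hψ δ, mul_ne_zero j0 ψ0,
    fun P t ev => R4.van fc rs lo ψ0 hψ t (fun i => ev _ (hb i)) j0,
    fun n hn a _ h => W63.nilp dvd nlp fc.pos sa σ y ψ m (R4.mem fc.ff rs lo hψ) hn h
      (R4.creg jc rs lo hy ψ0 hψ n) (R4.lie jc rs hy ψ0 n) δ⟩

end Vale.Agent.P283R.Sg
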