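import Vale.Agent.P283R.Sg.Asm
import Vale.Agent.P283R.Sg.On
import Vale.Agent.P283R.Sg.Bnd11
import Vale.Agent.P283R.Sg.Cnt40
import Vale.Agent.P283R.Sg.Eig
import Vale.Agent.P283R.Sg.Fct9
import Vale.Agent.P283R.Sg.Gen19
import Vale.Agent.P283R.Sg.Gg27
import Vale.Agent.P283R.Sg.Jac84
import Vale.Agent.P283R.Sg.Lie81
import Vale.Agent.P283R.Sg.Mod88
import Vale.Agent.P283R.Sg.Nl63
import Vale.Agent.P283R.Sg.Pb35
import Vale.Agent.P283R.Sg.Res27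
import Vale.Agent.P283R.Sg.Top20
import Vale.Agent.P283R.Sg.Wed63

/-!
# P283R, block SG: spherical varieties have rings of sections with few generators
-/

namespace Vale.Agent.P283R

theorem Sg.tier : Sg.TIER :=
  Sg.asm Sg.gg27 (Sg.cntr40 Sg.res) (Sg.genr19 Sg.eig Sg.lie Sg.fct)
    (Sg.modr88 Sg.res Sg.fct Sg.dvd19 Sg.nil Sg.nlp Sg.pbw Sg.bnd
      (Sg.wedr Sg.res Sg.loc Sg.fct Sg.jac84 Sg.dvd19 Sg.nlp))

theorem Sg.mem : Sg.MEM := Sg.top Sg.fct Sg.tier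

open Sl.Var in
theorem Sl.on_sg : Sl.On fun d _ _ f ω B z =>
    FanoType f ω ∧ NefOver f (-logCan ω B) ∧ Sl.SphericalCox f d z :=
  Sl.on_sg_of Sg.mem

end Vale.Agent.P283R
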