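import Vale.Agent.P283R.Sg.St2
import Vale.Agent.P283M.Am.Var

/-!
# P283R, block SG: the prime divisors outside of a nonempty open subset
-/

open Set CategoryTheory AlgebraicGeometry

noncomputable section

namespace Vale.Agent.P283R.Sg

theorem O11.fin_out {X : Scheme.{0}} [IsIntegral X] [IsNoetherian X] (W : X.Opens) {x : X}
    (hx : x ∈ W) : {y : X | Order.coheight y = 1 ∧ y ∉ W}.Finite := by
  obtain ⟨S, hS, hc, hi, e⟩ :=
    TopologicalSpace.NoetherianSpace.exists_finite_set_isClosed_irreducible W.2.isClosed_compl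
  have := hS.to_subtype
  refine (finite_range fun t : S => (hi t t.2).genericPoint).subset ?_
  rintro y ⟨h1, h2⟩
  obtain ⟨t, ht, hy⟩ := e.subset h2
  have g := (hi t ht).isGenericPoint_genericPoint (hc t ht)
  refine ⟨⟨t, ht⟩, by_contra fun ne => ?_⟩
  have l : y < (hi t ht).genericPoint :=
    lt_of_le_not_ge (g.specializes hy) fun k => ne ((g.specializes hy).antisymm k).eq
  have a := Order.coheight_strictAnti l
    ((Order.coheight_anti l.le).trans_lt (by rw [h1]; exact ENat.natCast_lt_top 1))
  rw [h1, Order.lt_one_iff, Order.coheight_eq_zero] at a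
  have b : (hi t ht).genericPoint ⤳ x :=
    Specializes.trans (a (genericPoint_specializes _)) (genericPoint_specializes x)
  exact e.superset ⟨t, ht, g.mem⟩ (b.mem_open W.2 hx)

/-- **OUT** -/
theorem out : OUT := fun X W _ hx => by
  have : IsNoetherian X.X := P283M.Am.noeth X.o
  exact ((O11.fin_out W hx).preimage Subtype.val_injective.injOn).subset fun E hE => ⟨E.2, hE⟩

end Vale.Agent.P283R.Sg
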