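import Vale.Agent.P283R.Sg.St2
import Vale.Agent.P283R.Sg.Fct9

/-!
# P283R, block SG: one more generator for a smaller open subset
-/

set_option linter.all false

open Set

noncomputable section

namespace Vale.Agent.P283R.Sg

open Vale.Agent.P287D Vale.Agent.P283R.Sl Vale.Agent.P297Z F9

/-- **SHRR** -/
theorem shrr : SHRR := by
  classical
  intro gg fc K _ _ d k N T T' D x e h sub fin gen
  obtain ⟨R, r1, r2, r3, -⟩ := gg K k T D
  obtain ⟨R', q1, q2, -, q4⟩ := gg K k T' D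
  obtain ⟨s, a, hs⟩ := r3 N gen
  obtain ⟨m₁, ψ, ψ0, hψ⟩ := (fc K d k T D x e h).2 (fun P => if P ∈ T' then 0 else 1)
    (fin.subset fun P p => ⟨p.1, fun z => p.2 (if_pos z)⟩)
  have := q4 (Option (Fin N)) (fun o => o.elim ψ⁻¹ s) (fun o => o.elim (-m₁) a) (le_antisymm
    (Algebra.adjoin_le (forall_mem_range.2 fun o => (q2 _ _).2 ?_)) fun F hF => ?_)
  · simpa using this
  · rcases o with _ | j
    · intro _ P p
      have := hψ P (sub p)
      rw [if_pos p] at this
      simp only [Option.elim, Pl.ord_inv, neg_dotProduct]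
      omega
    · exact fun z P p => (r2 _ _).1 (hs ▸ Algebra.subset_adjoin (mem_range_self j)) z P (sub p)
  rw [← AddMonoidAlgebra.sum_coeff_single F]
  refine sum_mem fun m _ => ?_
  have hφ := (q1 F).1 hF m
  generalize F.coeff m = φ at hφ
  obtain ⟨n, hn⟩ := (fin.image fun P => (-(P.ord φ + m ⬝ᵥ D P)).toNat).bddAbove
  have c : sg (m + (n : ℤ) • m₁) (φ * ψ ^ n) ∈ R := (r2 _ _).2 fun z P p => by
    have b := hψ P p
    rw [Pl.ord_mul _ (left_ne_zero_of_mul z) (pow_ne_zero n ψ0), Pl.ord_pow, add_dotProduct,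
      smul_dotProduct, smul_eq_mul, add_add_add_comm, ← mul_add, b]
    split_ifs with w
    · simpa using hφ (left_ne_zero_of_mul z) P w
    · have := hn (mem_image_of_mem _ ⟨p, w⟩)
      omega
  have e : AddMonoidAlgebra.single m φ = sg (m + (n : ℤ) • m₁) (φ * ψ ^ n) * sg (-m₁) ψ⁻¹ ^ n := by
    rw [AddMonoidAlgebra.single_pow, sg_mul, mul_assoc, ← mul_pow, mul_inv_cancel₀ ψ0, one_pow,
      mul_one, natCast_zsmul, smul_neg, add_neg_cancel_right]
  rw [e]
  refine mul_mem (Algebra.adjoin_mono ?_ (hs ▸ c))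
    (pow_mem (Algebra.subset_adjoin (mem_range.2 ⟨none, rfl⟩)) n)
  rintro _ ⟨j, rfl⟩
  exact ⟨some j, rfl⟩

end Vale.Agent.P283R.Sg
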