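import Vale.Agent.P283R.Sg.St2
import Vale.Agent.P283R.Sg.Top20

/-!
# P283R, block SG: from the tier to the schemes, arbitrary points of the base
-/

open Set CategoryTheory AlgebraicGeometry

noncomputable section

namespace Vale.Agent.P283R.Sg

open Sl Sl.Var T20 in
/-- **TOP2** -/
theorem top2 : TOP2 := by
  intro fct tier shr out d X Z f ω B z V hd a b ct zV ⟨k, N, D, L, _, _, s, bo, ρ, h1, h2, h3⟩
  obtain ⟨n, rfl⟩ : ∃ n, d = n + 1 := ⟨d - 1, by omega⟩
  obtain ⟨_, ⟨U, hU, rfl⟩, zU, le⟩ :=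
    Z.X.isBasis_affineOpens.exists_subset_of_mem_open (show z ∈ (V : Set Z.X) from zV) V.isOpen
  have le' : ∀ x : Pt X.X, x.In (pre f U) → x.In (pre f V) := fun x h => le h
  obtain ⟨x₀, hx₀⟩ := ct.2.2.1.surj z
  replace hx₀ : Pt.In x₀ (pre f U) := show f x₀ ∈ U from hx₀ ▸ zU
  have hK := P283M.Br.ffd X.o _ a
  obtain ⟨j, -, fr⟩ := P283M.Br.frm X.o _ hK ω b
  have f0 := P283R.Br.form_fin hK fr
  choose e x x0 hx using h1
  have fc := fac (X := X.o) (W := pre f V) hK fr x0 hx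
  have es : ∀ W : X.X.Opens, (fun m => sections W (comb D m)) =
      Sec (pls (X := X.o) W) (dvs (X := X.o) D) := fun W =>
    funext fun m => Set.ext fun φ => (sec (X := X.o) D m φ).symm
  obtain ⟨N', hN, g⟩ := tier _ L _ _ _ _ _ _ s bo ρ fc (es _ ▸ h3) N (es _ ▸ h2)
  have g' := shr _ _ _ _ _ (pls (X := X.o) (pre f U)) _ _ _ fc
    (image_mono fun E h => le' E.1 h) (((out X _ x₀ hx₀).image (Gl.pq (X := X.o))).subset (by
      rintro _ ⟨⟨E, -, rfl⟩, c⟩
      exact ⟨E, fun w => c ⟨E, w, rfl⟩, rfl⟩)) g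
  have sp : ∀ (B : X.QDiv) (q : ℕ), (∀ E, ∃ m : ℤ, q * B.coeff E = m) →
      InSpan (pre f U) D fun E => q * logCan ω B E := fun B q hq => by
    choose c hc using hq
    obtain ⟨m, φ, φ0, e⟩ := span fct fc
      (fun E => q * formOrd ω (RingEquiv.refl X.K) E + c E)
      ((f0.union B.support.finite_toSet).subset fun E e => by
        by_contra w
        have w1 : formOrd ω (RingEquiv.refl X.K) E = 0 := not_not.1 fun a => w (.inl a)
        have w2 := hc E
        rw [show B.coeff E = 0 from Finsupp.notMem_support_iff.1 fun a => w (.inr a),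
          mul_zero] at w2
        exact e (by simp only [w1, mul_zero, zero_add]; exact_mod_cast w2.symm))
    refine ⟨m, φ, φ0, fun E w => ?_⟩
    simp only [logCan, mul_add, hc]
    exact_mod_cast e E (le' _ w)
  refine ⟨k, N' + 1, U, D, by omega, hU, zU, es _ ▸ g', sp B, .inr ?_⟩
  simpa using sp 0 1 fun E => ⟨0, by simp [QDiv.coeff]⟩

end Vale.Agent.P283R.Sg
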