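import Vale.Agent.P283R.Sg.All
import Vale.Agent.P283R.Sg.Out11
import Vale.Agent.P283R.Sg.Shr9
import Vale.Agent.P283R.Sg.Topb20

/-!
# P283R, block SG: spherical open subsets
-/

namespace Vale.Agent.P283R

theorem Sg.mem2 : Sg.MEM2 := Sg.top2 Sg.fct Sg.tier (Sg.shrr Sg.gg27 Sg.fct) Sg.out

open Sl.Var in
theorem Sl.on_sg2 : Sl.On fun d _ _ f ω B z => FanoType f ω ∧ NefOver f (-logCan ω B) ∧
    ∃ V, z.In V ∧ Sl.SphericalOpen (Sl.pre f V) d :=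
  Sl.on_sg2_of Sg.mem2

end Vale.Agent.P283R
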