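import Vale.Agent.P283R.Sg.St

/-!
# P283R, block SG: the assembly on the tier
-/

open Set

noncomputable section

namespace Vale.Agent.P283R.Sg

open Vale.Agent.P287D Vale.Agent.P283R.Sl

theorem inv_adjoin {Λ : Type} [CommRing Λ] [Algebra ℂ Λ] (δ : Derivation ℂ Λ Λ) {G : Set Λ}
    (h : ∀ x ∈ G, δ x ∈ Algebra.adjoin ℂ G) {F : Λ} (hF : F ∈ Algebra.adjoin ℂ G) :
    δ F ∈ Algebra.adjoin ℂ G := by
  induction hF using Algebra.adjoin_induction with
  | mem x hx => exact h x hx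
  | algebraMap c => rw [δ.map_algebraMap]; exact zero_mem _
  | add x y _ _ hx hy => rw [map_add]; exact add_mem hx hy
  | mul x y a b hx hy =>
    rw [δ.leibniz, smul_eq_mul, smul_eq_mul]
    exact add_mem (mul_mem a hy) (mul_mem b hx)

theorem fin_adjoin {Λ ι : Type} [CommRing Λ] [Algebra ℂ Λ] (g : ι → Λ) (p : ι → Prop) (V : Set Λ)
    {F : Λ} (hF : F ∈ Algebra.adjoin ℂ (g '' {i | p i} ∪ V)) :
    ∃ J : Finset ι, (∀ i ∈ J, p i) ∧ F ∈ Algebra.adjoin ℂ (g '' J ∪ V) := by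
  classical
  have mo : ∀ J J' : Finset ι, J ⊆ J' →
      Algebra.adjoin ℂ (g '' J ∪ V) ≤ Algebra.adjoin ℂ (g '' J' ∪ V) := fun J J' h =>
    Algebra.adjoin_mono (union_subset_union_left _ (image_mono h))
  induction hF using Algebra.adjoin_induction with
  | mem x hx =>
    rcases hx with ⟨i, hi, rfl⟩ | hx
    · exact ⟨{i}, fun j hj => Finset.mem_singleton.1 hj ▸ hi,
        Algebra.subset_adjoin (.inl ⟨i, Finset.mem_singleton_self i, rfl⟩)⟩
    · exact ⟨∅, fun j hj => (Finset.notMem_empty j hj).elim, Algebra.subset_adjoin (.inr hx)⟩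
  | algebraMap c => exact ⟨∅, fun j hj => (Finset.notMem_empty j hj).elim, algebraMap_mem _ c⟩
  | add x y _ _ hx hy =>
    obtain ⟨J, a, b⟩ := hx
    obtain ⟨J', a', b'⟩ := hy
    exact ⟨J ∪ J', fun i hi => (Finset.mem_union.1 hi).elim (a i) (a' i),
      add_mem (mo _ _ Finset.subset_union_left b) (mo _ _ Finset.subset_union_right b')⟩
  | mul x y _ _ hx hy =>
    obtain ⟨J, a, b⟩ := hx
    obtain ⟨J', a', b'⟩ := hy
    exact ⟨J ∪ J', fun i hi => (Finset.mem_union.1 hi).elim (a i) (a' i),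
      mul_mem (mo _ _ Finset.subset_union_left b) (mo _ _ Finset.subset_union_right b')⟩

theorem asm : ASM := by
  classical
  intro gg cnt gen mod K L _ _ _ _ d k T D x e s b ρ hF hS N hN
  obtain ⟨R, -, r2, r3, r4⟩ := gg K k T D
  obtain ⟨s0, a0, h0⟩ := r3 N hN
  obtain ⟨S, U, hS', hU, hs⟩ := mod K L d k T D x e s b ρ hF hS
  obtain ⟨ue, hg⟩ := gen K L d k T D x e s b ρ hF hS
  let g0 : (Fin k → ℤ) × K → Laurent K k := fun p => sg p.1 p.2
  let V : Set (Laurent K k) := {F | ∃ P ∈ S, F ∈ U P}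
  have all := hg (Algebra.adjoin ℂ (g0 '' {p | Un T D p.1 p.2} ∪ V))
    (fun δ F => inv_adjoin (ρ δ) (by
      rintro _ (⟨p, hp, rfl⟩ | ⟨P, hP, hx⟩)
      · obtain ⟨c, hc⟩ := ue _ _ hp δ
        exact hc ▸ Subalgebra.smul_mem _ (Algebra.subset_adjoin (.inl ⟨p, hp, rfl⟩)) c
      · exact Algebra.subset_adjoin (.inr ⟨P, hP, (hU P hP).2.2.1 δ _ hx⟩)))
    (fun m u h => Algebra.subset_adjoin (.inl ⟨(m, u), h, rfl⟩))
    fun P a h => Algebra.subset_adjoin (.inr ⟨P, (hS' P).2 ⟨a, h⟩, (hU P ((hS' P).2 ⟨a, h⟩)).1⟩)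
  choose J hJ hJ' using fun j => fin_adjoin g0 _ V
    (all (a0 j) (s0 j) ((r2 _ _).1 (h0 ▸ Algebra.subset_adjoin ⟨j, rfl⟩)))
  obtain ⟨r, g, c1, c2, c3⟩ := cnt K L d k T D x e s b ρ hF hS S (Finset.univ.biUnion J)
    (fun P hP => (hS' P).1 hP) ue fun p hp =>
      let ⟨j, _, h⟩ := Finset.mem_biUnion.1 hp; hJ j p h
  have fb : ∀ P : S, ∃ φ : Fin (Module.finrank ℂ (U P)) → K, (∀ i, φ i ∈ Sec T D (e P)) ∧
      ∀ F ∈ U P, F ∈ Submodule.span ℂ (range fun i => sg (e P) (φ i)) := fun P => by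
    obtain ⟨-, fi, -, ho⟩ := hU P P.2
    let β := Module.finBasis ℂ (U P)
    choose φ h1 h2 using fun i => ho _ (β i).2
    refine ⟨φ, h1, fun F hF => ?_⟩
    have := congrArg Subtype.val (β.sum_repr ⟨F, hF⟩)
    simp only [AddSubmonoidClass.coe_finsetSum, SetLike.val_smul] at this
    rw [← this]
    exact sum_mem fun i _ => Submodule.smul_mem _ _ (Submodule.subset_span ⟨i, (h2 i).symm⟩)
  choose φ f1 f2 using fb
  let ι := Fin r ⊕ Σ P : S, Fin (Module.finrank ℂ (U P))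
  let s1 : ι → K := Sum.elim (fun j => (g j).2) fun q => φ q.1 q.2
  let a1 : ι → Fin k → ℤ := Sum.elim (fun j => (g j).1) fun q => e q.1
  refine ⟨_, ?_, r4 ι s1 a1 (le_antisymm (Algebra.adjoin_le ?_) ?_)⟩
  · simp only [ι, Fintype.card_sum, Fintype.card_sigma, Fintype.card_fin]
    rw [Finset.sum_coe_sort S fun P => Module.finrank ℂ (U P)]
    omega
  · rintro _ ⟨j | q, rfl⟩
    · exact (r2 _ _).2 fun _ P hP => ((c2 j).2 P hP).ge
    · exact (r2 _ _).2 (f1 q.1 q.2)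
  · rw [← h0]
    refine Algebra.adjoin_le ?_
    rintro _ ⟨j, rfl⟩
    refine Algebra.adjoin_le (S := Algebra.adjoin ℂ (range fun j => sg (a1 j) (s1 j))) ?_ (hJ' j)
    rintro _ (⟨p, hp, rfl⟩ | ⟨P, hP, hx⟩)
    · refine Algebra.adjoin_mono ?_ (c3 p (Finset.mem_biUnion.2 ⟨j, Finset.mem_univ _, hp⟩))
      rintro _ ⟨i, rfl⟩
      exact ⟨.inl i, rfl⟩
    · refine (Submodule.span_le (p := Subalgebra.toSubmodule
        (Algebra.adjoin ℂ (range fun j => sg (a1 j) (s1 j))))).2 ?_ (f2 ⟨P, hP⟩ _ hx)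
      rintro _ ⟨i, rfl⟩
      exact Algebra.subset_adjoin ⟨.inr ⟨⟨P, hP⟩, i⟩, rfl⟩

end Vale.Agent.P283R.Sg
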