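import Vale.Agent.P283R.Sg.St
import Vale.Agent.P283R.Sg.Cnt35

/-! The row CNTR of the block SG: the number of the eigenvectors and of the units. -/

open Set

noncomputable section

namespace Vale.Agent.P283R.Sg

open Vale.Agent.P287D Vale.Agent.P283R.Sl
open Vale.Agent.P285N.Brep (jac Fr)

namespace C71

variable {K I : Type} [Field K] [Algebra ℂ K] {d k : ℕ}

theorem cst (hK : FF K d) {τ : Fin d → Derivation ℂ K K} {y : Fin d → K} (h : jac τ y ≠ 0)
    {a : K} (ha : ∀ j, τ j a = 0) : ∃ c, algebraMap ℂ K c = a := by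
  classical
  obtain ⟨E, hE⟩ := Cb.fr_of hK (P285N.Brep.TbAux.ind τ y h)
  have h1 : (fun j => E j a) = 0 := Matrix.eq_zero_of_mulVec_eq_zero h (funext fun i => by
    have := Cb.expand (Cb.dr_of (τ i)) (τ i).map_algebraMap hE a
    rw [ha] at this
    simpa [Matrix.mulVec, dotProduct] using this.symm)
  by_cases h2 : IsAlgebraic ℂ a
  · exact minpoly.mem_range_of_degree_eq_one ℂ a
      (IsAlgClosed.degree_eq_one_of_irreducible ℂ (minpoly.irreducible h2.isIntegral))
  · obtain ⟨s, sa, hs⟩ := exists_isTranscendenceBasis_superset (R := ℂ) (s := {a})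
      (algebraicIndependent_unique_type_iff.2 h2)
    obtain ⟨e, he⟩ := P297.H927.exists_derivation_of_basis hs fun _ => 1
    have := Cb.expand (Cb.dr_of e) (Derivation.map_algebraMap _) hE a
    rw [he ⟨a, sa rfl⟩] at this
    simp [fun j => congrFun h1 j] at this

theorem der_prod (τ : Derivation ℂ K K) {φ u : I → K} (h0 : ∀ i, φ i ≠ 0)
    (h : ∀ i, τ (φ i) = u i * φ i) (n : I → ℤ) (s : Finset I) :
    τ (∏ i ∈ s, φ i ^ n i) = (∑ i ∈ s, n i * u i) * ∏ i ∈ s, φ i ^ n i := by
  classical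
  induction s using Finset.induction_on with
  | empty => simp
  | insert a s ha ih =>
    rw [Finset.prod_insert ha, Finset.sum_insert ha, Derivation.leibniz, ih,
      Derivation.leibniz_zpow, h, zpow_sub_one₀ (h0 a)]
    have := h0 a
    simp only [smul_eq_mul, zsmul_eq_mul]
    field_simp
    ring

variable [Fintype I]

/-- Laurent monomials -/
def mo (φ : I → K) (n : I → ℤ) : K := ∏ i, φ i ^ n i

omit [Algebra ℂ K] in
theorem mo_ne {φ : I → K} (h0 : ∀ i, φ i ≠ 0) (n : I → ℤ) : mo φ n ≠ 0 :=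
  Finset.prod_ne_zero_iff.2 fun i _ => zpow_ne_zero _ (h0 i)

omit [Algebra ℂ K] in
theorem mo_add {φ : I → K} (h0 : ∀ i, φ i ≠ 0) (n n' : I → ℤ) :
    mo φ (n + n') = mo φ n * mo φ n' := by
  simp only [mo, Pi.add_apply, zpow_add₀ (h0 _), Finset.prod_mul_distrib]

omit [Algebra ℂ K] in
theorem mo_zero (φ : I → K) : mo φ 0 = 1 := by simp [mo]

omit [Algebra ℂ K] in
theorem mo_smul (φ : I → K) (a : ℤ) (n : I → ℤ) : mo φ (a • n) = mo φ n ^ a := by
  simp only [mo, Pi.smul_apply, smul_eq_mul, ← Finset.prod_zpow, ← zpow_mul, mul_comm]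

omit [Algebra ℂ K] in
theorem mo_sum {φ : I → K} (h0 : ∀ i, φ i ≠ 0) {J : Type} (s : Finset J) (n : J → I → ℤ) :
    mo φ (∑ j ∈ s, n j) = ∏ j ∈ s, mo φ (n j) := by
  classical
  induction s using Finset.induction_on with
  | empty => simp [mo_zero]
  | insert a s ha ih => rw [Finset.sum_insert ha, Finset.prod_insert ha, mo_add h0, ih]

omit [Algebra ℂ K] in
theorem mo_single [DecidableEq I] (φ : I → K) (i : I) : mo φ (Pi.single i 1) = φ i := by
  rw [mo, Finset.prod_eq_single i (fun j _ h => by simp [Pi.single_eq_of_ne h]) (by simp)]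
  simp

/-- a family of eigenvectors -/
structure Eg (τ : Fin d → Derivation ℂ K K) (c : Fin d → (Fin k → ℤ) →+ K) (m : I → Fin k → ℤ)
    (φ : I → K) (la : I → Fin d → ℂ) : Prop where
  ne : ∀ i, φ i ≠ 0
  eig : ∀ i j, τ j (φ i) + c j (m i) * φ i = la i j • φ i

/-- degree and weight -/
def wt (m : I → Fin k → ℤ) (la : I → Fin d → ℂ) :
    (I → ℤ) →ₗ[ℤ] (Fin k → ℤ) × (Fin d → ℂ) :=
  (Fintype.linearCombination ℤ m).prod (Fintype.linearCombination ℤ la)

variable {τ : Fin d → Derivation ℂ K K} {c : Fin d → (Fin k → ℤ) →+ K} {m : I → Fin k → ℤ}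
  {φ : I → K} {la : I → Fin d → ℂ}

theorem wt_fst (n : I → ℤ) : (wt m la n).1 = ∑ i, n i • m i := rfl

theorem wt_snd (n : I → ℤ) : (wt m la n).2 = ∑ i, n i • la i := rfl

theorem Eg.der (h : Eg τ c m φ la) (n : I → ℤ) (h0 : (wt m la n).1 = 0) (j : Fin d) :
    τ j (mo φ n) = (wt m la n).2 j • mo φ n := by
  have h1 := der_prod (τ j) (u := fun i => algebraMap ℂ K (la i j) - c j (m i)) h.ne
    (fun i => by rw [sub_mul, ← Algebra.smul_def, ← h.eig, add_sub_cancel_right]) n Finset.univ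
  have h2 := congrArg (c j) h0
  rw [wt_fst, map_sum, map_zero] at h2
  simp only [map_zsmul] at h2
  simp only [zsmul_eq_mul] at h2
  rw [mo, h1, Algebra.smul_def, wt_snd]
  simp only [mul_sub, Finset.sum_sub_distrib, h2, sub_zero, Finset.sum_apply, Pi.smul_apply,
    map_sum, map_zsmul]
  simp only [zsmul_eq_mul]

theorem Eg.bound (hK : FF K d) (h : Eg τ c m φ la) {J : Type} [Fintype J] (n : J → I → ℤ)
    (ind : LinearIndependent ℤ fun j => wt m la (n j)) : Fintype.card J ≤ k + d := by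
  classical
  let N : (J → ℤ) →ₗ[ℤ] I → ℤ := Fintype.linearCombination ℤ n
  let A : (J → ℤ) →ₗ[ℤ] Fin k → ℤ := LinearMap.fst ℤ _ _ ∘ₗ wt m la ∘ₗ N
  let z := Module.finBasis ℤ (LinearMap.ker A)
  have ai : AlgebraicIndependent ℂ fun l => mo φ (N (z l)) := by
    refine C35.ai τ _ (fun l => mo_ne h.ne _) (fun b l => ⟨_, h.der _ (z l).2 b⟩) fun a ha => ?_
    let w : LinearMap.ker A := ∑ l ∈ a.support, a l • z l
    have e : (a.prod fun l x => mo φ (N (z l)) ^ x) = mo φ (N w) := by
      simp only [w, Submodule.coe_sum, Submodule.coe_smul, map_sum, map_smul, mo_sum h.ne, mo_smul,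
        Finsupp.prod]
    have h1 : wt m la (N w) = 0 := by
      refine Prod.ext w.2 (funext fun b => ?_)
      have := ha b
      rw [e, h.der _ w.2 b, smul_eq_zero] at this
      exact this.resolve_right (mo_ne h.ne _)
    have h2 : (w : J → ℤ) = 0 := funext (Fintype.linearIndependent_iff.1 ind w (by
      simpa only [N, Fintype.linearCombination_apply, map_sum, map_smul] using h1))
    exact linearIndependent_iff.1 z.linearIndependent a (Subtype.ext h2)
  have h1 := (C35.card_le ai (N := d) hK.trdeg.le).2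
  have h2 := Submodule.finrank_quotient_add_finrank (LinearMap.ker A)
  have h3 := (LinearMap.range A).finrank_le
  rw [← A.quotKerEquivRange.finrank_eq] at h3
  simp only [Nat.card_eq_fintype_card, Fintype.card_fin, Module.finrank_fintype_fun_eq_card]
    at h1 h2 h3
  omega

theorem ord_mo (h0 : ∀ i, φ i ≠ 0) (n : I → ℤ) (Q : Pl K) (v : Fin k → ℤ) :
    Q.ord (mo φ n) + (wt m la n).1 ⬝ᵥ v = ∑ i, n i * (Q.ord (φ i) + m i ⬝ᵥ v) := by
  rw [mo, Q.ord_prod _ fun i _ => zpow_ne_zero _ (h0 i)]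
  simp only [wt_fst, sum_dotProduct,
    smul_dotProduct, smul_eq_mul, P297Z.Pl.ord_zpow, mul_add, Finset.sum_add_distrib]

omit [Fintype I] in
theorem coc {L : Type} [LieRing L] [LieAlgebra ℂ L]
    {ρ : L →ₗ⁅ℂ⁆ Derivation ℂ (Laurent K k) (Laurent K k)} {σ : L →ₗ⁅ℂ⁆ Derivation ℂ K K}
    {c : L → (Fin k → ℤ) → K} (r : Res ρ σ c) (δ : L) (a b : Fin k → ℤ) :
    c δ (a + b) = c δ a + c δ b := by
  have h := (ρ δ).leibniz (sg a (1 : K)) (sg b 1)
  rw [AddMonoidAlgebra.single_mul_single, r.app, r.app, r.app, smul_eq_mul, smul_eq_mul,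
    AddMonoidAlgebra.single_mul_single, AddMonoidAlgebra.single_mul_single, add_comm b a,
    ← AddMonoidAlgebra.single_add] at h
  have := AddMonoidAlgebra.single_right_injective h
  simpa [add_comm] using this

end C71

open C71

/-- **CNTR** -/
theorem cntr : CNTR := fun res K L _ _ _ _ d k T D x e s b ρ f a S J hS hU hJ => by
  classical
  obtain ⟨σ, c, r, -, δ, y, hδ, hj⟩ := res K L d k T D x e s b ρ f a
  let m : S ⊕ J → Fin k → ℤ := Sum.elim (fun P => e P) fun p => p.1.1
  let φ : S ⊕ J → K := Sum.elim (fun P => x P) fun p => p.1.2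
  have ev : ∀ i j, Ev (ρ (δ j)) (sg (m i) (φ i)) := by
    rintro (P | p) j
    exacts [(hS P P.2).2 _ (hδ j), hU _ _ (hJ p p.2) _]
  choose la hla using ev
  let cc : Fin d → (Fin k → ℤ) →+ K := fun j => AddMonoidHom.mk' (c (δ j)) (coc r _)
  have eg : Eg (fun j => σ (δ j)) cc m φ la := by
    refine ⟨?_, fun i j => ?_⟩
    · rintro (P | p)
      exacts [f.ne P (hS P P.2).1, (hJ p p.2).1]
    · have := hla i j
      rw [r.app, AddMonoidAlgebra.smul_single] at this
      exact AddMonoidAlgebra.single_right_injective this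
  have cs : ∀ n, wt m la n = 0 → ∃ t, algebraMap ℂ K t = mo φ n := fun n hn =>
    cst f.ff hj fun j => by rw [eg.der n (by rw [hn]; rfl), hn]; simp
  let U : Submodule ℤ (S ⊕ J → ℤ) :=
    { carrier := {n | ∀ P, n (.inl P) = 0}
      add_mem' := fun h1 h2 P => by rw [Pi.add_apply, h1 P, h2 P, add_zero]
      zero_mem' := fun _ => rfl
      smul_mem' := fun t n h1 P => by rw [Pi.smul_apply, h1 P, smul_zero] }
  have un : ∀ n ∈ U, Un T D (wt m la n).1 (mo φ n) := fun n hn =>
    ⟨mo_ne eg.ne n, fun Q hQ => by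
      rw [ord_mo eg.ne]
      refine Finset.sum_eq_zero ?_
      rintro (P | p) -
      · rw [hn P, zero_mul]
      · exact mul_eq_zero_of_right _ ((hJ p p.2).2 Q hQ)⟩
  have dv : ∀ (n) (P : S), P.1.ord (mo φ n) + (wt m la n).1 ⬝ᵥ D P = n (.inl P) := fun n P => by
    rw [ord_mo eg.ne, Finset.sum_eq_single (.inl P) ?_ (by simp)]
    · exact (congrArg _ (f.one P (hS P P.2).1)).trans (mul_one _)
    · rintro (Q | p) - hne
      · exact mul_eq_zero_of_right _ (f.zero Q (hS Q Q.2).1 P (hS P P.2).1 fun h =>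
          hne (congrArg Sum.inl (Subtype.ext h.symm)))
      · exact mul_eq_zero_of_right _ ((hJ p p.2).2 P (hS P P.2).1)
  let Γ := U.map (wt m la)
  let γ := Module.finBasis ℤ Γ
  choose n hnU hn using fun j => Submodule.mem_map.1 (γ j).2
  have bd := eg.bound f.ff (Sum.elim (fun P : S => Pi.single (.inl P) 1) n) (by
    refine Fintype.linearIndependent_iff.2 fun t ht => ?_
    simp only [← map_smul, ← map_sum] at ht
    obtain ⟨u, hu⟩ := cs _ ht
    have h1 : ∀ P, t (.inl P) = 0 := fun P => by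
      have := dv (∑ i, t i • Sum.elim (fun P : S => Pi.single (.inl P) 1) n i) P
      rw [← hu, ht, Pl.ord_const] at this
      have h2 : ∀ j, n j (.inl P) = 0 := fun j => hnU j P
      simpa [Pi.single_apply, h2] using this.symm
    have h2 : ∑ j, t (.inr j) • γ j = 0 := Subtype.ext (by
      rw [Fintype.sum_sum_type] at ht
      simp only [h1, zero_smul, Finset.sum_const_zero, zero_add, Sum.elim_inr, map_sum, map_smul,
        hn] at ht
      simpa only [Submodule.coe_sum, Submodule.coe_smul, Submodule.coe_zero] using ht)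
    rintro (P | j)
    exacts [h1 P, Fintype.linearIndependent_iff.1 γ.linearIndependent _ h2 j])
  let n' : Fin (Module.finrank ℤ Γ + 1) → S ⊕ J → ℤ := Fin.cons (-∑ j, n j) n
  refine ⟨_, fun j => ((wt m la (n' j)).1, mo φ (n' j)), ?_, fun j => un _ ?_, fun p hp => ?_⟩
  · simp only [Fintype.card_sum, Fintype.card_coe, Fintype.card_fin] at bd
    omega
  · refine Fin.cases ?_ (fun j => hnU j) j
    exact U.neg_mem (U.sum_mem fun j _ => hnU j)
  set R := Algebra.adjoin ℂ (range fun j => sg (wt m la (n' j)).1 (mo φ (n' j))) with hR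
  let A : AddSubmonoid (S ⊕ J → ℤ) :=
    { carrier := {w | sg (wt m la w).1 (mo φ w) ∈ R}
      add_mem' := fun {u v} h1 h2 => by
        have := R.mul_mem h1 h2
        rwa [AddMonoidAlgebra.single_mul_single, ← mo_add eg.ne, ← Prod.fst_add, ← map_add] at this
      zero_mem' := by
        change sg _ _ ∈ R
        rw [map_zero, mo_zero]
        exact R.one_mem }
  have a1 : ∀ j, n' j ∈ A := fun j => Algebra.subset_adjoin ⟨j, rfl⟩
  have a2 : ∀ j, n j ∈ A := fun j => a1 j.succ
  have a3 : ∀ j, -n j ∈ A := fun j => by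
    have := A.add_mem (a1 0) (A.sum_mem (t := Finset.univ.erase j) fun i _ => a2 i)
    rwa [show n' 0 = -∑ j, n j from rfl, ← Finset.add_sum_erase _ _ (Finset.mem_univ j), neg_add,
      neg_add_cancel_right] at this
  have a4 : ∀ (t : ℤ) j, t • n j ∈ A := fun t j => by
    obtain ⟨q, rfl | rfl⟩ := t.eq_nat_or_neg
    · rw [natCast_zsmul]; exact A.nsmul_mem (a2 j) q
    · rw [neg_smul, ← smul_neg, natCast_zsmul]; exact A.nsmul_mem (a3 j) q
  let ep : S ⊕ J → ℤ := Pi.single (.inr ⟨p, hp⟩) 1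
  have epU : ep ∈ U := fun P => Pi.single_eq_of_ne (by simp) _
  let g : Γ := ⟨_, Submodule.mem_map_of_mem epU⟩
  have hw : wt m la (ep - ∑ j, γ.repr g j • n j) = 0 := by
    have := congrArg Γ.subtype (γ.sum_repr g)
    simp only [map_sum, map_smul, Submodule.subtype_apply, ← hn] at this
    rw [map_sub, map_sum]
    simp only [map_smul]
    rw [this, sub_self]
  obtain ⟨u, hu⟩ := cs _ hw
  have h1 := R.smul_mem (A.sum_mem (t := Finset.univ) fun j _ => a4 (γ.repr g j) j) u
  rw [map_sub, sub_eq_zero] at hw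
  rw [AddMonoidAlgebra.smul_single, Algebra.smul_def, hu, ← mo_add eg.ne, sub_add_cancel, ← hw,
    mo_single] at h1
  simpa [wt, ep, m, φ] using h1

end Vale.Agent.P283R.Sg
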