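import Mathlib

/-!
# P283R, block SG: degrees of locally finite derivations of a domain
-/

set_option linter.all false

open Finset Module

noncomputable section

namespace Vale.Agent.P283R.Sg.D9

variable {R : Type*} [CommRing R] [Algebra ℂ R]

/-- `a` lies in a finite dimensional stable subspace -/
def Lf (δ : Derivation ℂ R R) (a : R) : Prop :=
  ∃ W : Submodule ℂ R, FiniteDimensional ℂ W ∧ a ∈ W ∧ ∀ x ∈ W, δ x ∈ W

/-- `a` is killed by a power of `δ` -/
def Nl (δ : Derivation ℂ R R) (a : R) : Prop := ∃ n : ℕ, δ^[n] a = 0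

section op

variable {A B C : End ℂ R}

theorem leib (h : ∀ x y, C (x * y) = A x * y + x * B y) (x y : R) (n : ℕ) :
    (C ^ n) (x * y) = ∑ ij ∈ antidiagonal n, n.choose ij.1 • ((A ^ ij.1) x * (B ^ ij.2) y) := by
  induction n with
  | zero => simp
  | succ n ih =>
    rw [pow_succ', End.mul_apply, ih, map_sum,
      sum_antidiagonal_choose_succ_nsmul (fun i j => (A ^ i) x * (B ^ j) y), ← sum_add_distrib]
    refine sum_congr rfl fun ij hij => ?_
    rw [map_nsmul, h, Nat.choose_symm_of_eq_add (mem_antidiagonal.1 hij).symm, pow_succ',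
      pow_succ', End.mul_apply, End.mul_apply, ← nsmul_add, add_comm]

theorem pow_zero_of {x : R} {i j : ℕ} (h : (A ^ i) x = 0) (e : i ≤ j) : (A ^ j) x = 0 := by
  obtain ⟨k, rfl⟩ := Nat.exists_eq_add_of_le' e
  rw [pow_add, End.mul_apply, h, map_zero]

theorem top (h : ∀ x y, C (x * y) = A x * y + x * B y) {x y : R} {i j : ℕ}
    (hx : (A ^ (i + 1)) x = 0) (hy : (B ^ (j + 1)) y = 0) :
    (C ^ (i + j)) (x * y) = (i + j).choose i • ((A ^ i) x * (B ^ j) y) := by
  rw [leib h, sum_eq_single (i, j) (fun p hp ne => ?_) (by simp)]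
  have e := mem_antidiagonal.1 hp
  rcases lt_trichotomy p.1 i with k | k | k
  · rw [pow_zero_of hy (by omega : j + 1 ≤ p.2), mul_zero, smul_zero]
  · exact (ne (Prod.ext k (by omega))).elim
  · rw [pow_zero_of hx k, zero_mul, smul_zero]

theorem nil_mul (h : ∀ x y, C (x * y) = A x * y + x * B y) {x y : R} {i j : ℕ}
    (hx : (A ^ i) x = 0) (hy : (B ^ j) y = 0) : (C ^ (i + j)) (x * y) = 0 := by
  rw [leib h]
  refine sum_eq_zero fun p hp => ?_
  have e := mem_antidiagonal.1 hp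
  rcases le_or_gt i p.1 with k | k
  · rw [pow_zero_of hx k, zero_mul, smul_zero]
  · rw [pow_zero_of hy (by omega : j ≤ p.2), mul_zero, smul_zero]

theorem ex_top {x : R} (x0 : x ≠ 0) (h : ∃ n, (A ^ n) x = 0) :
    ∃ i, (A ^ i) x ≠ 0 ∧ (A ^ (i + 1)) x = 0 := by
  classical
  have k : Nat.find h ≠ 0 := fun e => x0 (by simpa [e] using Nat.find_spec h)
  obtain ⟨i, hi⟩ := Nat.exists_eq_succ_of_ne_zero k
  exact ⟨i, Nat.find_min h (by omega), by simpa [hi] using Nat.find_spec h⟩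

/-- the degree is additive -/
theorem top_ne [IsDomain R] (h : ∀ x y, C (x * y) = A x * y + x * B y) {x y : R} {i j : ℕ}
    (hx : (A ^ i) x ≠ 0 ∧ (A ^ (i + 1)) x = 0) (hy : (B ^ j) y ≠ 0 ∧ (B ^ (j + 1)) y = 0) :
    (C ^ (i + j)) (x * y) ≠ 0 := by
  have : CharZero R := charZero_of_injective_algebraMap (algebraMap ℂ R).injective
  rw [top h hx.2 hy.2, nsmul_eq_mul]
  exact mul_ne_zero (Nat.cast_ne_zero.2 (Nat.choose_pos (Nat.le_add_right i j)).ne')
    (mul_ne_zero hx.1 hy.1)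

end op

variable {δ : Derivation ℂ R R} {a b : R}

theorem sh (δ : Derivation ℂ R R) (l m : ℂ) (x y : R) :
    ((δ : End ℂ R) - (l + m) • (1 : End ℂ R)) (x * y) =
      ((δ : End ℂ R) - l • (1 : End ℂ R)) x * y + x * ((δ : End ℂ R) - m • (1 : End ℂ R)) y := by
  simp only [LinearMap.sub_apply, LinearMap.smul_apply, End.one_apply, Derivation.coeFn_coe,
    Derivation.leibniz, smul_eq_mul]
  simp only [Algebra.smul_def, map_add]
  ring

theorem lz (δ : Derivation ℂ R R) (x y : R) :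
    (δ : End ℂ R) (x * y) = (δ : End ℂ R) x * y + x * (δ : End ℂ R) y := by
  simpa using sh δ 0 0 x y

theorem it (δ : Derivation ℂ R R) (n : ℕ) (x : R) : δ^[n] x = ((δ : End ℂ R) ^ n) x :=
  (End.pow_apply _ n x).symm

theorem Lf.sum (h : Lf δ a) : ∃ f : ℂ →₀ R,
    (∀ l, f l ∈ End.maxGenEigenspace (δ : End ℂ R) l) ∧ (f.sum fun _ x => x) = a := by
  obtain ⟨W, _, a1, a2⟩ := h
  have k : (⟨a, a1⟩ : W) ∈ ⨆ l, End.maxGenEigenspace ((δ : End ℂ R).restrict a2) l := by
    rw [End.iSup_maxGenEigenspace_eq_top]; trivial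
  refine (Submodule.mem_iSup_iff_exists_finsupp _ _).1 ?_
  have := Submodule.mem_map_of_mem (f := W.subtype) k
  rw [Submodule.map_iSup] at this
  refine (iSup_mono fun l => ?_ : _ ≤ ⨆ l, End.maxGenEigenspace (δ : End ℂ R) l) this
  rw [End.maxGenEigenspace, End.genEigenspace_restrict]
  exact Submodule.map_comap_le _ _

theorem gen_mul {l m : ℂ} (ha : a ∈ End.maxGenEigenspace (δ : End ℂ R) l)
    (hb : b ∈ End.maxGenEigenspace (δ : End ℂ R) m) :
    a * b ∈ End.maxGenEigenspace (δ : End ℂ R) (l + m) :=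
  let ⟨_, x⟩ := (End.mem_maxGenEigenspace _ _ _).1 ha
  let ⟨_, y⟩ := (End.mem_maxGenEigenspace _ _ _).1 hb
  (End.mem_maxGenEigenspace _ _ _).2 ⟨_, nil_mul (sh δ l m) x y⟩

variable [IsDomain R]

/-- **EIG**: the factors of an eigenvector are eigenvectors -/
theorem eig (ha : Lf δ a) (hb : Lf δ b) (h0 : a * b ≠ 0) {c : ℂ} (h : δ (a * b) = c • (a * b)) :
    ∃ c' : ℂ, δ a = c' • a := by
  classical
  obtain ⟨f, f1, rfl⟩ := ha.sum
  obtain ⟨g, g1, rfl⟩ := hb.sum
  have e1 : (((δ : End ℂ R) - c • (1 : End ℂ R)) ^ 1)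
      ((f.sum fun _ x => x) * g.sum fun _ x => x) = 0 := by
    rw [pow_one, LinearMap.sub_apply, LinearMap.smul_apply, End.one_apply, Derivation.coeFn_coe, h,
      sub_self]
  have u : ∀ p ∈ f.support ×ˢ g.support, UniqueAdd f.support g.support p.1 p.2 → p.1 + p.2 = c :=
    fun p hp q => by_contra fun ne => by
      have e : f p.1 * g p.2 = (f.sum fun _ x => x) * (g.sum fun _ x => x) -
          ∑ r ∈ (f.support ×ˢ g.support).erase p, f r.1 * g r.2 := by
        rw [Finsupp.sum, Finsupp.sum, sum_mul_sum, ← sum_product', ← add_sum_erase _ _ hp,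
          add_sub_cancel_right]
      refine mul_ne_zero (Finsupp.mem_support_iff.1 (mem_product.1 hp).1)
        (Finsupp.mem_support_iff.1 (mem_product.1 hp).2) (Submodule.disjoint_def.1
          (End.independent_maxGenEigenspace (δ : End ℂ R) (p.1 + p.2)) _ (gen_mul (f1 _) (g1 _)) ?_)
      rw [e]
      refine sub_mem (Submodule.mem_iSup_of_mem c (Submodule.mem_iSup_of_mem (Ne.symm ne)
        ((End.mem_maxGenEigenspace _ _ _).2 ⟨1, e1⟩))) (sum_mem fun r hr => ?_)
      obtain ⟨r1, r2⟩ := mem_erase.1 hr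
      exact Submodule.mem_iSup_of_mem (r.1 + r.2) (Submodule.mem_iSup_of_mem (fun z => r1
        (Prod.ext (q (mem_product.1 r2).1 (mem_product.1 r2).2 z).1
          (q (mem_product.1 r2).1 (mem_product.1 r2).2 z).2)) (gen_mul (f1 _) (g1 _)))
  have c1 : f.support.card * g.support.card ≤ 1 := not_lt.1 fun k => by
    obtain ⟨p, hp, q, hq, ne, up, uq⟩ := TwoUniqueSums.uniqueAdd_of_one_lt_card k
    have := up (mem_product.1 hq).1 (mem_product.1 hq).2 ((u q hq uq).trans (u p hp up).symm)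
    exact ne (Prod.ext this.1.symm this.2.symm)
  have nf : f.support.card ≠ 0 := fun z => h0 (by
    rw [Finsupp.support_eq_empty.1 (card_eq_zero.1 z)]; simp)
  have ng : g.support.card ≠ 0 := fun z => h0 (by
    rw [Finsupp.support_eq_empty.1 (card_eq_zero.1 z)]; simp)
  obtain ⟨l, hl⟩ := card_eq_one.1 (show f.support.card = 1 by
    have := Nat.le_mul_of_pos_right f.support.card (Nat.pos_of_ne_zero ng)
    omega)
  obtain ⟨m, hm⟩ := card_eq_one.1 (show g.support.card = 1 by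
    have := Nat.le_mul_of_pos_left g.support.card (Nat.pos_of_ne_zero nf)
    omega)
  have lm : l + m = c := u (l, m) (by simp [hl, hm]) (by
    rw [hl, hm]
    exact fun _ _ p q _ => ⟨mem_singleton.1 p, mem_singleton.1 q⟩)
  simp only [Finsupp.sum, hl, hm, sum_singleton] at h0 e1 ⊢
  obtain ⟨i, hi⟩ := ex_top (left_ne_zero_of_mul h0) ((End.mem_maxGenEigenspace _ _ _).1 (f1 l))
  obtain ⟨j, hj⟩ := ex_top (right_ne_zero_of_mul h0) ((End.mem_maxGenEigenspace _ _ _).1 (g1 m))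
  have k := top_ne (sh δ l m) hi hj
  rw [lm] at k
  obtain rfl : i = 0 := by_contra fun z => k (pow_zero_of e1 (by omega))
  exact ⟨l, by simpa [sub_eq_zero] using hi.2⟩

/-- a locally nilpotent derivation has no nonzero cofactor -/
theorem kill {w c : R} (hw : Nl δ w) (hc : Nl δ c) (w0 : w ≠ 0) (h : δ w = c * w) : c = 0 := by
  by_contra c0
  simp only [Nl, it] at hw hc
  obtain ⟨i, hi⟩ := ex_top c0 hc
  obtain ⟨j, hj⟩ := ex_top w0 hw
  refine top_ne (lz δ) hi hj ?_
  rw [← h, ← Derivation.coeFn_coe, ← End.mul_apply, ← pow_succ]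
  exact pow_zero_of hj.2 (by omega)

theorem Nl.mul (ha : Nl δ a) (hb : Nl δ b) : Nl δ (a * b) := by
  simp only [Nl, it] at ha hb ⊢
  exact ⟨_, nil_mul (lz δ) ha.choose_spec hb.choose_spec⟩

theorem prod_top {ι : Type*} (T : Finset ι) {x : ι → R} {z : R} {n : ι → ℕ} {j : ℕ}
    (hx : ∀ P ∈ T, ((δ : End ℂ R) ^ n P) (x P) ≠ 0 ∧ ((δ : End ℂ R) ^ (n P + 1)) (x P) = 0)
    (hz : ((δ : End ℂ R) ^ j) z ≠ 0 ∧ ((δ : End ℂ R) ^ (j + 1)) z = 0) :
    ((δ : End ℂ R) ^ (∑ P ∈ T, n P + j)) ((∏ P ∈ T, x P) * z) ≠ 0 ∧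
      ((δ : End ℂ R) ^ (∑ P ∈ T, n P + j + 1)) ((∏ P ∈ T, x P) * z) = 0 := by
  classical
  induction T using Finset.induction_on with
  | empty => simpa using hz
  | insert P T hP ih =>
    have k := ih fun Q q => hx Q (mem_insert_of_mem q)
    have p := hx P (mem_insert_self _ _)
    rw [sum_insert hP, prod_insert hP, mul_assoc, add_assoc]
    refine ⟨top_ne (lz δ) p k, ?_⟩
    rw [pow_succ', End.mul_apply, top (lz δ) p.2 k.2, map_nsmul, lz, ← End.mul_apply,
      ← End.mul_apply, ← pow_succ', ← pow_succ', p.2, k.2, zero_mul, mul_zero, add_zero, smul_zero]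

/-- **DEG**: the factors of an element of small degree -/
theorem prod {ι : Type*} (T : Finset ι) (x : ι → R) (z : R) (hx : ∀ P ∈ T, Nl δ (x P))
    (hz : Nl δ z) (h0 : z * ∏ P ∈ T, x P ≠ 0) {M : ℕ} (h : δ^[M] (z * ∏ P ∈ T, x P) = 0)
    [DecidablePred fun P => δ (x P) ≠ 0] :
    (∀ P ∈ T, δ^[M] (x P) = 0) ∧ (T.filter fun P => δ (x P) ≠ 0).card < M := by
  simp only [Nl, it] at hx hz h ⊢
  choose! n hn using fun P (p : P ∈ T) =>
    ex_top (prod_ne_zero_iff.1 (right_ne_zero_of_mul h0) P p) (hx P p)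
  obtain ⟨j, hj⟩ := ex_top (left_ne_zero_of_mul h0) hz
  have k : ∑ P ∈ T, n P + j < M := not_le.1 fun e =>
    (prod_top T hn hj).1 (pow_zero_of (mul_comm z _ ▸ h) e)
  refine ⟨fun P p => pow_zero_of (hn P p).2 ?_, ?_⟩
  · have := single_le_sum (f := n) (fun _ _ => Nat.zero_le _) p
    omega
  · have : (T.filter fun P => δ (x P) ≠ 0).card ≤ ∑ P ∈ T, n P := by
      rw [card_filter]
      refine sum_le_sum fun P p => ?_
      split_ifs with e
      · exact Nat.pos_of_ne_zero fun z => e (by simpa [z] using (hn P p).2)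
      · exact Nat.zero_le _
    omega

end Vale.Agent.P283R.Sg.D9
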