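import Vale.Agent.P283R.Sg.St
import Vale.Agent.P283R.Sg.Eig88

/-!
# P283R, block SG: the rows DVD, DEG, EIG
-/

namespace Vale.Agent.P283R.Sg

theorem dvd : DVD := by
  classical
  intro Λ _ _ _ δ
  refine ⟨fun x y M hx hy h0 hM => ?_, fun ι S x y M hx hy h0 hM hm => ?_,
    fun c w hc hw w0 h => E88.czero δ hc hw w0 h⟩
  · by_contra hn
    have h1 := E88.deg_mul δ (q := 0) hx hy hn (by simpa using right_ne_zero_of_mul h0)
    exact h1 (by simpa using hM)
  · have h1 := (E88.mv δ S x hx hy (mul_comm _ _) h0 hM).2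
    rw [Finset.filter_true_of_mem hm] at h1
    exact h1.le

theorem dvdr : DVDR := fun _ => dvd

theorem eig88 : EIG := fun _ _ _ _ δ _ _ hx hy h0 ⟨_, h⟩ => E88.eig δ hx hy h0 h

theorem deg88 : DEG := fun _ _ _ _ δ a b _ _ i j x0 x1 y0 y1 =>
  ⟨E88.top2 _ _ _ (E88.sh_mul δ a b) x1 y1 x0 y0,
    E88.kill _ (p := i + j + 1) (by
      have h := E88.top1 _ _ _ (E88.sh_mul δ a b) (p := i + 1) (q := j)
        (E88.kill _ x1 (Nat.le_succ _)) y1
      rw [show i + 1 + j = i + j + 1 by omega] at h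
      have x2 : (E88.sh δ a ^ (i + 1)) _ = 0 := x1
      rw [x2, zero_mul, smul_zero] at h
      exact h) le_rfl⟩

end Vale.Agent.P283R.Sg
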