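import Mathlib.Algebra.Lie.LieTheorem
import Mathlib.Analysis.Complex.Polynomial.Basic

/-!
# P283R, block SG: eigenvectors of a solvable subalgebra generate
-/

namespace Vale.Agent.P283R.Sg.H81

variable {g V : Type*} [LieRing g] [LieAlgebra ℂ g] [AddCommGroup V] [Module ℂ V]
  [LieRingModule g V] [LieModule ℂ g V]

/-- Lie's theorem: a nonzero finite dimensional submodule contains an eigenvector -/
theorem lie (b : LieSubalgebra ℂ g) [LieAlgebra.IsSolvable b] (W : LieSubmodule ℂ g V)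
    [Module.Finite ℂ W] (h : W ≠ ⊥) :
    ∃ v ∈ W, v ≠ 0 ∧ ∀ a ∈ b, ∃ c : ℂ, ⁅a, v⁆ = c • v := by
  have : Nontrivial W := (LieSubmodule.nontrivial_iff_ne_bot ℂ g V).2 h
  obtain ⟨χ, hχ⟩ := LieModule.exists_nontrivial_weightSpace_of_isSolvable ℂ b W
  obtain ⟨⟨v, hv⟩, h0⟩ := exists_ne (0 : LieModule.weightSpace W χ)
  refine ⟨v, v.2, fun e => h0 (Subtype.ext (Subtype.ext e)), fun a ha => ⟨χ ⟨a, ha⟩, ?_⟩⟩
  have := (LieModule.mem_weightSpace χ v).1 hv ⟨a, ha⟩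
  exact congrArg Subtype.val this

theorem hwv (b : LieSubalgebra ℂ g) [LieAlgebra.IsSolvable b] (U U' : LieSubmodule ℂ g V)
    (hd : Disjoint U U') (lf : ∀ x, ∃ W : LieSubmodule ℂ g V, x ∈ W ∧ Module.Finite ℂ W)
    (h : ∀ v ∈ U', (∀ a ∈ b, ∃ c : ℂ, ⁅a, v⁆ = c • v) → v ∈ U) : U' = ⊥ := by
  by_contra hne
  obtain ⟨x, hx, x0⟩ : ∃ x ∈ U', x ≠ 0 := by
    by_contra hc
    exact hne ((LieSubmodule.eq_bot_iff _).2 fun m hm => by
      by_contra h0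
      exact hc ⟨m, hm, h0⟩)
  obtain ⟨W, hW, fW⟩ := lf x
  have : Module.Finite ℂ (W ⊓ U' : LieSubmodule ℂ g V) :=
    Module.Finite.of_injective (LieSubmodule.inclusion (inf_le_left : W ⊓ U' ≤ W)).toLinearMap
      (LieSubmodule.inclusion_injective _)
  obtain ⟨v, hv, v0, e⟩ := lie b (W ⊓ U') fun e =>
    x0 ((LieSubmodule.eq_bot_iff _).1 e x ⟨hW, hx⟩)
  have : v ∈ U ⊓ U' := ⟨h v hv.2 e, hv.2⟩
  rw [hd.eq_bot] at this
  exact v0 ((LieSubmodule.mem_bot v).1 this)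

theorem top_of (b : LieSubalgebra ℂ g) [LieAlgebra.IsSolvable b]
    [ComplementedLattice (LieSubmodule ℂ g V)] (U : LieSubmodule ℂ g V)
    (lf : ∀ x, ∃ W : LieSubmodule ℂ g V, x ∈ W ∧ Module.Finite ℂ W)
    (h : ∀ v, (∀ a ∈ b, ∃ c : ℂ, ⁅a, v⁆ = c • v) → v ∈ U) : U = ⊤ := by
  obtain ⟨U', hc⟩ := exists_isCompl U
  have := hwv b U U' hc.disjoint lf fun v _ => h v
  rw [this] at hc
  simpa using hc.codisjoint.eq_top

/-- relative form: inside a submodule `A` in which `U ⊓ A` has a complement -/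
theorem le_of (b : LieSubalgebra ℂ g) [LieAlgebra.IsSolvable b] (A U : LieSubmodule ℂ g V)
    (cr : ∀ N ≤ A, ∃ N' ≤ A, Disjoint N N' ∧ A ≤ N ⊔ N')
    (lf : ∀ x ∈ A, ∃ W : LieSubmodule ℂ g V, x ∈ W ∧ Module.Finite ℂ W)
    (h : ∀ v ∈ A, v ≠ 0 → (∀ a ∈ b, ∃ c : ℂ, ⁅a, v⁆ = c • v) → v ∈ U) : A ≤ U := by
  obtain ⟨N', hA, hd, hs⟩ := cr (U ⊓ A) inf_le_right
  have hb : N' = ⊥ := by
    by_contra hne
    obtain ⟨x, hx, x0⟩ : ∃ x ∈ N', x ≠ 0 := by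
      by_contra hc
      exact hne ((LieSubmodule.eq_bot_iff _).2 fun m hm => by
        by_contra h0
        exact hc ⟨m, hm, h0⟩)
    obtain ⟨W, hW, fW⟩ := lf x (hA hx)
    have : Module.Finite ℂ (W ⊓ N' : LieSubmodule ℂ g V) :=
      Module.Finite.of_injective (LieSubmodule.inclusion (inf_le_left : W ⊓ N' ≤ W)).toLinearMap
        (LieSubmodule.inclusion_injective _)
    obtain ⟨v, hv, v0, e⟩ := lie b (W ⊓ N') fun e =>
      x0 ((LieSubmodule.eq_bot_iff _).1 e x ⟨hW, hx⟩)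
    have : v ∈ (U ⊓ A) ⊓ N' := ⟨⟨h v (hA hv.2) v0 e, hA hv.2⟩, hv.2⟩
    rw [hd.eq_bot] at this
    exact v0 ((LieSubmodule.mem_bot v).1 this)
  rw [hb, sup_bot_eq] at hs
  exact hs.trans inf_le_left

end Vale.Agent.P283R.Sg.H81
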