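import Vale.Agent.P283R.Sg.St

/-!
# P283R, block SG: the action is regular at the prime divisors
-/

open Set

noncomputable section

namespace Vale.Agent.P283R.Sg

open Vale.Agent.P287D Vale.Agent.P283R.Sl

namespace L39

variable {K : Type} [Field K] [Algebra ℂ K] {k : ℕ} {T : Set (Pl K)} {D : Pl K → Fin k → ℤ}
  {m m' : Fin k → ℤ} {φ ψ : K}

theorem sec_mul (h : φ ∈ Sec T D m) (h' : ψ ∈ Sec T D m') : φ * ψ ∈ Sec T D (m + m') :=
  fun n P hP => by
    have a := h (left_ne_zero_of_mul n) P hP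
    have b := h' (right_ne_zero_of_mul n) P hP
    rw [P297Z.Pl.ord_mul _ (left_ne_zero_of_mul n) (right_ne_zero_of_mul n), add_dotProduct]
    omega

theorem sec_sub (h : φ ∈ Sec T D m) (h' : ψ ∈ Sec T D m) : φ - ψ ∈ Sec T D m := fun n P hP => by
  rcases eq_or_ne φ 0 with rfl | a0
  · rw [zero_sub] at n ⊢
    simpa using h' (neg_ne_zero.1 n) P hP
  rcases eq_or_ne ψ 0 with rfl | b0
  · rw [sub_zero]
    exact h a0 P hP
  have a := h a0 P hP
  have b := h' b0 P hP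
  have c := P297Z.Pl.min_ord_le_add P.toPlace a0 (neg_ne_zero.2 b0) (by rwa [← sub_eq_add_neg])
  have e : P.toPlace.ord (-ψ) = P.ord ψ := by simp
  rw [← sub_eq_add_neg, e] at c
  have c' : min (P.ord φ) (P.ord ψ) ≤ P.ord (φ - ψ) := c
  omega

theorem sec_one {P : Pl K} (hP : P ∈ T) (h : φ ∈ Sec T D m) : φ ∈ Sec {P} D m :=
  fun n Q hQ => h n Q (hQ ▸ hP)

end L39

open L39

/-- **LOCR** -/
theorem locr39 : LOCR := fun fct K L _ _ _ _ d k T D x e s b ρ f a σ c r P hP δ m φ hφ => by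
  classical
  rcases eq_or_ne φ 0 with rfl | φ0
  · simp [Sec]
  obtain ⟨m', ψ, ψ0, hψ⟩ := (fct K d k T D x e f).2
    (fun Q => if Q = P then 0 else |Q.ord φ + m ⬝ᵥ D Q|) ((f.fin φ m).subset fun Q h =>
      ⟨h.1, fun z => h.2 (by simp [z])⟩)
  have s1 : ψ ∈ Sec T D m' := fun _ Q hQ => by
    rw [hψ Q hQ]
    split_ifs
    exacts [le_rfl, abs_nonneg _]
  have s2 : ψ * φ ∈ Sec T D (m' + m) := fun _ Q hQ => by
    have k := hψ Q hQ
    rw [P297Z.Pl.ord_mul _ ψ0 φ0, add_dotProduct]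
    split_ifs at k with z
    · have := hφ φ0 Q z
      omega
    · have := neg_abs_le (Q.ord φ + m ⬝ᵥ D Q)
      omega
  obtain ⟨ψ₁, e1, t1⟩ := a.graded δ m' ψ
  obtain ⟨χ, e2, t2⟩ := a.graded δ (m' + m) (ψ * φ)
  have l := (ρ δ).leibniz (sg m' ψ) (sg m φ)
  rw [r.app δ m φ] at l
  simp only [sg, smul_eq_mul, AddMonoidAlgebra.single_mul_single, e1, e2] at l
  rw [add_comm m m', ← AddMonoidAlgebra.single_add] at l
  have q : χ = ψ * (σ δ φ + c δ m * φ) + φ * ψ₁ := AddMonoidAlgebra.single_right_injective l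
  have w := sec_sub (sec_one hP (t2 s2)) (add_comm m m' ▸ sec_mul hφ (sec_one hP (t1 s1)))
  rw [q, add_sub_cancel_right] at w
  intro n Q hQ
  obtain rfl : Q = P := hQ
  have w' := w (mul_ne_zero ψ0 n) Q rfl
  have k := hψ Q hP
  rw [P297Z.Pl.ord_mul _ ψ0 n, add_dotProduct] at w'
  rw [if_pos rfl] at k
  omega

end Vale.Agent.P283R.Sg
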