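import Mathlib

/-! A weak Poincare-Birkhoff-Witt bound: the module spanned by a vector that is killed by a fixed
power of every basis element of a Lie algebra of operators has bounded dimension. -/

namespace Vale.Agent.P283R.Sg.P71

variable {i M : Type} [AddCommGroup M] [Module ℂ M]

/-- Lists of length at most `k`. -/
def wd (i : Type) [Fintype i] [DecidableEq i] : ℕ → Finset (List i)
  | 0 => {[]}
  | k + 1 => insert [] (((Finset.univ : Finset i) ×ˢ wd i k).image fun p => p.1 :: p.2)

theorem wd_card [Fintype i] [DecidableEq i] (k : ℕ) :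
    (wd i k).card ≤ (Fintype.card i + 1) ^ k := by
  induction k with
  | zero => simp [wd]
  | succ k ih =>
    have h1 : 1 ≤ (Fintype.card i + 1) ^ k := Nat.one_le_pow _ _ (Nat.succ_pos _)
    calc (wd i (k + 1)).card ≤ Fintype.card i * (wd i k).card + 1 := by
          refine (Finset.card_insert_le _ _).trans (Nat.succ_le_succ ?_)
          refine Finset.card_image_le.trans ?_
          rw [Finset.card_product, Finset.card_univ]
      _ ≤ Fintype.card i * (Fintype.card i + 1) ^ k + (Fintype.card i + 1) ^ k :=
          Nat.add_le_add (Nat.mul_le_mul_left _ ih) h1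
      _ = _ := by ring

theorem mem_wd [Fintype i] [DecidableEq i] (k : ℕ) (w : List i) (h : w.length ≤ k) :
    w ∈ wd i k := by
  induction k generalizing w with
  | zero => simp [wd, List.length_eq_zero_iff.1 (Nat.le_zero.1 h)]
  | succ k ih =>
    cases w with
    | nil => simp [wd]
    | cons a l =>
      refine Finset.mem_insert_of_mem (Finset.mem_image.2 ⟨(a, l), ?_, rfl⟩)
      exact Finset.mem_product.2 ⟨Finset.mem_univ _, ih l (by simpa using h)⟩

/-- The span of the words of length less than `k` applied to `x`. -/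
def U (N : i → Module.End ℂ M) (x : M) (k : ℕ) : Submodule ℂ M :=
  Submodule.span ℂ {y | ∃ w : List i, w.length < k ∧ y = (w.map N).prod x}

theorem U_mem (N : i → Module.End ℂ M) (x : M) {k : ℕ} (w : List i) (h : w.length < k) :
    (w.map N).prod x ∈ U N x k := Submodule.subset_span ⟨w, h, rfl⟩

theorem U_step (N : i → Module.End ℂ M) (x : M) (k : ℕ) (a : i) (y : M) (hy : y ∈ U N x k) :
    N a y ∈ U N x (k + 1) := by
  induction hy using Submodule.span_induction with
  | mem y h =>
    obtain ⟨w, hw, rfl⟩ := h
    have := U_mem N x (k := k + 1) (a :: w) (by simpa using hw)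
    simpa using this
  | zero => simp
  | add y z _ _ h1 h2 => rw [map_add]; exact Submodule.add_mem _ h1 h2
  | smul c y _ h1 => rw [map_smul]; exact Submodule.smul_mem _ c h1

theorem span_ap (N : i → Module.End ℂ M) (W W' : Submodule ℂ M)
    (h : ∀ a, ∀ y ∈ W, N a y ∈ W') (f : Module.End ℂ M)
    (hf : f ∈ Submodule.span ℂ (Set.range N)) (y : M) (hy : y ∈ W) : f y ∈ W' := by
  induction hf using Submodule.span_induction with
  | mem f h1 => obtain ⟨a, rfl⟩ := h1; exact h a y hy
  | zero => simp
  | add f g _ _ h1 h2 => exact W'.add_mem h1 h2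
  | smul c f _ h1 => exact W'.smul_mem c h1

theorem perm (N : i → Module.End ℂ M)
    (hN : ∀ a b, N a * N b - N b * N a ∈ Submodule.span ℂ (Set.range N)) (x : M)
    {w w' : List i} (h : w.Perm w') :
    (w.map N).prod x - (w'.map N).prod x ∈ U N x w.length := by
  induction h with
  | nil => simp
  | cons a _ ih =>
    have := U_step N x _ a _ ih
    simpa using this
  | swap a b l =>
    have := span_ap N (U N x (l.length + 1)) (U N x (l.length + 1 + 1)) (U_step N x _) _ (hN b a)
      _ (U_mem N x l (Nat.lt_succ_self _))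
    have h2 : U N x (l.length + 1 + 1) = U N x (b :: a :: l).length := rfl
    rw [← h2]
    simpa using this
  | trans h1 _ ih1 ih2 =>
    rw [← h1.length_eq] at ih2
    have := Submodule.add_mem _ ih1 ih2
    simpa using this

theorem long [Fintype i] [DecidableEq i] (m : ℕ) (w : List i)
    (h : Fintype.card i * m < w.length) :
    ∃ a w', w.Perm (w' ++ List.replicate m a) := by
  have h1 : ∃ a, m ≤ w.count a := by
    by_contra hne
    push Not at hne
    have h2 : ∑ a, w.count a ≤ Fintype.card i * m := by
      have := Finset.sum_le_card_nsmul Finset.univ (fun a => w.count a) m fun a _ => (hne a).le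
      simpa using this
    have h3 : ∑ a, w.count a = w.length := by
      have := Multiset.sum_count_eq_card (s := Finset.univ) (m := (w : Multiset i))
        fun a _ => Finset.mem_univ a
      simpa using this
    omega
  obtain ⟨a, ha⟩ := h1
  obtain ⟨l, hl⟩ := (List.replicate_sublist_iff.2 ha).exists_perm_append
  exact ⟨a, l, hl.trans List.perm_append_comm⟩

theorem all_mem [Fintype i] [DecidableEq i] (N : i → Module.End ℂ M)
    (hN : ∀ a b, N a * N b - N b * N a ∈ Submodule.span ℂ (Set.range N)) (m : ℕ) (x : M)
    (hx : ∀ a, (N a ^ m) x = 0) (w : List i) :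
    (w.map N).prod x ∈ U N x (Fintype.card i * m + 1) := by
  induction h : w.length using Nat.strong_induction_on generalizing w with
  | _ k ih =>
    by_cases hk : w.length < Fintype.card i * m + 1
    · exact U_mem N x w hk
    · obtain ⟨a, w', hp⟩ := long m w (by omega)
      have h1 := perm N hN x hp
      have h2 : ((w' ++ List.replicate m a).map N).prod x = 0 := by
        simp [List.map_append, List.prod_append, hx a]
      rw [h2, sub_zero] at h1
      refine (Submodule.span_le.2 ?_ : U N x w.length ≤ _) h1
      rintro y ⟨l, hl, rfl⟩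
      exact ih l.length (h ▸ hl) l rfl

/-- The bounded module spanned by `x`. -/
theorem pbw [Fintype i] (N : i → Module.End ℂ M)
    (hN : ∀ a b, N a * N b - N b * N a ∈ Submodule.span ℂ (Set.range N)) (m : ℕ) (x : M)
    (hx : ∀ a, (N a ^ m) x = 0) :
    ∃ T : Finset (List i), T.card ≤ (Fintype.card i + 1) ^ (Fintype.card i * m) ∧ [] ∈ T ∧
      ∀ W : Submodule ℂ M,
        W = Submodule.span ℂ ((fun w : List i => (w.map N).prod x) '' (T : Set (List i))) →
        (∀ w : List i, (w.map N).prod x ∈ W) ∧ (∀ a, ∀ y ∈ W, N a y ∈ W) ∧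
        ∀ b : Module.End ℂ M, (∀ a, b * N a - N a * b ∈ Submodule.span ℂ (Set.range N)) →
          (∃ c : ℂ, b x = c • x) → ∀ y ∈ W, b y ∈ W := by
  classical
  refine ⟨wd i (Fintype.card i * m), wd_card _, mem_wd _ _ (Nat.zero_le _), ?_⟩
  intro W hW
  have h1 : ∀ w : List i, (w.map N).prod x ∈ W := fun w => by
    refine (Submodule.span_le.2 ?_ : U N x _ ≤ W) (all_mem N hN m x hx w)
    rintro y ⟨l, hl, rfl⟩
    rw [hW]
    exact Submodule.subset_span ⟨l, Finset.mem_coe.2 (mem_wd _ l (by omega)), rfl⟩
  have key : ∀ f : Module.End ℂ M, (∀ w : List i, f ((w.map N).prod x) ∈ W) →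
      ∀ y ∈ W, f y ∈ W := fun f hf y hy => by
    have h2 : W ≤ W.comap f := by
      conv_lhs => rw [hW]
      refine Submodule.span_le.2 ?_
      rintro y ⟨l, -, rfl⟩
      exact hf l
    exact h2 hy
  have h3 : ∀ a, ∀ y ∈ W, N a y ∈ W := fun a => key _ fun w => by
    simpa using h1 (a :: w)
  refine ⟨h1, h3, fun b hb ⟨c, hc⟩ => key _ fun w => ?_⟩
  induction w with
  | nil =>
    have := W.smul_mem c (h1 [])
    simpa [hc] using this
  | cons a l ih =>
    have h4 := W.add_mem (span_ap N W W h3 _ (hb a) _ (h1 l)) (h3 a _ ih)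
    simpa using h4

end Vale.Agent.P283R.Sg.P71
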