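import Vale.Agent.P283R.Sg.St
import Vale.Agent.P283R.Sg.Pbw71

/-! The row PBW of the block SG. -/

open Set

namespace Vale.Agent.P283R.Sg

theorem pbw71 : PBW := by
  intro V L _ _ _ _ ρ r M n x hρ hn hx
  classical
  have hs : ∀ u ∈ Submodule.span ℂ (range n), ρ u ∈ Submodule.span ℂ (range fun i => ρ (n i)) := by
    intro u hu
    have := Submodule.apply_mem_span_image_of_mem_span ρ hu
    rwa [← range_comp] at this
  obtain ⟨T, hT, h0, hW⟩ := P71.pbw (fun i => ρ (n i))
    (fun a b => by rw [← hρ]; exact hs _ (hn a b)) M x hx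
  obtain ⟨h1, h2, -⟩ := hW _ rfl
  set U := Submodule.span ℂ
    ((fun w : List (Fin r) => (w.map fun i => ρ (n i)).prod x) '' (T : Set (List (Fin r)))) with hU
  have hmin : ∀ N : Submodule ℂ V, x ∈ N → (∀ i, ∀ u ∈ N, ρ (n i) u ∈ N) → U ≤ N := by
    intro N hxN hN
    refine Submodule.span_le.2 ?_
    rintro y ⟨w, -, rfl⟩
    induction w with
    | nil => simpa using hxN
    | cons a l ih => simpa using hN a _ ih
  refine ⟨U, by simpa using h1 [], Module.Finite.span_of_finite ℂ (T.finite_toSet.image _), ?_,
    h2, hmin, fun δ hδ hx' u hu => ?_⟩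
  · rw [hU, ← Finset.coe_image]
    refine (finrank_span_finset_le_card _).trans (Finset.card_image_le.trans ?_)
    simpa using hT
  · have key : ∀ w : List (Fin r), ρ δ ((w.map fun i => ρ (n i)).prod x) ∈ U := by
      intro w
      induction w with
      | nil => simpa using hx'
      | cons a l ih =>
        have h4 := U.add_mem (P71.span_ap (fun i => ρ (n i)) U U h2 _ (hs _ (hδ a)) _ (h1 l))
          (h2 a _ ih)
        rw [hρ] at h4
        simpa using h4
    have h5 : U ≤ U.comap (ρ δ) := by
      conv_lhs => rw [hU]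
      refine Submodule.span_le.2 ?_
      rintro y ⟨l, -, rfl⟩
      exact key l
    exact h5 hu

end Vale.Agent.P283R.Sg
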