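import Vale.Agent.P283R.Sg.St

/-!
# P283R, block SG: the anticanonical section at the places
-/

open Set

noncomputable section

namespace Vale.Agent.P283R.Sg.R4

open Vale.Agent.P287D Vale.Agent.P283R.Sl Vale.Agent.P297Z Vale.Agent.P287D.Cb
open Vale.Agent.P285N.Brep (jac Fr)

variable {K L : Type} [Field K] [Algebra ℂ K] [LieRing L] [LieAlgebra ℂ L] {d k : ℕ}

theorem ord_nn {P : Pl K} {a : K} (h : a ∈ P.ring) : 0 ≤ P.ord a := by
  by_cases a0 : a = 0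
  · simp [a0]
  · exact (Pl.ord_nonneg_iff _ a0).2 h

/-- regular vector fields -/
theorem ord_det (hK : FF K d) {P : Pl K} {ξ : Fin d → Derivation ℂ K K} (h : ∀ i, Rg P (ξ i))
    {y : Fin d → K} (h0 : jac ξ y ≠ 0) : kap y P ≤ P.ord (jac ξ y) := by
  obtain ⟨t, D, a⟩ := exists_ad hK P
  have e := jac_chain a.fr ξ y
  rw [e, mul_ne_zero_iff] at h0
  have : jac ξ t ∈ P.ring := det_mem _ fun i j => h i _ (a.mem j)
  have := ord_nn this
  rw [kap_eq a, e, Pl.ord_mul _ h0.1 h0.2]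
  exact_mod_cast by omega

/-- the divergence in two frames -/
theorem dvg (jc : JAC) {y t : Fin d → K} {E D : Fin d → Derivation ℂ K K} (hy : Fr y E)
    (ht : Fr t D) (n : Derivation ℂ K K) :
    ∑ j, E j (n (y j)) = ∑ j, D j (n (t j)) + n (jac D y) / jac D y := by
  have a := jc K d y E D n hy
  have b := jc K d t D D n ht
  have j0 : jac D y ≠ 0 := jac_ne hy ht
  rw [jac_self ht, Derivation.map_one_eq_zero, mul_one] at b
  rw [Finset.sum_congr rfl fun i _ => jac_chain ht (Function.update D i ⁅n, D i⁆) y,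
    ← Finset.sum_mul] at a
  rw [a, eq_neg_of_add_eq_zero_left b.symm]
  field_simp
  ring

/-- the divergence is regular -/
theorem reg (jc : JAC) {P : Pl K} {y : Fin d → K} {E : Fin d → Derivation ℂ K K} (hy : Fr y E)
    {n : Derivation ℂ K K} (r : Rg P n) {h : K} (h0 : h ≠ 0) (e : (P.ord h : ℝ) = -kap y P) :
    ∑ j, E j (n (y j)) + n h / h ∈ P.ring := by
  obtain ⟨t, D, a⟩ := exists_ad (ff_of hy) P
  have j0 : jac D y ≠ 0 := jac_ne hy a.fr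
  rw [kap_eq a] at e
  have o : P.ord (jac D y * h) = 0 := by
    rw [Pl.ord_mul _ j0 h0]
    have : P.ord h = -P.ord (jac D y) := by exact_mod_cast e
    omega
  have l := (dr_of n).ld_mul j0 h0
  simp only [RingHom.id_apply] at l
  rw [dvg jc hy a.fr, add_assoc, ← l, div_eq_mul_inv]
  exact add_mem (sum_mem fun j _ => a.pre j _ (r _ (a.mem j)))
    (mul_mem (r _ (mem_ord o.ge)) (inv_mem_ord o))

variable {T : Set (Pl K)} {D : Pl K → Fin k → ℤ} {x : Pl K → K} {e : Pl K → Fin k → ℤ}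
  {ρ : L →ₗ⁅ℂ⁆ Derivation ℂ (Laurent K k) (Laurent K k)} {σ : L →ₗ⁅ℂ⁆ Derivation ℂ K K}
  {c : L → (Fin k → ℤ) → K} {y : Fin d → K} {E : Fin d → Derivation ℂ K K} {m : Fin k → ℤ}
  {ψ : K} {P : Pl K}

/-- the action is regular at the place -/
def Lo (P : Pl K) (D : Pl K → Fin k → ℤ) (σ : L →ₗ⁅ℂ⁆ Derivation ℂ K K)
    (c : L → (Fin k → ℤ) → K) : Prop :=
  ∀ δ m, ∀ φ ∈ Sec {P} D m, σ δ φ + c δ m * φ ∈ Sec {P} D m

theorem Lo.rg (lo : Lo P D σ c) (rs : Res ρ σ c) (δ : L) : Rg P (σ δ) := fun a ha => by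
  have := lo δ 0 a fun _ Q hQ => by
    rw [mem_singleton_iff.1 hQ, zero_dotProduct, add_zero]
    exact ord_nn ha
  rw [rs.zero, zero_mul, add_zero] at this
  by_cases z : σ δ a = 0
  · exact z ▸ zero_mem _
  · have := this z P rfl
    rw [zero_dotProduct, add_zero] at this
    exact mem_ord this

/-- the local generator -/
theorem Lo.gen (lo : Lo P D σ c) (δ : L) (m : Fin k → ℤ) :
    σ δ (P.t ^ (-(m ⬝ᵥ D P))) / P.t ^ (-(m ⬝ᵥ D P)) + c δ m ∈ P.ring := by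
  have t0 : P.t ^ (-(m ⬝ᵥ D P)) ≠ 0 := zpow_ne_zero _ P.t_ne
  have := lo δ m (P.t ^ (-(m ⬝ᵥ D P))) fun _ Q hQ => by
    rw [mem_singleton_iff.1 hQ, P.ord_t_zpow, neg_add_cancel]
  rw [div_add' _ _ _ t0]
  by_cases z : σ δ (P.t ^ (-(m ⬝ᵥ D P))) + c δ m * P.t ^ (-(m ⬝ᵥ D P)) = 0
  · rw [z, zero_div]
    exact zero_mem _
  · have := this z P rfl
    refine mem_ord ?_
    rw [Pl.ord_div _ z t0, P.ord_t_zpow]
    omega

theorem ld_div (n : Derivation ℂ K K) {a b : K} (a0 : a ≠ 0) (b0 : b ≠ 0) :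
    n (a / b) / (a / b) = n a / a - n b / b := by
  have l := (dr_of n).ld_mul (div_ne_zero a0 b0) b0
  simp only [RingHom.id_apply] at l
  rw [div_mul_cancel₀ _ b0] at l
  rw [l, add_sub_cancel_right]

/-- eigenvectors give logarithmic vector fields -/
theorem Lo.lg (lo : Lo P D σ c) (rs : Res ρ σ c) {δ : L} {a : K} (a0 : a ≠ 0)
    (o : P.ord a + m ⬝ᵥ D P ≠ 0) (ev : Ev (ρ δ) (sg m a)) : Lg P (σ δ) := by
  obtain ⟨z, hz⟩ := ev
  have t0 : P.t ^ (-(m ⬝ᵥ D P)) ≠ 0 := zpow_ne_zero _ P.t_ne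
  rw [rs.app, AddMonoidAlgebra.smul_single] at hz
  have h := AddMonoidAlgebra.single_right_injective hz
  refine (lo.rg rs δ).lg (dr_of _) (y := a / P.t ^ (-(m ⬝ᵥ D P))) (by
    rwa [Pl.ord_div _ a0 t0, P.ord_t_zpow, sub_neg_eq_add]) ?_
  have k : σ δ a / a = algebraMap ℂ K z - c δ m := by
    rw [Algebra.smul_def] at h
    rw [div_eq_iff a0]
    linear_combination h
  rw [ld_div _ a0 t0, k, sub_sub, add_comm]
  exact sub_mem (P.con z) (lo.gen δ m)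

/-- the section -/
theorem mem (hK : FF K d) (rs : Res ρ σ c) (lo : ∀ P ∈ T, Lo P D σ c)
    (hψ : ∀ P ∈ T, ((P.ord ψ + m ⬝ᵥ D P : ℤ) : ℝ) = -kap y P) (ξ : Fin d → L) :
    jac (fun i => σ (ξ i)) y * ψ ∈ Sec T D m := fun h P t => by
  rw [mul_ne_zero_iff] at h
  have a := ord_det hK (fun i => (lo P t).rg rs (ξ i)) h.1
  have b := hψ P t
  rw [Pl.ord_mul _ h.1 h.2, ← Int.cast_nonneg_iff (R := ℝ)]
  push_cast at b ⊢
  linarith

/-- the section vanishes on the invariant divisors -/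
theorem van (fc : Fac d T D x e) (rs : Res ρ σ c) (lo : ∀ P ∈ T, Lo P D σ c) (ψ0 : ψ ≠ 0)
    (hψ : ∀ P ∈ T, ((P.ord ψ + m ⬝ᵥ D P : ℤ) : ℝ) = -kap y P) {ξ : Fin d → L} (t : P ∈ T)
    (ev : ∀ i, Ev (ρ (ξ i)) (sg (e P) (x P))) (j0 : jac (fun i => σ (ξ i)) y ≠ 0) :
    0 < P.ord (jac (fun i => σ (ξ i)) y * ψ) + m ⬝ᵥ D P := by
  have a := kap_le fc.ff (fun i => (lo P t).lg rs (fc.ne P t) (by rw [fc.one P t]; omega) (ev i))
    j0
  have b := hψ P t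
  rw [Pl.ord_mul _ j0 ψ0, ← Int.cast_pos (R := ℝ)]
  push_cast at b ⊢
  linarith

/-- the factor -/
def fac (σ : L →ₗ⁅ℂ⁆ Derivation ℂ K K) (c : L → (Fin k → ℤ) → K) (y : Fin d → K)
    (E : Fin d → Derivation ℂ K K) (m : Fin k → ℤ) (ψ : K) (n : L) : K :=
  ∑ j, E j (σ n (y j)) + σ n ψ / ψ + c n m

/-- the factor is regular -/
theorem creg (jc : JAC) (rs : Res ρ σ c) (lo : ∀ P ∈ T, Lo P D σ c) (hy : Fr y E) (ψ0 : ψ ≠ 0)
    (hψ : ∀ P ∈ T, ((P.ord ψ + m ⬝ᵥ D P : ℤ) : ℝ) = -kap y P) (n : L) :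
    fac σ c y E m ψ n ∈ Sec T D 0 := fun _ P t => by
  have t0 : P.t ^ (-(m ⬝ᵥ D P)) ≠ 0 := zpow_ne_zero _ P.t_ne
  have a := reg jc hy ((lo P t).rg rs n) (div_ne_zero ψ0 t0) (by
    rw [Pl.ord_div _ ψ0 t0, P.ord_t_zpow, sub_neg_eq_add, hψ P t])
  have b := add_mem a ((lo P t).gen n m)
  rw [ld_div _ ψ0 t0] at b
  rw [zero_dotProduct, add_zero]
  refine ord_nn ?_
  convert b using 1
  rw [fac]
  ring

/-- the Lie derivative of the section -/
theorem lie (jc : JAC) (rs : Res ρ σ c) (hy : Fr y E) (ψ0 : ψ ≠ 0) (n : L) (ξ : Fin d → L) :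
    ρ n (sg m (jac (fun i => σ (ξ i)) y * ψ)) =
      ∑ i, sg m (jac (fun j => σ (Function.update ξ i ⁅n, ξ i⁆ j)) y * ψ) +
        sg 0 (fac σ c y E m ψ n) * sg m (jac (fun i => σ (ξ i)) y * ψ) := by
  have u : ∀ i, (fun j => σ (Function.update ξ i ⁅n, ξ i⁆ j)) =
      Function.update (fun j => σ (ξ j)) i ⁅σ n, σ (ξ i)⁆ := fun i => by
    rw [← LieHom.map_lie]
    exact Function.comp_update σ ξ i _
  have v : ∀ f : Fin d → K, ∑ i, sg m (f i) = sg m (∑ i, f i) := fun f =>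
    (map_sum (AddMonoidAlgebra.singleAddHom m) f _).symm
  simp only [u]
  rw [rs.app, AddMonoidAlgebra.single_mul_single, zero_add, Derivation.leibniz,
    jc K d y E _ _ hy, v, ← AddMonoidAlgebra.single_add, ← Finset.sum_mul, fac]
  congr 1
  simp only [smul_eq_mul]
  field_simp
  ring

/-- the function `ψ` -/
theorem ex_psi (ft : FCT) (fc : Fac d T D x e) (hy : AlgebraicIndependent ℂ y) :
    ∃ m ψ, ψ ≠ 0 ∧ ∀ P ∈ T, ((P.ord ψ + m ⬝ᵥ D P : ℤ) : ℝ) = -kap y P := by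
  choose G hG using kap_int y
  obtain ⟨m, ψ, h0, h⟩ := (ft K d k T D x e fc).2 (fun P => -G P) ((fc.can y hy).subset
    fun P h => ⟨h.1, fun z => h.2 (by
      rw [hG] at z
      rw [Int.cast_eq_zero.1 z, neg_zero])⟩)
  exact ⟨m, ψ, h0, fun P t => by rw [h P t, hG, Int.cast_neg]⟩

end Vale.Agent.P283R.Sg.R4
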