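import Vale.Agent.P283R.Sg.St

/-!
# P283R, block SG: the restriction of the action to the function field
-/

open Set

noncomputable section

namespace Vale.Agent.P283R.Sg

open Vale.Agent.P287D Vale.Agent.P283R.Sl
open Vale.Agent.P285N.Brep (jac Fr)

namespace R27

variable {K L : Type} [Field K] [Algebra ℂ K] [LieRing L] [LieAlgebra ℂ L] {k : ℕ}

omit [Algebra ℂ K] in
theorem sg_inj {m : Fin k → ℤ} {a b : K} (h : sg m a = sg m b) : a = b := by
  simpa using congrArg (fun F : Laurent K k => F.coeff m) h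

omit [Algebra ℂ K] in
theorem sg_mul (m n : Fin k → ℤ) (a b : K) : sg (m + n) (a * b) = sg m a * sg n b :=
  (AddMonoidAlgebra.single_mul_single ..).symm

omit [Algebra ℂ K] in
theorem sg_add (m : Fin k → ℤ) (a b : K) : sg m (a + b) = sg m a + sg m b :=
  AddMonoidAlgebra.single_add ..

omit [Algebra ℂ K] in
theorem sg_sub (m : Fin k → ℤ) (a b : K) : sg m (a - b) = sg m a - sg m b := by
  rw [eq_sub_iff_add_eq, ← sg_add, sub_add_cancel]

theorem sg_smul (m : Fin k → ℤ) (c : ℂ) (a : K) : sg m (c • a) = c • sg m a := by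
  ext
  simp [Finsupp.single_apply]

/-- the coefficient of the image -/
def cf (ρ : L →ₗ⁅ℂ⁆ Derivation ℂ (Laurent K k) (Laurent K k)) (δ : L) (m : Fin k → ℤ) (φ : K) :
    K := (ρ δ (sg m φ)).coeff m

variable {ρ : L →ₗ⁅ℂ⁆ Derivation ℂ (Laurent K k) (Laurent K k)}

/-- the restriction of one derivation -/
def one (h : ∀ δ m φ, ρ δ (sg m φ) = sg m (cf ρ δ m φ)) (δ : L) : Derivation ℂ K K :=
  Derivation.mk'
    { toFun := cf ρ δ 0
      map_add' := fun a b => sg_inj (m := (0 : Fin k → ℤ)) (by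
        rw [sg_add, ← h, ← h, ← h, sg_add, map_add])
      map_smul' := fun c a => sg_inj (m := (0 : Fin k → ℤ)) (by
        rw [RingHom.id_apply, sg_smul, ← h, ← h, sg_smul, Derivation.map_smul]) }
    fun a b => sg_inj (m := (0 : Fin k → ℤ)) (by
      have e : ∀ x y : K, sg (0 : Fin k → ℤ) (x * y) = sg 0 x * sg 0 y := fun x y => by
        simpa using sg_mul (0 : Fin k → ℤ) 0 x y
      change sg 0 (cf ρ δ 0 (a * b)) = sg 0 (a * cf ρ δ 0 b + b * cf ρ δ 0 a)
      rw [sg_add, e, e, ← h, ← h, ← h, e, Derivation.leibniz, smul_eq_mul, smul_eq_mul])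

theorem one_sg (h : ∀ δ m φ, ρ δ (sg m φ) = sg m (cf ρ δ m φ)) (δ : L) (a : K) :
    sg 0 (one h δ a) = ρ δ (sg 0 a) := (h δ 0 a).symm

/-- the restriction of the action -/
def all (h : ∀ δ m φ, ρ δ (sg m φ) = sg m (cf ρ δ m φ)) : L →ₗ⁅ℂ⁆ Derivation ℂ K K where
  toFun := one h
  map_add' u v := Derivation.ext fun a => sg_inj (m := (0 : Fin k → ℤ)) (by
    rw [Derivation.add_apply, sg_add, one_sg, one_sg, one_sg, map_add, Derivation.add_apply])
  map_smul' c u := Derivation.ext fun a => sg_inj (m := (0 : Fin k → ℤ)) (by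
    rw [RingHom.id_apply, Derivation.smul_apply, sg_smul, one_sg, one_sg, map_smul,
      Derivation.smul_apply])
  map_lie' {u v} := Derivation.ext fun a => sg_inj (m := (0 : Fin k → ℤ)) (by
    change sg 0 (one h ⁅u, v⁆ a) = sg 0 (⁅one h u, one h v⁆ a)
    rw [Derivation.commutator_apply, sg_sub, one_sg, one_sg, one_sg, one_sg, one_sg,
      LieHom.map_lie, Derivation.commutator_apply])

theorem all_sg (h : ∀ δ m φ, ρ δ (sg m φ) = sg m (cf ρ δ m φ)) (δ : L) (a : K) :
    sg 0 (all h δ a) = ρ δ (sg 0 a) := one_sg h δ a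

end R27

open R27 in
theorem res : RES := fun K L _ _ _ _ d k T D x e s b ρ _ H => by
  have h : ∀ δ m φ, ρ δ (sg m φ) = sg m (cf ρ δ m φ) := fun δ m φ => by
    obtain ⟨ψ, k, -⟩ := H.graded δ m φ
    rw [cf, k]
    simp
  refine ⟨all h, fun δ m => cf ρ δ m 1, ⟨fun δ m φ => ?_, fun δ => ?_⟩, fun δ hδ z => ?_, ?_⟩
  · have e : ∀ x y : K, sg m (x * y) = sg 0 x * sg m y := fun x y => by
      simpa using sg_mul (0 : Fin k → ℤ) m x y
    rw [sg_add, mul_comm, e, ← h, ← mul_one (all h δ φ), e, all_sg, ← mul_one φ, e, mul_one,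
      Derivation.leibniz, smul_eq_mul, smul_eq_mul]
    ring
  · refine sg_inj (m := (0 : Fin k → ℤ)) ?_
    rw [← h]
    change ρ δ 1 = _
    simp
  · refine H.faithful δ hδ fun φ => ?_
    rw [← all_sg h, z]
    simp
  · obtain ⟨δ, y, hb, hd⟩ := H.orbit
    refine ⟨δ, y, hb, fun z => hd ?_⟩
    have := (algebraMap K (Laurent K k)).map_det (Matrix.of fun i j => all h (δ i) (y j))
    rw [show (Matrix.of fun i j => all h (δ i) (y j)).det = 0 from z, map_zero] at this
    rw [this]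
    exact congrArg Matrix.det (Matrix.ext fun i j => (all_sg h (δ i) (y j)).symm)

end Vale.Agent.P283R.Sg
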