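import Vale.Agent.P283R.Sg.St
import Vale.Agent.P283R.Sl.Sg2
import Vale.Agent.P283R.Sl.Mb

/-!
# P283R, block SG: arbitrary points of the base, the statements
-/

open Set CategoryTheory AlgebraicGeometry

noncomputable section

namespace Vale.Agent.P283R.Sg

open Vale.Agent.P287D Vale.Agent.P283R.Sl

/-- **SHR**: one more generator for a smaller open subset -/
def SHR : Prop := ∀ (K : Type) [Field K] [Algebra ℂ K] (d k N : ℕ) (T T' : Set (Pl K))
  (D : Pl K → Fin k → ℤ) (x : Pl K → K) (e : Pl K → Fin k → ℤ), Fac d T D x e → T' ⊆ T →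
    (T \ T').Finite → GradedGen N (Sec T D) → GradedGen (N + 1) (Sec T' D)

/-- **SHRR** -/
def SHRR : Prop := GG → FCT → SHR

/-- **OUT**: finitely many prime divisors lie outside of a nonempty open subset -/
def OUT : Prop := ∀ (X : Sl.Var) (W : X.X.Opens) (x : Pt X.X), x.In W →
  {E : X.PrimeDiv | ¬ E.1.In W}.Finite

open Sl.Var in
/-- **MEM2**: the membership -/
def MEM2 : Prop := ∀ (d : ℕ) (X Z : Sl.Var) (f : X.X ⟶ Z.X) (ω : X.Form d) (B : X.QDiv)
  (z : Pt Z.X) (V : Z.X.Opens), 1 ≤ d → dimension X.str = d → ω.Nonzero → Contraction f →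
    z.In V → SphericalOpen (pre f V) d → Generated (ell d + 1) f ω B z

/-- **TOP2** -/
def TOP2 : Prop := FCT → TIER → SHR → OUT → MEM2

end Vale.Agent.P283R.Sg

namespace Vale.Agent.P283R.Sl

open Var

theorem on_sg2_of (h : Sg.MEM2) : On fun d _ _ f ω B z => FanoType f ω ∧
    NefOver f (-logCan ω B) ∧ ∃ V, z.In V ∧ SphericalOpen (pre f V) d := by
  intro d hd ε hε R hR
  obtain ⟨n, hn, H⟩ := on_gen' (Sg.ell d + 1) d hd ε hε R hR
  exact ⟨n, hn, fun X Z f ω B z a b c e s t ⟨u, v, V, p, q⟩ =>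
    H X Z f ω B z a b c e s t ⟨u, v, h d X Z f ω B z V hd a b s p q⟩⟩

end Vale.Agent.P283R.Sl
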