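import Vale.Agent.P283R.Sg.Reg4
import Vale.Agent.P283R.Sg.W63

/-!
# P283R, block SG: the section of the anticanonical divisor
-/

open Set

noncomputable section

namespace Vale.Agent.P283R.Sg

open Vale.Agent.P287D Vale.Agent.P283R.Sl Vale.Agent.P297Z Vale.Agent.P287D.Cb
open Vale.Agent.P285N.Brep (jac Fr)
open _root_.P283R.Sg

namespace W4

theorem sum_pow {ι A : Type} [DecidableEq ι] [Ring A] (f : ι → A) (r : ℕ)
    (hc : ∀ i j, Commute (f i) (f j)) (hf : ∀ i, f i ^ (r + 1) = 0) (s : Finset ι) :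
    (∑ i ∈ s, f i) ^ (s.card * r + 1) = 0 := by
  induction s using Finset.induction_on with
  | empty => simp
  | insert a s ha ih =>
    rw [Finset.sum_insert ha, Finset.card_insert_of_notMem ha]
    refine Commute.add_pow_eq_zero_of_add_le_succ_of_pow_eq_zero
      (Commute.sum_right _ _ _ fun i _ => hc a i) (hf a) ih ?_
    rw [add_mul]
    omega

theorem pow {g F : Type} [AddCommGroup g] [Module ℂ g] [CommRing F] [Algebra ℂ F] {d : ℕ}
    (d0 : 0 < d) (N : Module.End ℂ g) (r : ℕ) (hN : N ^ (r + 1) = 0) (D : F →ₗ[ℂ] F)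
    (Φ : MultilinearMap ℂ (fun _ : Fin d => g) F)
    (h : ∀ x, D (Φ x) = ∑ i, Φ (Function.update x i (N (x i)))) (x : Fin d → g) :
    (D ^ (d * (r + 1))) (Φ x) = 0 := by
  have key : ∀ m, (D ^ m) (Φ x) = (W63.lie N ^ m) Φ x := fun m => by
    induction m with
    | zero => simp
    | succ m ih =>
      rw [pow_succ', Module.End.mul_apply, ih, W63.step N D 0 Φ (by simpa using h)]
      simp
  have z : W63.lie (F := F) (ι := Fin d) N ^ (Finset.univ.card * r + 1) = 0 :=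
    sum_pow (fun i : Fin d => W63.slot (F := F) N i) r (W63.slot_comm N) (fun i => by
      ext Φ x
      rw [W63.slot_pow, hN]
      simp) Finset.univ
  rw [key, pow_eq_zero_of_le (by rw [Finset.card_fin, mul_add]; omega) z]
  simp

variable {K L : Type} [Field K] [Algebra ℂ K] [LieRing L] [LieAlgebra ℂ L] {d k : ℕ}

/-- the multilinear form -/
theorem ex_form (σ : L →ₗ⁅ℂ⁆ Derivation ℂ K K) (y : Fin d → K) (m : Fin k → ℤ) (ψ : K) :
    ∃ Φ : MultilinearMap ℂ (fun _ : Fin d => L) (Laurent K k),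
      ∀ ξ, Φ ξ = sg m (jac (fun i => σ (ξ i)) y * ψ) := by
  let ev : L →ₗ[ℂ] Fin d → K :=
    { toFun := fun δ j => σ δ (y j)
      map_add' := fun a b => funext fun j => by simp
      map_smul' := fun a b => funext fun j => by simp }
  let o : K →ₗ[ℂ] Laurent K k :=
    { toFun := fun a => sg m (a * ψ)
      map_add' := fun a b => by rw [add_mul, ← AddMonoidAlgebra.single_add]
      map_smul' := fun a b => by
        rw [RingHom.id_apply, AddMonoidAlgebra.smul_single, smul_mul_assoc] }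
  exact ⟨o.compMultilinearMap (((Matrix.detRowAlternating (n := Fin d)
    (R := K)).toMultilinearMap.restrictScalars ℂ).compLinearMap fun _ => ev), fun _ => rfl⟩

theorem ln (nl : NLP) {ρ : L →ₗ⁅ℂ⁆ Derivation ℂ (Laurent K k) (Laurent K k)} {a n : L}
    (h : ⁅a, n⁆ = n) {w : Laurent K k} (hw : ∃ N, Invariant ρ N ∧ Module.Finite ℂ N ∧ w ∈ N) :
    LN (ρ n) w := by
  obtain ⟨N, i, f, hw⟩ := hw
  refine ⟨Module.finrank ℂ N, ?_⟩
  have := nl _ (ρ a).toLinearMap (ρ n).toLinearMap N f (i a) (i n) (LinearMap.ext fun u => by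
    have := congrArg (fun δ => ρ δ u) h
    simp only [LieHom.map_lie, Derivation.commutator_apply] at this
    exact this) w hw
  rwa [Module.End.pow_apply] at this

theorem ad_nil (nl : NLP) [Module.Finite ℂ L] (s : LieIdeal ℂ L) {a n : L} (hn : n ∈ s)
    (h : ⁅a, n⁆ = n) : LieAlgebra.ad ℂ L n ^ (Module.finrank ℂ s + 1) = 0 :=
  LinearMap.ext fun u => by
    rw [pow_succ, Module.End.mul_apply]
    exact nl L (LieAlgebra.ad ℂ L a) (LieAlgebra.ad ℂ L n) s.toSubmodule inferInstance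
      (fun _ h => s.lie_mem h) (fun _ h => s.lie_mem h)
      (LinearMap.ext fun v => by
        change ⁅a, ⁅n, v⁆⁆ - ⁅n, ⁅a, v⁆⁆ = ⁅n, v⁆
        rw [← lie_lie, h]) _ (lie_mem_left ℂ L s n u hn)

end W4

/-- **WEDR** -/
theorem wedr4 : WEDR := by
  intro res loc ft jc dv nl K L _ _ _ _ d k T D x e s b ρ fc sa
  obtain ⟨σ, c, rs, -, δ, y, hb, j0⟩ := res K L d k T D x e s b ρ fc sa
  have lo : ∀ P ∈ T, R4.Lo P D σ c := loc K L d k T D x e s b ρ fc sa σ c rs
  have hy := P285N.Brep.TbAux.ind _ y j0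
  obtain ⟨E, hE⟩ := fr_of fc.ff hy
  obtain ⟨m, ψ, ψ0, hψ⟩ := R4.ex_psi ft fc hy
  obtain ⟨Φ, hΦ⟩ := W4.ex_form σ y m ψ
  have := sa.finite
  refine ⟨m, _, R4.mem fc.ff rs lo hψ δ, mul_ne_zero j0 ψ0,
    fun P t ev => R4.van fc rs lo ψ0 hψ t (fun i => ev _ (hb i)) j0, fun n hn a _ h => ?_⟩
  have li : ∀ ξ, (ρ n).toLinearMap (Φ ξ) = ∑ i, Φ (Function.update ξ i (LieAlgebra.ad ℂ L n (ξ i)))
      + sg 0 (R4.fac σ c y E m ψ n) * Φ ξ := fun ξ => by
    simp only [hΦ]
    exact R4.lie jc rs hE ψ0 n ξ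
  obtain ⟨w, hw, w0, e⟩ := W63.last _ _ (W4.ad_nil nl s hn h) _ _ Φ li (x0 := δ) (by
    rw [hΦ]
    exact fun z => mul_ne_zero j0 ψ0 (AddMonoidAlgebra.single_eq_zero.1 z))
  have c0 := (dv _ (ρ n)).2.2 _ w (W4.ln nl h (sa.locFinite _ _ (R4.creg jc rs lo hE ψ0 hψ n)))
    (W4.ln nl h (by
      clear e w0
      induction hw using Submodule.span_induction with
      | mem _ h =>
        obtain ⟨ξ, rfl⟩ := h
        rw [hΦ]
        exact sa.locFinite _ _ (R4.mem fc.ff rs lo hψ ξ)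
      | zero =>
        refine ⟨⊥, fun _ _ h => ?_, inferInstance, zero_mem _⟩
        rw [(Submodule.mem_bot ℂ).1 h, map_zero]
        exact zero_mem _
      | add u v _ _ hu hv =>
        obtain ⟨N, i, f, hu⟩ := hu
        obtain ⟨M, i', f', hv⟩ := hv
        refine ⟨N ⊔ M, fun δ F h => ?_, inferInstance, Submodule.add_mem_sup hu hv⟩
        obtain ⟨p, hp, q, hq, rfl⟩ := Submodule.mem_sup.1 h
        rw [map_add]
        exact Submodule.add_mem_sup (i _ _ hp) (i' _ _ hq)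
      | smul a u _ hu =>
        obtain ⟨N, i, f, hu⟩ := hu
        exact ⟨N, i, f, N.smul_mem a hu⟩)) w0 e
  have := W4.pow fc.pos _ _ (W4.ad_nil nl s hn h) (ρ n).toLinearMap Φ
    (fun ξ => by rw [li, show sg 0 _ = 0 from c0, zero_mul, add_zero]) δ
  rwa [Module.End.pow_apply, hΦ] at this

end Vale.Agent.P283R.Sg
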